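import Mathlib
import Vale.Agent.P299.H835.IX.Fock

/-!
# Systems of parameters of a polynomial ring are regular; determinants and colon ideals
-/

noncomputable section

namespace Vale.Agent.P287T.Per.AlgK

open MvPolynomial Matrix P299.IX Set Function

variable {n : ℕ} {R R' : Type} [CommRing R] [Algebra ℂ R] [CommRing R'] [Algebra ℂ R']

/-- Linear combinations of complex matrices. -/
def cb (M : Fin n → Matrix (FI n) (FI n) ℂ) (z : Fin n → R) : Matrix (FI n) (FI n) R :=
  ∑ l, z l • (algebraMap ℂ R).mapMatrix (M l)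

theorem cb_apply (M : Fin n → Matrix (FI n) (FI n) ℂ) (z : Fin n → R) (I K : FI n) :
    cb M z I K = ∑ l, z l * algebraMap ℂ R (M l I K) := by
  simp [cb, Matrix.sum_apply]

theorem cb_anti (M N : Fin n → Matrix (FI n) (FI n) ℂ) (z a : Fin n → R) :
    cb M z * cb N a + cb N a * cb M z =
      ∑ k, ∑ l, (z k * a l) • (algebraMap ℂ R).mapMatrix (M k * N l + N l * M k) := by
  rw [cb, cb, Finset.sum_mul_sum, Finset.sum_mul_sum, Finset.sum_comm (s := Finset.univ)
    (f := fun l k => a l • _ * _), ← Finset.sum_add_distrib]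
  refine Finset.sum_congr rfl fun k _ => ?_
  rw [← Finset.sum_add_distrib]
  refine Finset.sum_congr rfl fun l _ => ?_
  rw [smul_mul_smul_comm, smul_mul_smul_comm, map_add, map_mul, map_mul, mul_comm (a l), smul_add]

theorem cb_hom (z a : Fin n → R) :
    cb iot z * cb eps a + cb eps a * cb iot z = (∑ l, z l * a l) • 1 := by
  rw [cb_anti, Finset.sum_smul]
  refine Finset.sum_congr rfl fun k _ => ?_
  rw [Finset.sum_eq_single k (fun l _ h => by rw [car, if_neg h.symm, map_zero, smul_zero])
    (by simp), car, if_pos rfl, map_one]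

theorem cb_sq (z : Fin n → R) : cb iot z * cb iot z = 0 := by
  have h := cb_anti iot iot z z
  rw [Finset.sum_eq_zero fun k _ => Finset.sum_eq_zero fun l _ => by
    rw [iot_iot, neg_add_cancel, map_zero, smul_zero], ← two_smul ℂ] at h
  exact (smul_eq_zero.1 h).resolve_left two_ne_zero

theorem cb_map (φ : R →ₐ[ℂ] R') (M : Fin n → Matrix (FI n) (FI n) ℂ) (z : Fin n → R)
    (c : FI n → R) : φ ∘ (cb M z *ᵥ c) = cb M (φ ∘ z) *ᵥ (φ ∘ c) := by
  funext I
  simp [mulVec, dotProduct, cb_apply]

/-- Chains of degree at least `i`. -/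
def Fl (i : ℕ) (c : FI n → R) : Prop := ∀ s : FI n, s.card < i → c s = 0

theorem fl_of {M : Fin n → Matrix (FI n) (FI n) ℂ} {i j : ℕ} (z : Fin n → R) {c : FI n → R}
    (h : ∀ l K I, M l K I ≠ 0 → K.card < j → I.card < i) (hc : Fl i c) : Fl j (cb M z *ᵥ c) := by
  intro K hK
  rw [mulVec, dotProduct]
  refine Finset.sum_eq_zero fun I _ => ?_
  by_cases hI : I.card < i
  · rw [hc I hI, mul_zero]
  · rw [cb_apply, Finset.sum_eq_zero fun l _ => by
      rw [by_contra fun e => hI (h l K I e hK), map_zero, mul_zero], zero_mul]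

theorem eps_ne {l : Fin n} {I K : FI n} (h : eps l I K ≠ 0) : l ∉ K ∧ I = insert l K :=
  by_contra fun e => h (if_neg e)

theorem fl_d {i : ℕ} (z : Fin n → R) {c : FI n → R} (hc : Fl (i + 1) c) : Fl i (cb iot z *ᵥ c) :=
  fl_of z (fun l K I h hK => by
    obtain ⟨a, rfl⟩ := eps_ne (I := I) (K := K) h
    rw [Finset.card_insert_of_notMem a]; omega) hc

theorem fl_h {i : ℕ} (z : Fin n → R) {c : FI n → R} (hc : Fl i c) : Fl (i + 1) (cb eps z *ᵥ c) :=
  fl_of z (fun l K I h hK => by
    obtain ⟨a, rfl⟩ := eps_ne h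
    rw [Finset.card_insert_of_notMem a] at hK; omega) hc

/-- Boundaries. -/
def Bd (z : Fin n → R) (i : ℕ) (c : FI n → R) : Prop := ∃ b, Fl (i + 1) b ∧ c = cb iot z *ᵥ b

/-- Exactness of the Koszul complex in the degrees `≥ i`. -/
def Ex (z : Fin n → R) (i : ℕ) : Prop := ∀ c, Fl i c → cb iot z *ᵥ c = 0 → Bd z i c

theorem step (φ : R →ₐ[ℂ] R') (σ : R' →ₐ[ℂ] R) (hσ : ∀ y, φ (σ y) = y) {x : R}
    (hx : ∀ r, x * r = 0 → r = 0) (h0 : φ x = 0) (hk : ∀ r, φ r = 0 → x ∣ r) {z : Fin n → R}
    {i : ℕ} (h : Ex (φ ∘ z) (i + 1)) {c : FI n → R} : Bd z i (x • c) → Bd z i c := by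
  rintro ⟨b, b1, b2⟩
  obtain ⟨b', c1, c2⟩ := h (φ ∘ b) (fun s hs => by simp [b1 s hs]) (by
    rw [← cb_map, ← b2]; funext s; simp [h0])
  have c3 : Fl (i + 1) (cb iot z *ᵥ (σ ∘ b')) := fl_d z fun s hs => by simp [c1 s hs]
  choose e he using fun s => hk ((b - cb iot z *ᵥ (σ ∘ b')) s) (by
    have := congrFun (cb_map φ iot z (σ ∘ b')) s
    rw [show φ ∘ σ ∘ b' = b' from funext fun _ => hσ _, ← c2] at this
    rw [Pi.sub_apply, map_sub]
    exact sub_eq_zero.2 this.symm)
  refine ⟨e, fun s hs => hx _ (by rw [← he, Pi.sub_apply, b1 s hs, c3 s hs, sub_zero]), ?_⟩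
  have e1 : b = x • e + cb iot z *ᵥ (σ ∘ b') := sub_eq_iff_eq_add.1 (funext he)
  rw [e1, mulVec_add, mulVec_mulVec, cb_sq, zero_mulVec, add_zero, mulVec_smul] at b2
  funext s
  exact sub_eq_zero.1 (hx _ (by rw [mul_sub]; exact sub_eq_zero.2 (congrFun b2 s)))

/-- The common zero set is contained in the origin. -/
def Sop {m : ℕ} (z : Fin n → MvPolynomial (Fin m) ℂ) : Prop :=
  ∀ j, X j ∈ (Ideal.span (range z)).radical

theorem ex_poly (m : ℕ) : ∀ (z : Fin n → MvPolynomial (Fin m) ℂ), Sop z → ∀ i, n < i + m →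
    Ex z i := by
  induction m with
  | zero =>
    intro z _ i hi c hc _
    refine ⟨0, fun _ _ => rfl, funext fun s => ?_⟩
    rw [mulVec_zero, hc s ((Finset.card_le_univ s).trans_lt (by simpa using hi))]
    rfl
  | succ m ih =>
    intro z hz i hi c hc hd
    set φ : MvPolynomial (Fin (m + 1)) ℂ →ₐ[ℂ] MvPolynomial (Fin m) ℂ := aeval (Fin.cons 0 X)
    have hσ : ∀ y, φ (rename Fin.succ y) = y := fun y => by
      rw [aeval_rename]; exact aeval_X_left_apply y
    have hk : ∀ r, φ r = 0 → X 0 ∣ r := fun r hr => by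
      have : ((Ideal.Quotient.mkₐ ℂ (Ideal.span {X 0})).comp (rename Fin.succ)).comp φ =
          Ideal.Quotient.mkₐ ℂ (Ideal.span {X 0}) := algHom_ext fun j => by
        refine Fin.cases ?_ (fun j => by simp [φ]) j
        simp [φ]
      have := AlgHom.congr_fun this r
      rw [AlgHom.comp_apply, hr, map_zero] at this
      exact Ideal.mem_span_singleton.1 (Ideal.Quotient.eq_zero_iff_mem.1 this.symm)
    have hE := ih (φ ∘ z) (fun j => by
      obtain ⟨N, hN⟩ := hz j.succ
      have := Ideal.mem_map_of_mem φ hN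
      rw [Ideal.map_span, ← range_comp] at this
      exact ⟨N, by simpa [φ] using this⟩) (i + 1) (by omega)
    obtain ⟨N, hN⟩ := hz 0
    obtain ⟨a, ha⟩ := Ideal.mem_span_range_iff_exists_fun.1 hN
    have h1 : Bd z i ((X 0 ^ N : MvPolynomial (Fin (m + 1)) ℂ) • c) := ⟨_, fl_h a hc, by
      have := congrArg (· *ᵥ c) (cb_hom z a)
      simp only [add_mulVec, ← mulVec_mulVec, hd, mulVec_zero, add_zero, smul_mulVec,
        one_mulVec] at this
      rw [this, ← ha]
      simp only [mul_comm]⟩
    clear hN ha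
    induction N with
    | zero => simpa using h1
    | succ N ihN =>
      rw [pow_succ', mul_smul] at h1
      exact ihN (step φ (rename Fin.succ) hσ
        (fun r h => (mul_eq_zero.1 h).resolve_left (X_ne_zero _)) (by simp [φ]) hk hE h1)

/-- The ideal generated by all elements but one. -/
abbrev oth (z : Fin n → R) (k : Fin n) : Ideal R := Ideal.span (range (update z k 0))

/-- Every element is regular modulo the other ones. -/
def LR (z : Fin n → R) : Prop := ∀ k f, z k * f ∈ oth z k → f ∈ oth z k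

theorem Sop.lr {z : Fin n → MvPolynomial (Fin n) ℂ} (hz : Sop z) : LR z := by
  intro k f hf
  obtain ⟨a, ha⟩ := Ideal.mem_span_range_iff_exists_fun.1 hf
  set c := update (-a) k f
  have hc : ∑ l, z l * c l = 0 := by
    rw [← Finset.add_sum_erase _ _ (Finset.mem_univ k)] at ha ⊢
    rw [update_self, mul_zero, zero_add] at ha
    rw [show c k = f from update_self .., ← ha, ← Finset.sum_add_distrib]
    refine Finset.sum_eq_zero fun l hl => ?_
    have := (Finset.mem_erase.1 hl).1
    simp [c, update_of_ne this, mul_comm]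
  have d0 : cb iot z *ᵥ Pi.single ∅ 1 = 0 := by
    funext K
    rw [mulVec_single_one, col_apply, cb_apply]
    exact Finset.sum_eq_zero fun l _ => by
      rw [show iot l K ∅ = 0 from by_contra fun e =>
        Finset.insert_ne_empty _ _ (eps_ne (I := ∅) (K := K) e).2.symm, map_zero, mul_zero]
  obtain ⟨b, -, hb⟩ := ex_poly n z hz 1 (by omega) (cb eps c *ᵥ Pi.single ∅ 1)
    (fl_h c fun _ h => absurd h (Nat.not_lt_zero _)) (by
      have := congrArg (· *ᵥ Pi.single ∅ 1) (cb_hom z c)
      simpa only [add_mulVec, ← mulVec_mulVec, d0, mulVec_zero, add_zero, hc, zero_smul,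
        zero_mulVec] using this)
  have h1 := congrFun hb {k}
  rw [mulVec_single_one, col_apply, cb_apply, Finset.sum_eq_single k (fun l _ h => by
    rw [show eps l {k} ∅ = 0 from by_contra fun e => h (by simpa [eq_comm] using (eps_ne e).2),
      map_zero, mul_zero]) (by simp), show eps k {k} ∅ = 1 by simp [eps, sg], map_one, mul_one,
    show c k = f from update_self ..] at h1
  rw [h1, mulVec, dotProduct]
  refine Ideal.sum_mem _ fun I _ => Ideal.mul_mem_right _ _ ?_
  rw [cb_apply]
  refine Ideal.sum_mem _ fun l _ => ?_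
  rcases eq_or_ne l k with rfl | h
  · rw [show iot l {l} I = 0 from by_contra fun e =>
      (eps_ne (I := I) (K := {l}) e).1 (Finset.mem_singleton_self l), map_zero, mul_zero]
    exact zero_mem _
  · exact Ideal.mul_mem_right _ _ (Ideal.subset_span ⟨l, update_of_ne h ..⟩)

omit [Algebra ℂ R]

theorem oth_le (z : Fin n → R) (k : Fin n) (v : R) :
    oth z k ≤ Ideal.span (range (update z k v)) := Ideal.span_le.2 (by
  rintro _ ⟨l, rfl⟩
  rcases eq_or_ne l k with rfl | h
  · rw [update_self]; exact zero_mem _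
  · exact Ideal.subset_span ⟨l, by rw [update_of_ne h, update_of_ne h]⟩)

theorem oth_le' (z : Fin n → R) (k : Fin n) : oth z k ≤ Ideal.span (range z) := by
  simpa using oth_le z k (z k)

theorem split {z : Fin n → R} {f : R} (h : f ∈ Ideal.span (range z)) (k : Fin n) :
    ∃ c, f - c * z k ∈ oth z k := by
  obtain ⟨a, rfl⟩ := Ideal.mem_span_range_iff_exists_fun.1 h
  refine ⟨a k, ?_⟩
  rw [← Finset.add_sum_erase _ _ (Finset.mem_univ k), add_sub_cancel_left]
  exact Ideal.sum_mem _ fun l hl => Ideal.mul_mem_left _ _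
    (Ideal.subset_span ⟨l, update_of_ne (Finset.mem_erase.1 hl).1 ..⟩)

theorem dot_mem (u z : Fin n → R) : u ⬝ᵥ z ∈ Ideal.span (range z) :=
  Ideal.sum_mem _ fun l _ => Ideal.mul_mem_left _ _ (Ideal.subset_span ⟨l, rfl⟩)

/-- The rule of Cramer. -/
theorem cramer_mem (A : Matrix (Fin n) (Fin n) R) (g u : Fin n → R) :
    (u ⬝ᵥ g) * A.det ∈ Ideal.span (range (A *ᵥ g)) := by
  have : (u ⬝ᵥ g) * A.det = (u ᵥ* A.adjugate) ⬝ᵥ (A *ᵥ g) := by
    rw [← dotProduct_mulVec, mulVec_mulVec, adjugate_mul, smul_mulVec, one_mulVec,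
      dotProduct_smul, smul_eq_mul, mul_comm]
  exact this ▸ dot_mem _ _

theorem cramer_mem' (A : Matrix (Fin n) (Fin n) R) {g : Fin n → R} {f : R}
    (h : f ∈ Ideal.span (range g)) : f * A.det ∈ Ideal.span (range (A *ᵥ g)) := by
  obtain ⟨a, rfl⟩ := Ideal.mem_span_range_iff_exists_fun.1 h
  exact cramer_mem A g a

/-- The determinant of the transition matrix is well defined. -/
theorem det_sub {M M' : Matrix (Fin n) (Fin n) R} {g : Fin n → R} (e : M' *ᵥ g = M *ᵥ g)
    (h : LR (M *ᵥ g)) : M.det - M'.det ∈ Ideal.span (range (M *ᵥ g)) := by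
  have key : ∀ s : Finset (Fin n), (Matrix.of fun i => if i ∈ s then M i else M' i).det - M'.det ∈
      Ideal.span (range (M *ᵥ g)) := by
    intro s
    induction s using Finset.induction_on with
    | empty => simp [show (Matrix.of fun i => M' i) = M' from rfl]
    | insert k s hk ih =>
      set A : Matrix (Fin n) (Fin n) R := Matrix.of fun i => if i ∈ s then M i else M' i
      have e1 : (Matrix.of fun i => if i ∈ insert k s then M i else M' i) =
          A.updateRow k ((M k - M' k) + A k) := by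
        ext i j
        rcases eq_or_ne i k with rfl | hi
        · simp [A, hk]
        · simp [A, hi]
      rw [e1, det_updateRow_add, updateRow_eq_self, add_sub_assoc]
      refine add_mem (oth_le' _ k (h k _ ?_)) ih
      have e2 : A.updateRow k (M k - M' k) *ᵥ g = update (M *ᵥ g) k 0 := by
        funext i
        rcases eq_or_ne i k with rfl | hi
        · rw [update_self, mulVec, updateRow_self, sub_dotProduct]
          exact sub_eq_zero.2 (congrFun e i).symm
        · rw [update_of_ne hi, mulVec, updateRow_ne hi]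
          by_cases a : i ∈ s
          · simp [A, a, mulVec]
          · simpa [A, a, mulVec] using congrFun e i
      rw [oth, ← e2]
      exact cramer_mem _ g (M k)
  simpa [show (Matrix.of fun i => M i) = M from rfl] using key Finset.univ

theorem Sop.mono {m : ℕ} {z z' : Fin n → MvPolynomial (Fin m) ℂ} (hz : Sop z)
    (h : ∀ i, z i ∈ (Ideal.span (range z')).radical) : Sop z' := fun j =>
  Ideal.radical_le_radical_iff.2 (Ideal.span_le.2 (range_subset_iff.2 h)) (hz j)

theorem Sop.pow {g : Fin n → MvPolynomial (Fin n) ℂ} (hg : Sop g) (t : ℕ) (s : Finset (Fin n)) :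
    LR fun i => if i ∈ s then g i ^ (t + 1) else g i := (hg.mono fun i => by
  by_cases a : i ∈ s
  · exact ⟨t + 1, Ideal.subset_span ⟨i, if_pos a⟩⟩
  · exact Ideal.le_radical (Ideal.subset_span ⟨i, if_neg a⟩)).lr

theorem Sop.of_pow {g : Fin n → MvPolynomial (Fin n) ℂ} (hg : Sop g) (t : ℕ) (s : Finset (Fin n)) :
    ∀ f, f * ∏ i ∈ s, g i ^ t ∈ Ideal.span (range fun i => if i ∈ s then g i ^ (t + 1) else g i) →
      f ∈ Ideal.span (range g) := by
  induction s using Finset.induction_on with
  | empty => simp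
  | insert k s hk ih =>
    intro f hf
    obtain ⟨c, hc⟩ := split hf k
    have h1 := hg.pow t (insert k s) k (f * ∏ i ∈ s, g i ^ t - c * g k) (by
      have := Ideal.mul_mem_left _ (g k) hc
      rw [Finset.prod_insert hk] at this
      simp only [Finset.mem_insert_self, if_true] at this ⊢
      exact (Ideal.mem_iff_of_associated (Associated.of_eq (by ring))).1 this)
    have h2 := oth_le _ k (g k) h1
    rw [show update _ k (g k) = fun i => if i ∈ s then g i ^ (t + 1) else g i from
      funext fun i => by rcases eq_or_ne i k with rfl | hi <;> simp [*]] at h2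
    refine ih f ((Submodule.sub_mem_iff_left _ ?_).1 h2)
    exact Ideal.mul_mem_left _ _ (Ideal.subset_span ⟨k, if_neg hk⟩)

/-- **The colon ideal of the determinant.** -/
theorem Sop.colon {g : Fin n → MvPolynomial (Fin n) ℂ} (hg : Sop g)
    {a : Matrix (Fin n) (Fin n) (MvPolynomial (Fin n) ℂ)}
    (ha : ∀ i, g i ∈ (Ideal.span (range (a *ᵥ g))).radical) {f : MvPolynomial (Fin n) ℂ}
    (hf : f * a.det ∈ Ideal.span (range (a *ᵥ g))) : f ∈ Ideal.span (range g) := by
  choose N hN using ha
  set t := Finset.univ.sup N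
  choose B hB using fun i => Ideal.mem_span_range_iff_exists_fun.1
    (Ideal.pow_mem_of_pow_mem _ (hN i) ((Finset.le_sup (Finset.mem_univ i)).trans (Nat.le_succ t)))
  have e1 : (Matrix.of B * a) *ᵥ g = fun i => g i ^ (t + 1) := by
    rw [← mulVec_mulVec]; exact funext hB
  have e2 : diagonal (fun i => g i ^ t) *ᵥ g = (Matrix.of B * a) *ᵥ g := by
    rw [e1]; funext i; rw [mulVec_diagonal, pow_succ]
  have h1 := det_sub e2 (by simpa [e1] using hg.pow t Finset.univ)
  have h2 := cramer_mem' (Matrix.of B) hf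
  rw [mulVec_mulVec] at h2
  have h3 := sub_mem h2 (Ideal.mul_mem_left _ f h1)
  rw [e1, det_mul, det_diagonal] at h3
  refine hg.of_pow t Finset.univ f ?_
  simp only [Finset.mem_univ, if_true]
  exact (Ideal.mem_iff_of_associated (Associated.of_eq (by ring))).1 h3

end Vale.Agent.P287T.Per.AlgK
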