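import Vale.Agent.P287T.Per.St
import Vale.Agent.P287T.Per.AlgK
import Vale.Agent.P271.Hilb.UPoly

/-!
# The socle of the Jacobian ring of a smooth cubic form
-/

noncomputable section

namespace Vale.Agent.P287T.Per

open Set Function Module MvPolynomial Matrix P269.Hdg P287Q AlgK

namespace AlgK

variable {n : ℕ}

theorem hom_det {A : Matrix (Fin n) (Fin n) (MvPolynomial (Fin n) ℂ)} {e : ℕ}
    (h : ∀ i j, (A i j).IsHomogeneous e) : A.det.IsHomogeneous (n * e) := by
  rw [det_apply']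
  refine IsHomogeneous.sum _ _ _ fun σ _ => ?_
  have := IsHomogeneous.prod Finset.univ (fun i => A (σ i) i) (fun _ => e) fun i _ => h _ _
  rw [Finset.sum_const, Finset.card_fin, smul_eq_mul] at this
  rw [← map_intCast (C : ℂ →+* MvPolynomial (Fin n) ℂ)]
  exact this.C_mul _

attribute [local instance] MvPolynomial.gradedAlgebra in
theorem hom_comb {ι : Type} [Fintype ι] {g : ι → MvPolynomial (Fin n) ℂ} {e k : ℕ}
    (hg : ∀ j, (g j).IsHomogeneous e) {p : MvPolynomial (Fin n) ℂ} (hp : p.IsHomogeneous (k + e))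
    (h : p ∈ Ideal.span (range g)) :
    ∃ c : ι → MvPolynomial (Fin n) ℂ, (∀ j, (c j).IsHomogeneous k) ∧ p = ∑ j, c j * g j := by
  obtain ⟨a, ha⟩ := Ideal.mem_span_range_iff_exists_fun.1 h
  refine ⟨fun j => DirectSum.decompose (homogeneousSubmodule (Fin n) ℂ) (a j) k,
    fun j => (DirectSum.decompose (homogeneousSubmodule (Fin n) ℂ) (a j) k).2, ?_⟩
  rw [← DirectSum.decompose_of_mem_same (homogeneousSubmodule (Fin n) ℂ) hp, ← ha,
    ← GradedRing.proj_apply, map_sum]
  exact Finset.sum_congr rfl fun j _ =>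
    DirectSum.coe_decompose_mul_add_of_right_mem (homogeneousSubmodule (Fin n) ℂ) (hg j)

/-- The exponent of the socle monomial. -/
def so (n N : ℕ) : Fin n →₀ ℕ := Finsupp.equivFunOnFinite.symm fun _ => N

theorem coeff_so {N : ℕ} {p : MvPolynomial (Fin n) ℂ}
    (h : p ∈ Ideal.span (range fun i : Fin n => (X i : MvPolynomial (Fin n) ℂ) ^ (N + 1))) :
    coeff (so n N) p = 0 := by
  obtain ⟨a, rfl⟩ := Ideal.mem_span_range_iff_exists_fun.1 h
  rw [coeff_sum]
  refine Finset.sum_eq_zero fun i _ => ?_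
  rw [X_pow_eq_monomial, coeff_mul_monomial', if_neg fun e => by simpa [so] using e i]

theorem mem_of_so {N : ℕ} {p : MvPolynomial (Fin n) ℂ}
    (h : ∀ s, coeff (so n N) (p * monomial s 1) = 0) :
    p ∈ Ideal.span (range fun i : Fin n => (X i : MvPolynomial (Fin n) ℂ) ^ (N + 1)) := by
  rw [p.as_sum]
  refine Ideal.sum_mem _ fun m hm => ?_
  by_cases e : m ≤ so n N
  · have := h (so n N - m)
    rw [coeff_mul_monomial', if_pos tsub_le_self, tsub_tsub_cancel_of_le e, mul_one] at this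
    exact absurd this (mem_support_iff.1 hm)
  · obtain ⟨i, hi⟩ := not_forall.1 e
    have : Finsupp.single i (N + 1) ≤ m := Finsupp.single_le_iff.2 (by simpa [so] using hi)
    rw [← tsub_add_cancel_of_le this, ← mul_one (coeff _ p), ← monomial_mul, ← X_pow_eq_monomial]
    exact Ideal.mul_mem_left _ _ (Ideal.subset_span ⟨i, rfl⟩)

theorem so_deg (N : ℕ) : (so n N).degree = n * N := by simp [so, Finsupp.degree_eq_sum]

theorem prod_so (N : ℕ) : ∏ i : Fin n, (X i : MvPolynomial (Fin n) ℂ) ^ N = monomial (so n N) 1 := by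
  rw [monomial_eq, C_1, one_mul, Finsupp.prod_fintype _ _ fun _ => pow_zero _]
  rfl

/-- **The residue** of a system of parameters `g = H x` of quadrics. -/
theorem exists_res {H : Matrix (Fin n) (Fin n) (MvPolynomial (Fin n) ℂ)}
    (hh : ∀ j, ((H *ᵥ X) j).IsHomogeneous 2) (hg : Sop (H *ᵥ X)) :
    ∃ ρ : MvPolynomial (Fin n) ℂ →ₗ[ℂ] ℂ, ρ H.det = 1 ∧ (∀ f ∈ Ideal.span (range (H *ᵥ X)), ρ f = 0) ∧
      (∀ f d, f.IsHomogeneous d → d ≠ n → ρ f = 0) ∧
      ∀ f, (∀ s, ρ (f * monomial s 1) = 0) → f ∈ Ideal.span (range (H *ᵥ X)) := by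
  choose N hN using hg
  set t := Finset.univ.sup N
  choose a a1 a2 using fun i => hom_comb (k := t) hh (isHomogeneous_X_pow i (t + 2))
    (Ideal.pow_mem_of_pow_mem _ (hN i)
      ((Finset.le_sup (Finset.mem_univ i)).trans (Nat.le_add_right t 2)))
  have e1 : Matrix.of a *ᵥ (H *ᵥ X) = fun i => X i ^ (t + 1 + 1) := funext fun i => (a2 i).symm
  have sX : Sop (X : Fin n → MvPolynomial (Fin n) ℂ) := fun j =>
    Ideal.le_radical (Ideal.subset_span ⟨j, rfl⟩)
  refine ⟨lcoeff ℂ (so n (t + 1)) ∘ₗ LinearMap.mulRight ℂ (Matrix.of a).det, ?_, fun f hf => ?_,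
    fun f d hf hd => ?_, fun f hf => Sop.colon (a := Matrix.of a) (fun j => ⟨_, hN j⟩)
      (fun i => ?_) ?_⟩
  · have e2 : diagonal (fun i => X i ^ (t + 1)) *ᵥ X = (Matrix.of a * H) *ᵥ X := by
      rw [← mulVec_mulVec, e1]; funext i; rw [mulVec_diagonal, ← pow_succ]
    have := det_sub e2 (by simpa [← mulVec_mulVec, e1] using sX.pow (t + 1) Finset.univ)
    rw [← mulVec_mulVec, e1, det_mul, det_diagonal, prod_so, mul_comm] at this
    simpa [sub_eq_zero] using coeff_so this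
  · exact coeff_so (e1 ▸ cramer_mem' _ hf)
  · refine (hf.mul (hom_det (A := Matrix.of a) a1)).coeff_eq_zero ?_
    rw [so_deg, mul_add]; omega
  · rw [e1]
    rw [mulVec, dotProduct]
    refine Ideal.sum_mem _ fun j _ => Ideal.mul_mem_left _ _ (Ideal.mem_radical_iff.2 ?_)
    exact ⟨_, Ideal.subset_span ⟨j, rfl⟩⟩
  · rw [e1]
    exact mem_of_so fun s => (mul_right_comm f _ _) ▸ hf s

end AlgK

variable {F : MP 5}

theorem Sm.alg_sop (h : Sm F) : Sop fun j => pderiv j F := fun j => by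
  rw [← vanishingIdeal_zeroLocus_eq_radical (K := ℂ), zeroLocus_span]
  intro x hx
  rw [h.sm x fun i => hx _ ⟨i, rfl⟩, aeval_X, Pi.zero_apply]

theorem Sm.alg_sqf (h : Sm F) : Squarefree F := by
  have k : ∀ p : MP 5, Prime p → ¬∀ j, p ∣ pderiv j F := fun p hp hj => by
    have d : ∀ i, p ∣ X i := fun i => by
      obtain ⟨N, hN⟩ := h.alg_sop i
      exact hp.dvd_of_dvd_pow (Ideal.mem_span_singleton.1 (Ideal.span_le.2 (range_subset_iff.2
        fun j => Ideal.mem_span_singleton.2 (hj j)) hN))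
    have := map_dvd (eval (Pi.single 1 1))
      ((hp.irreducible.associated_of_dvd X_prime.irreducible (d 0)).dvd'.trans (d 1))
    simp at this
  have h0 : F ≠ 0 := fun e => k (X 0) X_prime fun j => by simp [e]
  refine (squarefree_iff_irreducible_sq_not_dvd_of_ne_zero h0).2 fun p hp ⟨q, e⟩ =>
    k p hp.prime fun j => ?_
  rw [e, mul_assoc, Derivation.leibniz, Derivation.leibniz]
  exact ⟨pderiv j (p * q) + q * pderiv j p, by simp only [Derivation.leibniz, smul_eq_mul]; ring⟩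

theorem stAlg : StAlg := by
  intro F h
  set H : Matrix (Fin 6) (Fin 6) (MP 5) := Matrix.of fun i j => pderiv i (pderiv j F)
  have e1 : ((2⁻¹ : ℂ) • Hᵀ) *ᵥ X = fun j => pderiv j F := funext fun j => by
    have := (h.hom_pd j).sum_X_mul_pderiv
    rw [smul_mulVec, Pi.smul_apply, show (Hᵀ *ᵥ X) j = 2 • pderiv j F from
      (Finset.sum_congr rfl fun i _ => mul_comm _ _).trans this, ← Nat.cast_smul_eq_nsmul ℂ,
      smul_smul]
    norm_num
  obtain ⟨ρ, r1, r2, r3, r4⟩ := exists_res (H := (2⁻¹ : ℂ) • Hᵀ) (e1 ▸ h.hom_pd) (e1 ▸ h.alg_sop)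
  rw [e1] at r2 r4
  have h6 : (Hes F).IsHomogeneous 6 := hom_det (e := 1) fun _ _ => (h.hom_pd _).pderiv
  have r0 : ρ (Hes F) ≠ 0 := fun e => by
    rw [det_smul_of_tower, det_transpose, map_smul, show ρ H.det = 0 from e, smul_zero] at r1
    exact zero_ne_one r1
  refine ⟨h6, ?_, fun A hA hJ => ?_, P271.Hilb.finrank_homogeneousSubmodule 5 3,
    (finrank_range_le_card _).trans (by simp)⟩
  · by_contra! hc
    have : Hes F ∈ (Ideal.span {F}).radical := by
      rw [← vanishingIdeal_zeroLocus_eq_radical (K := ℂ), zeroLocus_span]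
      intro x hx
      rcases eq_or_ne x 0 with rfl | h0
      · simpa using eval_smul_of_hom h6 0 0
      · exact hc x ⟨h0, hx F rfl⟩
    obtain ⟨N, hN⟩ := this
    obtain ⟨q, e⟩ := h.alg_sqf.isRadical N _ (Ideal.mem_span_singleton.1 hN)
    refine r0 (r2 _ ?_)
    have e2 : C (3⁻¹ : ℂ) * ∑ i, X i * pderiv i F = F := by
      rw [h.hom.sum_X_mul_pderiv, ← smul_eq_C_mul, ← Nat.cast_smul_eq_nsmul ℂ, smul_smul]; norm_num
    have := Ideal.mul_mem_left _ (C (3⁻¹ : ℂ)) (dot_mem X fun j => pderiv j F)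
    rw [dotProduct, e2] at this
    rw [e]
    exact Ideal.mul_mem_right _ _ this
  · obtain ⟨s, hs⟩ : ∃ s, ρ (A * monomial s 1) ≠ 0 := by
      by_contra! hc
      obtain ⟨c, c1, rfl⟩ := hom_comb (k := 1) h.hom_pd hA (r4 A hc)
      refine hJ (sum_mem fun j _ => ?_)
      have := homogeneousSubmodule_one_eq_span_X.le (c1 j)
      exact Submodule.span_induction (fun _ ⟨i, e⟩ => e ▸ Submodule.subset_span ⟨(i, j), rfl⟩)
        (by simp) (fun _ _ _ _ a b => add_mul _ _ (pderiv j F) ▸ add_mem a b)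
        (fun t _ _ a => smul_mul_assoc t _ (pderiv j F) ▸ Submodule.smul_mem _ t a) this
    have hB : (monomial s (1 : ℂ)).IsHomogeneous 3 := isHomogeneous_monomial _ (by
      have := mt (r3 _ _ (hA.mul (isHomogeneous_monomial (1 : ℂ) rfl))) hs
      omega)
    set B := (ρ (Hes F) / ρ (A * monomial s 1)) • monomial s (1 : ℂ)
    have hB' : B.IsHomogeneous 3 := (homogeneousSubmodule _ ℂ 3).smul_mem _ hB
    have hq : (A * B - Hes F).IsHomogeneous (4 + 2) := (hA.mul hB').sub h6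
    obtain ⟨c, c1, c2⟩ := hom_comb h.hom_pd hq (r4 _ fun u => by
      rcases eq_or_ne u 0 with rfl | hu
      · rw [show monomial 0 (1 : ℂ) = (1 : MP 5) from rfl, mul_one, map_sub, mul_smul_comm, map_smul,
          smul_eq_mul, div_mul_cancel₀ _ hs, sub_self]
      · refine r3 _ _ (hq.mul (isHomogeneous_monomial (1 : ℂ) rfl)) ?_
        have := mt (Finsupp.degree_eq_zero_iff u).1 hu
        omega)
    exact ⟨B, hB', c, c1, sub_eq_iff_eq_add'.1 c2⟩

end Vale.Agent.P287T.Per
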