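import Vale.Agent.P287T.Per.St

/-!
# P287, periods: the Hodge filtration of the cubic fourfold
-/

noncomputable section

namespace Vale.Agent.P287T.Per

open Set Function Topology Filter Module MvPolynomial P291Z P269 P269.Holo P269.Mono P269.Coh
  P269.Tq P269.Hdg P287Q P287Q.Hb P287Q.Cub P287Q.Zc Metric
open scoped ComplexConjugate ContDiff

section abs

variable {Y : PS} {T : ℤ → ℤ → Submodule ℂ (H Y.X)} {h σ y : H Y.X} (c : CubH Y T h)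
include c

theorem fil_deg {p q : ℤ} {z : H Y.X} (hy : H.IsDeg 4 y) (hz : z ∈ T p q) (e : p + q ≠ 4) :
    Y.J (y * z) = 0 :=
  Y.pd.deg _ (by have := c.n; omega) _ (hy.mul (c.hg.deg _ _ z hz))

theorem fil_nd (hy : H.IsDeg 4 y) (k : ∀ z, H.IsDeg 4 z → Y.J (y * z) = 0) : y = 0 :=
  Y.ext_left fun b => by
    rw [zero_mul, map_zero]
    refine c.hg.induction (P := fun b => Y.J (y * b) = 0) (by rw [mul_zero, map_zero])
      (fun a b ha hb => by rw [mul_add, map_add, ha, hb, add_zero]) (fun p q z hz => ?_) b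
    by_cases e : p + q = 4
    · exact k z (e ▸ c.hg.deg _ _ z hz)
    · exact fil_deg c hy hz e

theorem fil_mem {a b : ℤ} (e : a + b = 4) (hy : H.IsDeg 4 y)
    (k : ∀ p q, p + q = 4 → 1 ≤ p → p ≤ 3 → a + p ≠ 4 → ∀ z ∈ T p q, Y.J (y * z) = 0) :
    y ∈ T a b := by
  refine c.hg.mem_iff.2 fun p q z hz h0 => ?_
  have hn := c.n
  by_cases e1 : p + q = 4
  swap
  · exact fil_deg c hy hz e1
  by_cases e2 : 1 ≤ p ∧ p ≤ 3
  · exact k p q e1 e2.1 e2.2 (by omega) z hz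
  have : z = 0 := by
    by_cases e3 : p = 0
    · obtain rfl : q = 4 := by omega
      exact (c.hg.eq_bot_swap c.h40).le (e3 ▸ hz)
    by_cases e4 : p = 4
    · obtain rfl : q = 0 := by omega
      exact c.h40.le (e4 ▸ hz)
    exact c.hg.eq_zero_out hz (by omega)
  rw [this, mul_zero, map_zero]

theorem fil_t22 (hσ : σ ∈ T 3 1) (h0 : σ ≠ 0) (hy : H.IsDeg 4 y) :
    y ∈ T 2 2 ↔ Y.J (y * σ) = 0 ∧ Y.J (y * cj σ) = 0 := by
  have hn := c.n
  refine ⟨fun k => ⟨c.hg.J_mul_eq_zero k hσ (by omega),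
    c.hg.J_mul_eq_zero k (c.hg.cj _ _ _ hσ) (by omega)⟩,
    fun k => fil_mem c (by norm_num) hy fun p q e e1 e2 e3 z hz => ?_⟩
  by_cases e4 : p = 3
  · obtain rfl : q = 1 := by omega
    obtain ⟨t, rfl⟩ := Submodule.mem_span_singleton.1 (c.gen hσ h0 (e4 ▸ hz))
    rw [mul_smul_comm, map_smul, k.1, smul_zero]
  · obtain rfl : p = 1 := by omega
    obtain rfl : q = 3 := by omega
    obtain ⟨t, ht⟩ := Submodule.mem_span_singleton.1 (c.gen hσ h0 (c.hg.cj _ _ _ hz))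
    rw [← cj_cj z, ← ht, LinearMap.map_smulₛₗ, mul_smul_comm, map_smul, k.2, smul_zero]

theorem fil_prim (hσ : σ ∈ T 3 1) : h * σ = 0 := c.h42.le (c.hg.mul 1 1 3 1 h c.h11 σ hσ)

theorem fil_prim_iff (hy : H.IsDeg 4 y) : h * y = 0 ↔ Y.J (h ^ 2 * y) = 0 := by
  refine ⟨fun k => by rw [sq, mul_assoc, k, mul_zero, map_zero], fun k => ?_⟩
  have hd := c.lf.deg.mul hy
  rcases amb_deg c.lf.deg (c.lf.amb _ (by have := c.n; omega) _ hd) hd with e | ⟨j, t, e, e'⟩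
  · exact e
  · obtain rfl : j = 3 := by omega
    rw [sq, mul_assoc, e', mul_smul_comm, ← pow_succ', map_smul, c.deg, smul_eq_mul] at k
    rw [e', (mul_eq_zero.1 k).resolve_right three_ne_zero, zero_smul]

theorem fil_dim (hσ : σ ∈ T 3 1) (h0 : σ ≠ 0) (K : Submodule ℂ (H Y.X))
    (hK : ∀ y, y ∈ K ↔ H.IsDeg 4 y ∧ h * y = 0 ∧ Y.J (y * σ) = 0) : finrank ℂ K = 21 := by
  have hn := c.n
  let f : H.deg Y.X 4 →ₗ[ℂ] ℂ × ℂ :=
    ((bil Y.J (h ^ 2)).prod ((bil Y.J).flip σ)) ∘ₗ (H.deg Y.X 4).subtype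
  have hf : ∀ y, f y = (Y.J (h ^ 2 * y.1), Y.J (y.1 * σ)) := fun _ => rfl
  obtain ⟨z, hz, k⟩ : ∃ z ∈ T 1 3, Y.J (z * σ) ≠ 0 := by
    by_contra k
    push Not at k
    exact h0 (c.hg.nondeg' hσ (by rw [hn]; exact k))
  have h2 : h ^ 2 ∈ T 2 2 := c.η_mem
  have hs : LinearMap.range f = ⊤ := eq_top_iff.2 fun w _ =>
    ⟨(w.1 / 3) • ⟨h ^ 2, isDeg_pow c.lf.deg 2⟩ + (w.2 / Y.J (z * σ)) • ⟨z, c.hg.deg _ _ z hz⟩, by
      rw [map_add, map_smul, map_smul, hf, hf, ← pow_add, c.deg,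
        c.hg.J_mul_eq_zero h2 hσ (by omega), c.hg.J_mul_eq_zero h2 hz (by omega)]
      ext
      · simp
      · simp [k]⟩
  have h1 := f.finrank_range_add_finrank_ker
  rw [hs, finrank_top, c.b4, finrank_prod, finrank_self] at h1
  have h3 : K = (LinearMap.ker f).map (H.deg Y.X 4).subtype := Submodule.ext fun y => by
    rw [hK]
    refine ⟨fun k => ⟨⟨y, k.1⟩, Prod.ext ((fil_prim_iff c k.1).1 k.2.1) k.2.2, rfl⟩, ?_⟩
    rintro ⟨y, k, rfl⟩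
    exact ⟨y.2, (fil_prim_iff c y.2).2 (congrArg Prod.fst k), congrArg Prod.snd k⟩
  rw [h3, Submodule.finrank_map_subtype_eq]
  omega

end abs

theorem fil_f3 {F : MP 5} (h : Sm F) (u : SM 5) (hu : u ∈ h.Z 4) (k : ∀ x ≠ 0, u.1 x ∈ Fl 3) :
    h.cls 4 u ∈ TT F 3 1 := by
  refine fil_mem h.cubH (by norm_num) (h.cls_deg 4 u) fun p q e _ _ _ z hz => ?_
  obtain ⟨v, hv, ho, rfl⟩ := h.mem_TT.1 hz
  have h1 : ML u v ∈ Fk true (3 + 2) (4 + (p + q)) :=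
    ML_Fk ⟨(h.mem_Z.1 hu).1, fun p q e x hx => k x hx p q e⟩
      (Om_le_Fk ho rfl (show 2 ≤ p by omega))
  have h2 : ML u v ∈ Hb.Nl (Pub.cone F) :=
    Fk_ind _ (fun _ => h.subC.zero_nl) (fun p q _ e _ hw => h.subC.Om_big hw
      (Or.inl (show (4 : ℤ) < p by have : 3 + 2 ≤ p := e; omega))) h1
  change h.J (h.cls 4 u * h.cls (p + q) v) = 0
  rw [← h.cls_mul hu hv, h.cls_nl (Hb.ML_Z h.subC hu hv) (zero_mem _) (by rwa [sub_zero]),
    h.cls_zero, map_zero]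

theorem stFil : StFil :=
  ⟨fil_f3, fun h _ hσ h0 _ hy => fil_t22 h.cubH hσ h0 hy, fun h _ hσ => fil_prim h.cubH hσ,
    fun h _ hσ h0 K hK => fil_dim h.cubH hσ h0 K hK, fun h _ hy k => fil_nd h.cubH hy k⟩

end Vale.Agent.P287T.Per
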