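import Vale.Agent.P287T.Per.St

/-!
# P287, periods of cubic fourfolds: the family of identifications
-/

noncomputable section

namespace Vale.Agent.P287T.Per

open Set Function Topology Filter Module MvPolynomial P291Z P269 P269.Holo P269.Mono P269.Coh
  P269.Tq P269.Hdg P287Q P287Q.Hb P287Q.Cub P287Q.Zc Metric
open scoped ComplexConjugate ContDiff Pointwise

theorem phi_dEval_add (G G' : MP 5) (x v : V) :
    dEval (G + G') x v = dEval G x v + dEval G' x v := by
  simp only [dEval_apply, map_add, add_mul, Finset.sum_add_distrib]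

theorem phi_dEval_smul (c : ℂ) (G : MP 5) (x v : V) : dEval (c • G) x v = c * dEval G x v := by
  simp only [dEval_apply, Derivation.map_smul, smul_eval, Finset.mul_sum, mul_assoc]

theorem phi_dEval_mul (G G' : MP 5) (x v : V) :
    dEval (G * G') x v = eval x G * dEval G' x v + eval x G' * dEval G x v := by
  simp only [dEval_apply, Derivation.leibniz, smul_eq_mul, map_add, map_mul, add_mul,
    Finset.sum_add_distrib, Finset.mul_sum, mul_assoc]

theorem phi_dEval_X (i : Fin 6) (x v : V) : dEval (X i : MP 5) x v = v i := by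
  rw [dEval_apply, Finset.sum_eq_single i]
  · simp
  · intro j _ hj
    rw [pderiv_X_of_ne (Ne.symm hj)]
    simp
  · simp

theorem phi_taylor1 {G : MP 5} (hG : G.IsHomogeneous 3) (x v : V) :
    eval (x + v) G = eval x G + dEval G x v + dEval G v x + eval v G := by
  have h1 : G ∈ homogeneousSubmodule (Fin 6) ℂ 3 := hG
  rw [← homogeneousSubmodule_one_pow, homogeneousSubmodule_one_eq_span_X, Submodule.span_pow] at h1
  induction h1 using Submodule.span_induction with
  | mem G h =>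
    have e3 := @pow_three (Set (MP 5)) Set.monoid (range X)
    rw [e3] at h
    obtain ⟨_, ⟨i, rfl⟩, _, ⟨_, ⟨j, rfl⟩, _, ⟨k, rfl⟩, rfl⟩, rfl⟩ := h
    simp only [phi_dEval_mul, phi_dEval_X, map_mul, eval_X, Pi.add_apply]
    ring
  | zero => simp [dEval_apply]
  | add G G' a b ih ih' =>
    have ha : G.IsHomogeneous 3 := by
      rwa [← Submodule.span_pow, ← homogeneousSubmodule_one_eq_span_X,
        homogeneousSubmodule_one_pow] at a
    have hb : G'.IsHomogeneous 3 := by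
      rwa [← Submodule.span_pow, ← homogeneousSubmodule_one_eq_span_X,
        homogeneousSubmodule_one_pow] at b
    rw [map_add, map_add, map_add, phi_dEval_add, phi_dEval_add, ih ha, ih' hb]
    ring
  | smul c G a ih =>
    have ha : G.IsHomogeneous 3 := by
      rwa [← Submodule.span_pow, ← homogeneousSubmodule_one_eq_span_X,
        homogeneousSubmodule_one_pow] at a
    rw [smul_eval, smul_eval, smul_eval, phi_dEval_smul, phi_dEval_smul, ih ha]
    ring

theorem phi_dEval_pt {G : MP 5} (hG : G.IsHomogeneous 3) (c : ℂ) (x v : V) :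
    dEval G (c • x) v = c ^ 2 * dEval G x v := by
  rw [dEval_apply, dEval_apply, Finset.mul_sum]
  refine Finset.sum_congr rfl fun j _ => ?_
  have h2 : (pderiv j G).IsHomogeneous 2 := hG.pderiv
  rw [eval_smul_of_hom h2, mul_assoc]

theorem phi_taylor {G : MP 5} (hG : G.IsHomogeneous 3) (x v : V) (τ : ℂ) :
    eval (x + τ • v) G =
      eval x G + τ * dEval G x v + τ ^ 2 * dEval G v x + τ ^ 3 * eval v G := by
  rw [phi_taylor1 hG, map_smul, phi_dEval_pt hG, eval_smul_of_hom hG, smul_eq_mul]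

theorem phi_root : ∃ s : ℂ × ℂ × ℂ → ℂ, ∀ᶠ b in 𝓝 (0 : ℂ × ℂ × ℂ), ContDiffAt ℝ ∞ s b ∧
    1 + (1 + b.1) * s b + b.2.1 * s b ^ 2 + b.2.2 * s b ^ 3 = 0 := by
  let f : (ℂ × ℂ × ℂ) × ℂ → ℂ := fun z =>
    1 + (1 + z.1.1) * z.2 + z.1.2.1 * z.2 ^ 2 + z.1.2.2 * z.2 ^ 3
  have hf : ContDiffAt ℂ ω f (0, -1) := by
    simp only [f]
    fun_prop
  have hd : fderiv ℂ f (0, -1) ∘L ContinuousLinearMap.inr ℂ (ℂ × ℂ × ℂ) ℂ =
      ContinuousLinearMap.id ℂ ℂ := by
    have h1 : HasFDerivAt (fun s : ℂ => f (0, s))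
        (fderiv ℂ f (0, -1) ∘L ContinuousLinearMap.inr ℂ (ℂ × ℂ × ℂ) ℂ) (-1) :=
      HasFDerivAt.comp (-1 : ℂ) (g := f) (f := fun s : ℂ => ((0 : ℂ × ℂ × ℂ), s))
        (hf.differentiableAt (by simp)).hasFDerivAt (hasFDerivAt_prodMk_right _ _)
    have h2 : HasFDerivAt (fun s : ℂ => f (0, s)) (ContinuousLinearMap.id ℂ ℂ) (-1) := by
      have : (fun s : ℂ => f (0, s)) = fun s => 1 + s := by
        funext s
        simp [f]
      rw [this]
      exact (hasFDerivAt_id _).const_add _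
    exact h1.unique h2
  have hi : (fderiv ℂ f (0, -1) ∘L ContinuousLinearMap.inr ℂ (ℂ × ℂ × ℂ) ℂ).IsInvertible := by
    rw [hd]
    exact ⟨ContinuousLinearEquiv.refl ℂ ℂ, rfl⟩
  refine ⟨hf.implicitFunction (by simp) hi, ?_⟩
  have h3 := (hf.contDiffAt_implicitFunction (by simp) hi).analyticAt.eventually_analyticAt
  filter_upwards [h3, hf.eventually_apply_implicitFunction (by simp) hi] with b h4 h5
  refine ⟨(h4.contDiffAt (n := ∞)).restrict_scalars ℝ, h5.trans ?_⟩
  simp [f]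

section fam

variable {T : Type} [NormedAddCommGroup T] [NormedSpace ℂ T] [FiniteDimensional ℂ T]
  {Y : Type} [NormedAddCommGroup Y] [NormedSpace ℝ Y]

theorem phi_sm (q : T →ₗ[ℂ] MP 5) {f : Y → V} {g : Y → T} {y : Y} (hf : ContDiffAt ℝ ∞ f y)
    (hg : ContDiffAt ℝ ∞ g y) : ContDiffAt ℝ ∞ (fun y => eval (f y) (q (g y))) y := by
  let b := Module.finBasis ℂ T
  have e : (fun y => eval (f y) (q (g y))) =
      fun y => ∑ i, LinearMap.toContinuousLinearMap (b.coord i) (g y) * eval (f y) (q (b i)) := by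
    funext y
    conv_lhs => rw [← b.sum_repr (g y)]
    simp only [map_sum, map_smul, smul_eval]
    rfl
  rw [e]
  refine ContDiffAt.sum fun i _ => ContDiffAt.mul ?_ ((sm_eval _ _).comp y hf)
  exact (((LinearMap.toContinuousLinearMap (b.coord i)).restrictScalars ℝ).contDiff.contDiffAt).comp
    y hg

theorem phi_sm' (F : MP 5) (q : T →ₗ[ℂ] MP 5) {f : Y → V} {g : Y → T} {y : Y}
    (hf : ContDiffAt ℝ ∞ f y) (hg : ContDiffAt ℝ ∞ g y) :
    ContDiffAt ℝ ∞ (fun y => eval (f y) (F + q (g y))) y := by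
  simp only [map_add]
  exact ((sm_eval _ _).comp y hf).add (phi_sm q hf hg)

theorem phi_sm_gr (F : MP 5) (q : T →ₗ[ℂ] MP 5) {f : Y → V} {g : Y → T} {y : Y}
    (hf : ContDiffAt ℝ ∞ f y) (hg : ContDiffAt ℝ ∞ g y) :
    ContDiffAt ℝ ∞ (fun y => gr (F + q (g y)) (f y)) y := by
  refine contDiffAt_pi.2 fun j => ?_
  have := phi_sm' (pderiv j F) ((pderiv j : Derivation ℂ (MP 5) (MP 5)).toLinearMap ∘ₗ q) hf hg
  simpa only [gr, map_add, LinearMap.comp_apply, Derivation.coeFn_coe] using this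

theorem phi_sm_d (F : MP 5) (q : T →ₗ[ℂ] MP 5) {f v : Y → V} {g : Y → T} {y : Y}
    (hf : ContDiffAt ℝ ∞ f y) (hg : ContDiffAt ℝ ∞ g y) (hv : ContDiffAt ℝ ∞ v y) :
    ContDiffAt ℝ ∞ (fun y => dEval (F + q (g y)) (f y) (v y)) y := by
  simp only [dEval_apply]
  exact ContDiffAt.sum fun j _ => (contDiffAt_pi.1 (phi_sm_gr F q hf hg) j).mul
    (contDiffAt_pi.1 hv j)

/-- the coefficients of the normalised equation -/
def phiB (F : MP 5) (p : T →ₗ[ℂ] MP 5) (t : T) (x : V) : ℂ × ℂ × ℂ :=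
  (dEval (0 + p t) x (nv F x), eval x (p t) * dEval (F + p t) (nv F x) x,
    eval x (p t) ^ 2 * eval (nv F x) (F + p t))

/-- the maps -/
def phiM (s : ℂ × ℂ × ℂ → ℂ) (F : MP 5) (p : T →ₗ[ℂ] MP 5) (t : T) (x : V) : V :=
  x + (eval x (p t) * s (phiB F p t x)) • nv F x

variable {F : MP 5} {p : T →ₗ[ℂ] MP 5} {s : ℂ × ℂ × ℂ → ℂ}

theorem phiB_sm (h : Sm F) {f : Y → V} {g : Y → T} {y : Y} (hf : ContDiffAt ℝ ∞ f y)
    (hg : ContDiffAt ℝ ∞ g y) (hy : f y ≠ 0) :
    ContDiffAt ℝ ∞ (fun y => phiB F p (g y) (f y)) y := by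
  have hn : ContDiffAt ℝ ∞ (fun y => nv F (f y)) y := (h.sm_nv _ hy).comp y hf
  exact (phi_sm_d 0 p hf hg hn).prodMk (((phi_sm p hf hg).mul (phi_sm_d F p hn hg hf)).prodMk
    (((phi_sm p hf hg).pow 2).mul (phi_sm' F p hn hg)))

theorem phiM_sm (h : Sm F) {f : Y → V} {g : Y → T} {y : Y} (hf : ContDiffAt ℝ ∞ f y)
    (hg : ContDiffAt ℝ ∞ g y) (hy : f y ≠ 0) (hs : ContDiffAt ℝ ∞ s (phiB F p (g y) (f y))) :
    ContDiffAt ℝ ∞ (fun y => phiM s F p (g y) (f y)) y :=
  hf.add (sm_smul ((phi_sm p hf hg).mul (hs.comp y (phiB_sm h hf hg hy)))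
    ((h.sm_nv _ hy).comp y hf))

omit [FiniteDimensional ℂ T] in
theorem phiB_zero (x : V) : phiB F p 0 x = 0 := by
  simp [phiB, dEval_apply]

omit [FiniteDimensional ℂ T] in
theorem phiM_zero (x : V) : phiM s F p 0 x = x := by
  simp [phiM]

theorem phi_nv (h : Sm F) {c : ℂ} (hc : c ≠ 0) {x : V} (hx : x ≠ 0) :
    nv F (c • x) = (c ^ 2)⁻¹ • nv F x := by
  rw [h.hm_nv c x hc hx]
  congr 1
  norm_num

omit [FiniteDimensional ℂ T] in
theorem phiB_smul (h : Sm F) (hp : ∀ t, (p t).IsHomogeneous 3) (t : T) {c : ℂ} (hc : c ≠ 0)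
    {x : V} (hx : x ≠ 0) : phiB F p t (c • x) = phiB F p t x := by
  have hG : (F + p t).IsHomogeneous 3 := h.hom.add (hp t)
  have h0 : (0 + p t).IsHomogeneous 3 := by rw [zero_add]; exact hp t
  unfold phiB
  rw [phi_nv h hc hx, phi_dEval_pt h0, phi_dEval_pt hG, map_smul, map_smul,
    eval_smul_of_hom (hp t), eval_smul_of_hom hG, smul_eq_mul, smul_eq_mul]
  refine Prod.ext ?_ (Prod.ext ?_ ?_)
  all_goals
    simp only
    field_simp

omit [FiniteDimensional ℂ T] in
theorem phiM_smul (h : Sm F) (hp : ∀ t, (p t).IsHomogeneous 3) (t : T) {c : ℂ} (hc : c ≠ 0)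
    {x : V} (hx : x ≠ 0) : phiM s F p t (c • x) = c • phiM s F p t x := by
  unfold phiM
  rw [phiB_smul h hp t hc hx, phi_nv h hc hx, eval_smul_of_hom (hp t), smul_add, smul_smul,
    smul_smul]
  congr 2
  field_simp

omit [FiniteDimensional ℂ T] in
theorem phiM_ev (h : Sm F) (hp : ∀ t, (p t).IsHomogeneous 3) (t : T) {x : V} (hx : x ≠ 0)
    (hs : 1 + (1 + (phiB F p t x).1) * s (phiB F p t x) +
      (phiB F p t x).2.1 * s (phiB F p t x) ^ 2 + (phiB F p t x).2.2 * s (phiB F p t x) ^ 3 = 0) :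
    eval (phiM s F p t x) (F + p t) = eval x F := by
  have hG : (F + p t).IsHomogeneous 3 := h.hom.add (hp t)
  unfold phiM
  rw [phi_taylor hG, phi_dEval_add F (p t) x, h.dEval_nv hx, map_add (MvPolynomial.eval x)]
  generalize s (phiB F p t x) = u at hs ⊢
  simp only [phiB, zero_add] at hs
  linear_combination eval x (p t) * hs

end fam

theorem stPhi : StPhi := by
  intro T _ _ _ F h p hp
  obtain ⟨s, hs⟩ := phi_root
  let P : ℂ × ℂ × ℂ → Prop := fun b => ContDiffAt ℝ ∞ s b ∧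
    1 + (1 + b.1) * s b + b.2.1 * s b ^ 2 + b.2.2 * s b ^ 3 = 0
  have key : ∀ᶠ t in 𝓝 (0 : T), ∀ x ∈ sphere (0 : V) 1,
      P (phiB F p t x) ∧ phiM s F p t x ≠ 0 ∧ gr (F + p t) x ≠ 0 := by
    refine (isCompact_sphere (0 : V) 1).eventually_forall_of_forall_eventually fun x hx => ?_
    have hx0 : x ≠ 0 := by
      rintro rfl
      simp at hx
    have c1 := (phiB_sm (p := p) (Y := T × V) (y := (0, x)) h contDiffAt_snd contDiffAt_fst
      hx0).continuousAt
    have c2 := (phiM_sm (p := p) (s := s) (Y := T × V) (y := (0, x)) h contDiffAt_snd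
      contDiffAt_fst hx0 (by rw [phiB_zero]; exact hs.self_of_nhds.1)).continuousAt
    have c3 := (phi_sm_gr F p (Y := T × V) (y := (0, x)) contDiffAt_snd
      contDiffAt_fst).continuousAt
    refine Eventually.and ?_ (Eventually.and ?_ ?_)
    · refine c1.eventually (p := P) ?_
      simp only [phiB_zero]
      exact hs
    · refine c2.eventually_ne ?_
      simp only [phiM_zero]
      exact hx0
    · refine c3.eventually_ne ?_
      simp only [map_zero, add_zero]
      exact h.gr_ne hx0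
  obtain ⟨r, hr, hb⟩ := Metric.eventually_nhds_iff_ball.1 key
  have all : ∀ t ∈ ball (0 : T) r, ∀ x : V, x ≠ 0 →
      P (phiB F p t x) ∧ phiM s F p t x ≠ 0 ∧ gr (F + p t) x ≠ 0 := by
    intro t ht x hx
    have hn : ((‖x‖ : ℝ) : ℂ) ≠ 0 := by exact_mod_cast norm_ne_zero_iff.2 hx
    let y : V := ((‖x‖ : ℝ) : ℂ)⁻¹ • x
    have hy : y ∈ sphere (0 : V) 1 := by
      rw [mem_sphere_zero_iff_norm, norm_smul, norm_inv, Complex.norm_real, norm_norm,
        inv_mul_cancel₀ (norm_ne_zero_iff.2 hx)]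
    have hy0 : y ≠ 0 := smul_ne_zero (inv_ne_zero hn) hx
    have e : x = ((‖x‖ : ℝ) : ℂ) • y := by rw [smul_smul, mul_inv_cancel₀ hn, one_smul]
    obtain ⟨k1, k2, k3⟩ := hb t ht y hy
    clear_value y
    generalize ((‖x‖ : ℝ) : ℂ) = c at hn e
    subst e
    refine ⟨by rwa [phiB_smul h hp t hn hy0], ?_, fun k => k3 (funext fun j => ?_)⟩
    · rw [phiM_smul h hp t hn hy0]
      exact smul_ne_zero hn k2
    · have h2 : (pderiv j (F + p t)).IsHomogeneous 2 := (h.hom.add (hp t)).pderiv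
      have := congrFun k j
      rw [gr, eval_smul_of_hom h2] at this
      exact (mul_eq_zero.1 this).resolve_left (pow_ne_zero _ hn)
  refine ⟨r, phiM s F p, hr, fun t ht => ⟨⟨h.hom.add (hp t), fun x hx => ?_⟩, ⟨⟨fun x hx => ?_,
    fun x hx => (all t ht x hx).2.1, fun c x hc hx => phiM_smul h hp t hc hx⟩, fun x hx =>
    phiM_ev h hp t hx (all t ht x hx).1.2⟩⟩, fun t ht x hx => ?_, fun x _ => phiM_zero x⟩
  · by_contra hx0
    exact (all t ht x hx0).2.2 (funext hx)
  · exact phiM_sm (f := fun x => x) (g := fun _ => t) h contDiffAt_id contDiffAt_const hx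
      (all t ht x hx).1.1
  · exact phiM_sm (Y := V × T) (y := (x, t)) h contDiffAt_fst contDiffAt_snd hx
      (all t ht x hx).1.1

end Vale.Agent.P287T.Per
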