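import Vale.Agent.P287Q.Hb.HRd

/-!
# P287, periods: the top cohomology class of a form is its integral
-/

set_option linter.unusedSectionVars false

namespace Vale.Agent.P287T.Per

open scoped Manifold ContDiff Matrix ComplexConjugate ComplexOrder
open Set Topology Filter MeasureTheory P291Z P269 P269.Coh P269.Mono P269.Hdg P269.Hdg.Ex
  P287Q P287Q.Hb
open P281Z.Hg (Fo lr jc pbk vl Rw RealX Bq wg cjv Hd pm itg f1a f1b f2a f2b k1b')
open P281Z.Hg.G2H (DC)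
open P272.K (Cm Chart At)
open P272.K.INT
open P299.IX

/-- The coefficient of the product of the holomorphic volume form and its conjugate. -/
noncomputable def posK (d : ℕ) : ℂ :=
  Bq (Fock.ev ∅) (wg (Fock.ev (Hd d)) *ᵥ cjv (Fock.ev (Hd d) : Fo d))

theorem posK_ne (d : ℕ) : posK d ≠ 0 := fun h0 => by
  obtain ⟨h1, h2⟩ := (f1b.top (Fock.ev (Hd d) : Fo d)).2 (by simp [Fock.ev])
  have h3 : Bq (cjv (Fock.ev (Hd d) : Fo d)) (Fock.ev (Hd d)) = 0 := by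
    rw [f1a.Bq_symm, Bq_wg h2, ← posK, h0, mul_zero, mul_zero]
  have h4 : ∀ v, Bq (cjv (Fock.ev (Hd d) : Fo d)) v = 0 := fun v => by
    have k := f1b.cjv_pm (Fock.ev (Hd d) : Fo d) d 0
    rw [add_zero, h2, h1] at k
    have k1 : pm d d *ᵥ (Fock.dg d *ᵥ (pm d d *ᵥ v)) =
        Fock.dg d *ᵥ (pm d d *ᵥ v) := by
      rw [Matrix.mulVec_mulVec, f1b.pm_dg, ← Matrix.mulVec_mulVec, Matrix.mulVec_mulVec v,
        f1b.pm_mul, if_pos rfl]
    have k2 : Fock.dg d *ᵥ (Fock.dg d *ᵥ (pm d d *ᵥ v)) =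
        Fock.dg d *ᵥ (pm d d *ᵥ v) := by
      rw [Matrix.mulVec_mulVec, f1a.dg_mul, if_pos rfl]
    rw [k, f1b.Bq_pm _ _ 0 d (zero_add d), f1a.Bq_dg _ _ d d rfl, (f1b.top _).1 ⟨k1, k2⟩,
      P281Z.Hg.G2H.Bq_smul_r, h3, mul_zero]
  have f := f2b f1a f1b f2a
  have h5 := f.G_Bq (1 : Matrix (Fin d) (Fin d) ℂ) (Fock.ev (Hd d)) (Fock.ev (Hd d))
  have h6 := congrFun (congrFun (f.G_eq (1 : Matrix (Fin d) (Fin d) ℂ) .one) (Hd d)) (Hd d)
  rw [f.G_Hd _ (by simp), Matrix.smul_apply] at h6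
  rw [h4, show star (Fock.ev (Hd d) : Fo d) = Fock.ev (Hd d) by simp [Fock.ev], Fock.ev,
    single_one_dotProduct, ← Fock.ev, Fock.mulVec_ev] at h5
  rw [← h5, smul_zero] at h6
  exact zero_ne_one h6

theorem posK_top {d : ℕ} {u : Fo d} (h1 : pm d d *ᵥ u = u) (h2 : Fock.dg d *ᵥ u = u) :
    ∃ r : ℝ, 0 ≤ r ∧ (u ≠ 0 → 0 < r) ∧ Bq (Fock.ev ∅) (wg u *ᵥ cjv u) = r * posK d := by
  have h3 := (f1b.top u).1 ⟨h1, h2⟩
  refine ⟨Complex.normSq (u (Hd d)), Complex.normSq_nonneg _, fun k => Complex.normSq_pos.2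
    fun e => k (by rw [h3, e, zero_smul]), ?_⟩
  generalize u (Hd d) = a at h3
  rw [h3, f1a.wg_smul, f1b.cjv_smul, Matrix.smul_mulVec, Matrix.mulVec_smul, smul_smul,
    P281Z.Hg.G2H.Bq_smul_r, posK, Complex.star_def, Complex.mul_conj]

variable {N n : ℕ} {C : Set (E N)} {M : Type} [TopologicalSpace M] [ChartedSpace (Cm n) M]
  [T2Space M] [CompactSpace M] [IsManifold 𝓘(ℂ, Cm n) ω M]

theorem pos_intX {D : Chart n M → Cm n → ℝ} (hD : IsDensity D)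
    (h : ∀ e x, At e x → 0 ≤ D e (e x)) {x : M} (hx : ∀ e, At e x → 0 < D e (e x)) :
    0 < intX D := by
  obtain ⟨P, hP⟩ : ∃ P, P = part n M := ⟨_, rfl⟩
  obtain ⟨i, hi⟩ : ∃ i, 0 < P.ρ i x := by
    by_contra k
    have := Finset.sum_nonpos (s := Finset.univ) fun i _ => not_lt.1 (not_exists.1 k i)
    rw [P.sum x] at this
    exact absurd this (by norm_num)
  have h0 : ∀ j, ∀ z ∈ (P.e j).target, 0 ≤ P.ρ j ((P.e j).symm z) * D (P.e j) z := fun j z hz => by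
    have := h (P.e j) ((P.e j).symm z) ⟨P.mem j, (P.e j).map_target hz⟩
    rw [(P.e j).right_inv hz] at this
    exact mul_nonneg (P.nonneg j _) this
  rw [intX, ← hP]
  refine Finset.sum_pos' (fun j _ => setIntegral_nonneg (P.e j).open_target.measurableSet (h0 j))
    ⟨i, Finset.mem_univ i, ?_⟩
  have h1 : x ∈ (P.e i).source := P.supp i (subset_tsupport _ hi.ne')
  rw [setIntegral_pos_iff_support_of_nonneg_ae
    (by filter_upwards [self_mem_ae_restrict (P.e i).open_target.measurableSet] using h0 i)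
    (integrableOn_part P hD i)]
  have h2 := (((P.cont i).comp_continuousOn (P.e i).continuousOn_symm).mul
    (hD.continuousOn (P.mem i))).isOpen_inter_preimage (P.e i).open_target (isOpen_Ioi (a := 0))
  refine (h2.measure_pos volume ⟨P.e i x, (P.e i).map_source h1, ?_⟩).trans_le
    (measure_mono fun z hz => ⟨ne_of_gt hz.2, hz.1⟩)
  change 0 < P.ρ i ((P.e i).symm (P.e i x)) * _
  rw [(P.e i).left_inv h1]
  exact mul_pos hi (hx _ ⟨P.mem i, h1⟩)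

theorem pos_bd {w : Chart n M → Cm n → ℝ} (hw : ∀ e x, At e x → ContinuousAt (w e) (e x)) :
    ∃ K : ℝ, ∀ (D : Chart n M → Cm n → ℝ) (c : ℝ),
      (∀ e x, At e x → |D e (e x)| ≤ w e (e x) * c) → |intX D| ≤ K * c := by
  obtain ⟨P, hP⟩ : ∃ P, P = part n M := ⟨_, rfl⟩
  refine ⟨∑ i, ∫ z in (P.e i).target, P.ρ i ((P.e i).symm z) * w (P.e i) z, fun D c h => ?_⟩
  rw [intX, ← hP, Finset.sum_mul]
  refine (Finset.abs_sum_le_sum_abs _ _).trans (Finset.sum_le_sum fun i _ => ?_)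
  rw [← integral_mul_const, ← Real.norm_eq_abs]
  refine norm_integral_le_of_norm_le (Integrable.mul_const (integrableOn_chart
    (((P.cont i).comp_continuousOn (P.e i).continuousOn_symm).mul fun z hz => ?_)
    (isClosed_tsupport _) (P.supp i) fun z _ k => ?_) c) ?_
  · have := hw (P.e i) ((P.e i).symm z) ⟨P.mem i, (P.e i).map_target hz⟩
    rw [(P.e i).right_inv hz] at this
    exact this.continuousWithinAt
  · exact mul_eq_zero_of_left (image_eq_zero_of_notMem_tsupport k) _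
  · filter_upwards [self_mem_ae_restrict (P.e i).open_target.measurableSet] with z hz
    have := h (P.e i) ((P.e i).symm z) ⟨P.mem i, (P.e i).map_target hz⟩
    rw [(P.e i).right_inv hz] at this
    rw [Real.norm_eq_abs, abs_mul, abs_of_nonneg (P.nonneg i _), mul_assoc]
    exact mul_le_mul_of_nonneg_left this (P.nonneg i _)

variable {ε : M → TT N} {b : Chart n M → E N} {σ : Chart n M → Cm n → E N}
  {p : Chart n M → E N → Cm n} (D : Mdl C ε b σ p) (h : SubC C n) {e : Chart n M} {m : M}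
include D h

theorem pos_ps_nl (hm : At e m) {a : Λ N} (ha : a ∈ nl C (σ e (e m))) :
    lr (jc (σ e) (e m)) *ᵥ fk a = 0 :=
  D.ps_of_nl h (u := ⟨fun _ => a, fun _ _ => contDiffAt_const⟩) hm ha

theorem pos_nl_ps (hm : At e m) {a : Λ N} (ha : ∀ s, ct (vec s (σ e (e m))) a = 0)
    (h0 : lr (jc (σ e) (e m)) *ᵥ fk a = 0) : a ∈ nl C (σ e (e m)) := by
  have hy := D.mem e m hm
  have hy' := D.prp e m hm
  have h1 := D.lf1 e m hm
  have h3 := D.peq e m hm _ hy hy'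
  rw [← h3] at h0
  have d2 : DifferentiableAt ℝ (σ e) (p e (σ e (e m))) :=
    h3.symm ▸ (D.an e m hm).differentiableAt.restrictScalars ℝ
  generalize σ e (e m) = y at *
  have h2 : lf (b e) y ≠ 0 := h1 ▸ one_ne_zero
  have d1 : DifferentiableAt ℝ (p e) y :=
    (D.pan e m hm y hy hy').differentiableAt.restrictScalars ℝ
  have d3 : DifferentiableAt ℝ (fun z => σ e (p e z)) y := d2.comp y d1
  have d4 : DifferentiableAt ℝ (cpr (b e)) y := (an_cpr h2).differentiableAt.restrictScalars ℝ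
  have h4 : mp (tr (fderiv ℝ (fun z => σ e (p e z)) y)) a = 0 := by
    refine fk.injective ?_
    rw [fk_mp d3, lr_jc_comp d1 d2, ← Matrix.mulVec_mulVec, h0, map_zero, Matrix.mulVec_zero]
  have h5 : mp (tr (fderiv ℝ (cpr (b e)) y)) a = a := by
    rw [fderiv_cpr h2, h1, inv_one, show (scal 1 : E N →L[ℝ] E N) = .id ℝ _ from
      ContinuousLinearMap.ext fun v => one_smul ℂ v, ContinuousLinearMap.id_comp, mp_radial _ _ ha]
  rw [← h5, ← sub_zero (mp _ _), ← h4]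
  refine mp_sub_nul (fun v hv => ?_) _
  have h6 := h.fderiv_tn hy (d4.fun_sub d3) (D.cpr_ev h hm hy hy') hv
  rw [fderiv_fun_sub d4 d3] at h6
  exact sub_eq_zero.1 h6

/-- The class of a form of top degree is its integral. -/
theorem pos_J {Y : PS} {π : C → Y.X} (hπ : IsProj π) (hn : Y.n = n)
    (con : ∀ x : H Y.X, H.IsDeg 0 x → ∃ c : ℂ, x = c • 1) (hC : C.Nonempty) :
    ∃ c : ℂ, c ≠ 0 ∧ ∀ θ, ∀ hθ : θ ∈ (Hb.dR h).sh.gl.Z (n + n : ℕ), ∃ G : Rw n M ℂ, DC G ∧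
      (∀ e m, At e m → G e (e m) = Bq (Fock.ev ∅) (ps σ θ e (e m))) ∧
      Y.J (Hb.cmp h hπ _ (Hdg.Cx.cl θ hθ)) = c * itg G := by
  obtain ⟨w, hw, e⟩ := D.exists_fs h
  obtain ⟨X, K, hX, hok, hK, h1, h2, -, -⟩ := kahler_all hw
  obtain ⟨o, ho⟩ := D.exists_Ps oneS_Ak
  have r := D.krep h hπ hC hX hok hK e ho
  have h3 := r.J_pow hok h1 h2 hn con
  obtain ⟨s, s0, hs⟩ := ka_vol hok h1 h2 (r.cl r.one).2 r.ne
  have h4 : X.Q o ((K.L ^ n) o) ≠ 0 := fun k => by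
    rw [r.cjo, k, mul_zero] at hs
    exact s0.ne (by exact_mod_cast hs)
  refine ⟨_, div_ne_zero h3 h4, fun θ hθ => ?_⟩
  obtain ⟨β, hβ⟩ := D.exists_Ps hθ.1
  refine ⟨_, P281Z.Hg.G1H.dens f1a k1b' o β, fun e m hm => by
    rw [ho e m hm, hβ e m hm, ps_oneS], ?_⟩
  have h5 := r.Q_zero hok hn con (r.sub (Y.J (Hb.cmp h hπ _ (Hdg.Cx.cl θ hθ)) /
    Y.J (kcl h hπ ^ n)) ⟨θ, hθ, hβ, rfl⟩ (r.pow n))
    (by rw [map_sub, map_smul, smul_eq_mul, div_mul_cancel₀ _ h3, sub_self])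
  rw [map_sub, map_smul, sub_eq_zero, smul_eq_mul] at h5
  rw [← hX.Q, h5]
  field_simp

omit h in
theorem pos_top (hm : At e m) {a : Λ N} (ha : a ∈ Ty n 0) : ∃ r : ℝ, 0 ≤ r ∧
    (lr (jc (σ e) (e m)) *ᵥ fk a ≠ 0 → 0 < r) ∧
      Bq (Fock.ev ∅) (lr (jc (σ e) (e m)) *ᵥ fk (a * cjL a)) = r * posK n := by
  have d := (D.an e m hm).differentiableAt
  have h1 : a ∈ Dg (n : ℕ) := by simpa using Ty_le_Dg ha
  rw [fk_mul, Matrix.mulVec_mulVec, f1a.lr_wg, ← Matrix.mulVec_mulVec, fk_cjL,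
    ← k1b'.jc_real (d.restrictScalars ℝ), ← f1b.cjv_lr, k1b'.jc_real (d.restrictScalars ℝ)]
  refine posK_top ?_ ?_
  · rw [Matrix.mulVec_mulVec, pm_lr_jc d, ← Matrix.mulVec_mulVec, pm_fk_self ha.1]
  · rw [Matrix.mulVec_mulVec, f1a.lr_dg, ← Matrix.mulVec_mulVec, fk_Dg.1 h1]

omit D h in
theorem pos_scal {k : ℤ} {u : SM N} (hu : u ∈ Ak k) {t : ℝ} (ht : t ≠ 0) {x : E N} (hx : x ≠ 0) :
    u.1 ((t : ℂ) • x) = (t : ℂ) ^ (-k) • u.1 x := by
  have h0 : (t : ℂ) ≠ 0 := by exact_mod_cast ht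
  rw [← sum_pt (u.1 _), ← sum_pt (u.1 x), Finset.smul_sum]
  refine Finset.sum_congr rfl fun p _ => ?_
  rw [Finset.smul_sum]
  refine Finset.sum_congr rfl fun q _ => ?_
  by_cases e : p + q = k
  · have := (hu.1 p q).1.2 t x h0 hx
    simp only [PT_apply] at this
    rw [this, Complex.conj_ofReal, ← zpow_add₀ h0, show 0 - p + -q = -k by omega]
  · rw [pt_of_Dg (hu.2 _ (smul_ne_zero h0 hx)) e, pt_of_Dg (hu.2 x hx) e, smul_zero]

theorem pos_w (k : ℕ) : ∃ w : Chart n M → Cm n → ℝ,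
    (∀ e m, At e m → ContinuousAt (w e) (e m)) ∧ ∀ θ ∈ Ak k, ∀ c : ℝ,
      (∀ x ∈ C, ‖x‖ = 1 → ‖θ.1 x‖ ≤ c) → ∀ e m, At e m →
        ‖Bq (Fock.ev ∅) (ps σ θ e (e m))‖ ≤ w e (e m) * c := by
  obtain ⟨L, hL⟩ : ∃ L : Λ N →L[ℂ] Fo (N + 1), ∀ a, L a = fk a :=
    ⟨(fk (N := N)).toContinuousLinearEquiv, fun _ => rfl⟩
  refine ⟨fun e z => (∑ I, ‖Bq (Fock.ev ∅) (pbk (σ e) (fun _ => Fock.ev I) z)‖) *
    (‖L‖ * ‖σ e z‖⁻¹ ^ k), fun e m hm => ?_, fun θ hθ c hc e m hm => ?_⟩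
  · refine (tendsto_finsetSum _ fun I _ => (P281Z.Hg.G2H.cd_Bq contDiffAt_const
      (k1b'.pbk_smooth (D.sm_σ hm) contDiffAt_const)).continuousAt.norm).mul
        (tendsto_const_nhds.mul (((D.sm_σ hm).continuousAt.norm.inv₀ ?_).pow k))
    exact norm_ne_zero_iff.2 (D.ne hm)
  have h0 := norm_ne_zero_iff.2 (D.ne hm)
  have h1 : ((‖σ e (e m)‖⁻¹ : ℝ) : ℂ) ≠ 0 := by exact_mod_cast inv_ne_zero h0
  have h2 := pos_scal hθ h0 (smul_ne_zero h1 (D.ne hm))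
  rw [smul_smul, ← Complex.ofReal_mul, mul_inv_cancel₀ h0, Complex.ofReal_one, one_smul] at h2
  have h3 := hc _ (h.inv _ h1 _ (D.mem e m hm)) (by
    rw [norm_smul, Complex.norm_real, norm_inv, norm_norm, inv_mul_cancel₀ h0])
  have h4 : ‖fk (θ.1 (σ e (e m)))‖ ≤ ‖L‖ * ‖σ e (e m)‖⁻¹ ^ k * c := by
    rw [← hL, mul_assoc]
    refine (L.le_opNorm _).trans (mul_le_mul_of_nonneg_left ?_ (norm_nonneg _))
    rw [h2, norm_smul, norm_zpow, Complex.norm_real, norm_norm, zpow_neg, zpow_natCast, inv_pow]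
    exact mul_le_mul_of_nonneg_left h3 (by positivity)
  rw [ps_apply, mul_assoc, Finset.sum_mul]
  generalize fk (θ.1 (σ e (e m))) = v at h4
  have h5 : Bq (Fock.ev ∅) (lr (jc (σ e) (e m)) *ᵥ v) =
      ∑ I, Bq (Fock.ev ∅) (pbk (σ e) (fun _ => Fock.ev I) (e m)) * v I := by
    conv_lhs =>
      rw [pi_eq_sum_univ' v, Matrix.mulVec_sum, P281Z.Hg.Bq, Matrix.mulVec_sum, dotProduct_sum]
    exact Finset.sum_congr rfl fun I _ => by
      rw [Matrix.mulVec_smul, Matrix.mulVec_smul, dotProduct_smul, smul_eq_mul, mul_comm]; rfl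
  rw [h5]
  refine norm_sum_le_of_le _ fun I _ => ?_
  rw [norm_mul]
  exact mul_le_mul_of_nonneg_left ((norm_le_pi_norm v I).trans h4) (norm_nonneg _)

omit D

/-- **Positivity and continuity of the integral.** -/
theorem pos_main {Y : PS} {π : C → Y.X} (hπ : IsProj π) (hn : Y.n = n)
    (con : ∀ x : H Y.X, H.IsDeg 0 x → ∃ c : ℂ, x = c • 1) (hC : C.Nonempty) :
    (∃ c : ℂ, c ≠ 0 ∧ ∀ (a : E N → Λ N) (s : E N → ℝ), (∀ x ∈ C, a x ∈ Ty n 0 ∧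
      (∀ b, ct (vec b x) (a x) = 0) ∧ a x ∉ nl C x ∧ 0 ≤ s x) →
      ∀ θ, ∀ hθ : θ ∈ (Hb.dR h).sh.gl.Z (n + n : ℕ),
        (∀ x ∈ C, θ.1 x - (s x : ℂ) • (a x * cjL (a x)) ∈ nl C x) →
        ∃ t : ℝ, 0 ≤ t ∧ Y.J (Hb.cmp h hπ _ (Hdg.Cx.cl θ hθ)) = t * c ∧
          ((∃ x ∈ C, ∀ τ : ℂ, τ ≠ 0 → 0 < s (τ • x)) → 0 < t)) ∧
    ∃ K : ℝ, ∀ θ, ∀ hθ : θ ∈ (Hb.dR h).sh.gl.Z (n + n : ℕ), ∀ c : ℝ,
      (∀ x ∈ C, ‖x‖ = 1 → ‖θ.1 x‖ ≤ c) → ‖Y.J (Hb.cmp h hπ _ (Hdg.Cx.cl θ hθ))‖ ≤ K * c := by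
  obtain ⟨M, _, _, _, _, ε, b, σ, p, D⟩ := exists_mdl h
  obtain ⟨c, h0, hc⟩ := pos_J D h hπ hn con hC
  refine ⟨⟨c * posK n, mul_ne_zero h0 (posK_ne n), fun a s ha θ hθ e => ?_⟩, ?_⟩
  · obtain ⟨G, h1, h2, h3⟩ := hc θ hθ
    have h4 : ∀ e m, At e m → ∃ r : ℝ, 0 ≤ r ∧ (0 < s (σ e (e m)) → 0 < r) ∧
        (posK n)⁻¹ * G e (e m) = r := fun e' m hm => by
      obtain ⟨k1, k2, k3, k4⟩ := ha _ (D.mem e' m hm)
      obtain ⟨r, k5, k6, k7⟩ := pos_top D hm k1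
      have k8 := pos_ps_nl D h hm (e _ (D.mem e' m hm))
      rw [map_sub, Matrix.mulVec_sub, sub_eq_zero, map_smul, Matrix.mulVec_smul] at k8
      refine ⟨_, mul_nonneg k4 k5, fun k => mul_pos k (k6 (mt (pos_nl_ps D h hm k2) k3)), ?_⟩
      rw [h2 e' m hm, ps_apply, k8, P281Z.Hg.G2H.Bq_smul_r, k7, Complex.ofReal_mul,
        ← mul_assoc _ _ (posK n), mul_comm, mul_inv_cancel_right₀ (posK_ne n)]
    have h5 := P281Z.Hg.G2H.itg_smul (posK n)⁻¹ h1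
    rw [itg, intX_congr (D := fun e z => ((posK n)⁻¹ * G e z).im) (D' := fun _ _ => 0)
      (fun e m hm => (h4 e m hm).elim fun r k => by rw [k.2.2, Complex.ofReal_im]), intX_zero,
      Complex.ofReal_zero, mul_zero, add_zero] at h5
    have h6 : ∀ e m, At e m → 0 ≤ ((posK n)⁻¹ * G e (e m)).re := fun e m hm =>
      (h4 e m hm).elim fun r k => by rw [k.2.2, Complex.ofReal_re]; exact k.1
    refine ⟨_, intX_nonneg (D := fun e z => ((posK n)⁻¹ * G e z).re) h6, ?_, fun ⟨x, hx, k⟩ => ?_⟩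
    · rw [h3, h5]
      have := posK_ne n
      field_simp
    · obtain ⟨m, hm⟩ := D.srj x hx
      refine pos_intX (x := m) ?_ h6 fun e he => (h4 e m he).elim fun r k' => ?_
      · simpa only [Complex.mul_re] using (h1.1.const_mul _).sub (h1.2.const_mul _)
      · obtain ⟨τ, k1, k2⟩ := exists_smul_of_prP (D.ne he) (hm.symm.trans (D.prp e m he).symm)
        rw [k'.2.2, Complex.ofReal_re]
        exact k'.2.1 (k2 ▸ k τ k1)
  · obtain ⟨w, h1, h2⟩ := pos_w D h (n + n)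
    obtain ⟨K, hK⟩ := pos_bd h1
    refine ⟨‖c‖ * (K + K), fun θ hθ c' e => ?_⟩
    obtain ⟨G, -, h3, h4⟩ := hc θ hθ
    have h5 := h2 θ hθ.1 c' e
    rw [h4, norm_mul, mul_assoc, add_mul, itg]
    refine mul_le_mul_of_nonneg_left ((norm_add_le _ _).trans (add_le_add ?_ ?_)) (norm_nonneg _)
    · rw [Complex.norm_real, Real.norm_eq_abs]
      exact hK _ _ fun e m hm => (Complex.abs_re_le_norm _).trans (h3 e m hm ▸ h5 e m hm)
    · rw [norm_mul, Complex.norm_I, one_mul, Complex.norm_real, Real.norm_eq_abs]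
      exact hK _ _ fun e m hm => (Complex.abs_im_le_norm _).trans (h3 e m hm ▸ h5 e m hm)

end Vale.Agent.P287T.Per
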