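import Vale.Agent.P287T.Per.Res1
import Vale.Agent.P287T.Per.PosA

/-!
# P287, periods: positivity and continuity of the integral on the cubic fourfold
-/

noncomputable section

namespace Vale.Agent.P287T.Per

open Set Function Topology Filter Module MvPolynomial P291Z P269 P269.Holo P269.Mono P269.Coh
  P269.Tq P269.Hdg P287Q P287Q.Hb P287Q.Cub P287Q.Zc Metric
open scoped ComplexConjugate ContDiff

theorem pos_Omg_ne : Omg ≠ 0 := by
  have : ∀ L : List (Fin 6), L.Nodup → HasDual (N := 5) (L.map (dz true)) := fun L => by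
    induction L with
    | nil => exact fun _ => trivial
    | cons j L ih =>
      refine fun k => ⟨⟨vec true (ee j), by simp [vec_ee_dz], fun v hv => ?_⟩, ih k.of_cons⟩
      obtain ⟨i, hi, rfl⟩ := List.mem_map.1 hv
      rw [vec_ee_dz, if_neg fun e : _ ∧ j = i => (List.nodup_cons.1 k).1 (e.2 ▸ hi)]
  have h := this _ (List.nodup_finRange 6)
  rw [← List.ofFn_eq_map] at h
  exact wl_ne_zero h

namespace Sm

variable {F : MP 5} (h : Sm F) {x : V}

theorem o4_apply (x : V) :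
    h.o4.1 x = ct (vec true x) (ct (vec true (nv F x)) Omg) := by
  change ct _ (ct _ (eval x 1 • Omg)) = _
  rw [map_one, one_smul]

theorem o4_Ty (x : V) : h.o4.1 x ∈ Ty (4 : ℤ) 0 := by
  rw [o4_apply]
  simpa using ct_mem_Ty (ct_mem_Ty Omg_Ty true (nv F x)) true x

theorem o4_ct (s : Bool) (x : V) : ct (vec s x) (h.o4.1 x) = 0 := by
  cases s
  · exact ct_of_Eg_zero (h.o4_Ty x).2 x
  · rw [o4_apply, ct_ct]

theorem o4_ct_nv (s : Bool) (x : V) : ct (vec s (nv F x)) (h.o4.1 x) = 0 := by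
  cases s
  · exact ct_of_Eg_zero (h.o4_Ty x).2 _
  · rw [o4_apply, ct_comm, ct_ct, map_zero, neg_zero]

theorem o4_notMem (hx : x ∈ Pub.cone F) : h.o4.1 x ∉ nl (Pub.cone F) x := fun k => by
  have h1 := k ((ContinuousLinearMap.id ℂ V + (-dEval F x).smulRight (nv F x)).restrictScalars ℝ)
    fun v => (h.mem_tn hx).2 (by simp [h.dEval_nv hx.1])
  rw [mp_radial _ _ (h.o4_ct_nv · x), o4_apply] at h1
  have h2 := congrArg (ct (vec true x)) (h.div_dF hx.1 (io_Omg (dEval F x)))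
  rw [ct_io_mul, h1, vec_df, if_pos rfl, dEval_self h.hom, hx.2] at h2
  have h3 := congrArg (ct (vec true x)) (io_Omg (lf x))
  rw [ct_io_mul, ← h2, vec_cv, if_pos rfl, lf_self hx.1] at h3
  exact pos_Omg_ne (by simpa using h3)

include h

theorem cone_ne : (Pub.cone F).Nonempty := by
  by_contra e
  have : IsEmpty (XF F) := ⟨mk_surj.forall.2 fun x => e ⟨_, x.2⟩⟩
  obtain ⟨a, -, k⟩ := hcls_surj (hyp F ^ 4)
  have := h.cubH.deg
  rw [← k, Subsingleton.elim a 0, hcls_zero, map_zero] at this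
  norm_num at this

theorem con (y : H (XF F)) (hy : H.IsDeg 0 y) : ∃ c : ℂ, y = c • 1 := by
  obtain rfl | ⟨j, c, e, rfl⟩ := amb_deg h.cubH.lf.deg
    (h.cubH.lf.amb 0 (by rw [h.cubH.n]; norm_num) y hy) hy
  · exact ⟨0, (zero_smul _ _).symm⟩
  · exact ⟨c, by rw [show j = 0 by omega, pow_zero]⟩

theorem top_Z {θ : SM 5} (hθ : θ ∈ Ak 8) : θ ∈ h.Z 8 :=
  h.mem_Z.2 ⟨hθ, Ak_ind _ (fun _ => h.subC.zero_nl)
    (fun _ _ e _ hu => h.subC.Om_big hu (by omega)) (DD_Ak hθ)⟩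

end Sm

/-- **Positivity of the integral.** -/
theorem stPos : StPos := fun {F} h => by
  obtain ⟨c, h0, hc⟩ := (pos_main h.subC (Y := h.ps) h.isProj rfl h.con h.cone_ne).1
  refine ⟨c, h0, fun m f p _ h1 _ _ h2 θ hθ e => ?_⟩
  have h3 : ∀ x ≠ 0, 0 < (p x).re ∧ ((p x).re : ℂ) = p x := fun x hx =>
    (h2 x hx).elim fun s k => by rw [k.2]; exact ⟨k.1, rfl⟩
  obtain ⟨t, h4, h5, h6⟩ := hc h.o4.1 (fun x => Complex.normSq (f x) * (p x).re)
    (fun x hx => ⟨h.o4_Ty x, (h.o4_ct · x), h.o4_notMem hx,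
      mul_nonneg (Complex.normSq_nonneg _) (h3 x hx.1).1.le⟩) θ (h.top_Z hθ) fun x hx => by
        rw [Complex.ofReal_mul, (h3 x hx.1).2, ← Complex.mul_conj]; exact e x hx
  refine ⟨t, h4, (congrArg _ (h.cls_eq (h.top_Z hθ))).trans h5, fun ⟨x, hx, k⟩ =>
    h6 ⟨x, hx, fun τ hτ => mul_pos (Complex.normSq_pos.2 ?_) (h3 _ (smul_ne_zero hτ hx.1)).1⟩⟩
  rw [h1 τ x hτ hx.1]
  exact smul_ne_zero (mul_ne_zero (zpow_ne_zero _ hτ) (by simp)) k

/-- **Continuity of the integral.** -/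
theorem stBnd : StBnd := fun {_} h => by
  obtain ⟨K, hK⟩ := (pos_main h.subC (Y := h.ps) h.isProj rfl h.con h.cone_ne).2
  exact ⟨fun _ => h.top_Z, K, fun θ hθ c e =>
    (congrArg (fun y => ‖h.J y‖) (h.cls_eq (h.top_Z hθ))).trans_le (hK θ (h.top_Z hθ) c e)⟩

end Vale.Agent.P287T.Per
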