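import Vale.Agent.P287T.Per.St

/-!
# P287, periods of cubic fourfolds: identification of the cohomology, the Hodge filtration
-/

noncomputable section

namespace Vale.Agent.P287T.Per

open Set Function Topology Filter Module MvPolynomial P291Z P269 P269.Holo P269.Mono P269.Coh
  P269.Tq P269.Hdg P287Q P287Q.Hb P287Q.Cub P287Q.Zc Metric
open scoped ComplexConjugate ContDiff

section abs

variable {Y Y' : PS} {T : ℤ → ℤ → Submodule ℂ (H Y.X)} {T' : ℤ → ℤ → Submodule ℂ (H Y'.X)}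
  {h : H Y.X} {h' : H Y'.X}

theorem Top_J (c : CubH Y T h) (c' : CubH Y' T' h') {f : C(Y.X, Y'.X)} (e : H.map f h' = h)
    (y : H Y'.X) : Y.J (H.map f y) = Y'.J y := by
  induction y using PA0.induction with
  | h0 => simp
  | hadd a b ha hb => simp only [map_add, ha, hb]
  | h k x hx =>
    have n := c.n
    have n' := c'.n
    by_cases k8 : k = 8
    · obtain rfl | ⟨j, a, e', rfl⟩ := amb_deg c'.lf.deg (c'.lf.amb k (by omega) x hx) hx
      · simp
      · obtain rfl : j = 4 := by omega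
        rw [H.map_smulC, map_pow, e, map_smul, map_smul, c.deg, c'.deg]
    · rw [Y.pd.deg k (by omega) _ (hx.map f), Y'.pd.deg k (by omega) _ hx]

theorem Top_bij (c : CubH Y T h) (c' : CubH Y' T' h') {f : C(Y.X, Y'.X)} (e : H.map f h' = h) :
    Bijective (H.map f) := by
  have i : Injective (H.map f) :=
    LeftInverse.injective (g := PS.push f) (PS.push_map_of_J (Top_J c c' e))
  refine ⟨i, fun y => ?_⟩
  induction y using PA0.induction with
  | h0 => exact ⟨0, map_zero _⟩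
  | hadd a b ha hb =>
    obtain ⟨a, rfl⟩ := ha
    obtain ⟨b, rfl⟩ := hb
    exact ⟨a + b, map_add _ _ _⟩
  | h k x hx =>
    by_cases k4 : k = 4
    · subst k4
      let L : H.deg Y'.X 4 →ₗ[ℂ] H.deg Y.X 4 :=
        (Coh.pl f).restrict fun _ hz => H.IsDeg.map hz f
      have hL : Injective L := fun a b k => Subtype.ext (i (congrArg Subtype.val k))
      obtain ⟨z, hz⟩ := (LinearMap.injective_iff_surjective_of_finrank_eq_finrank
        (c'.b4.trans c.b4.symm)).1 hL ⟨x, hx⟩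
      exact ⟨z.1, congrArg Subtype.val hz⟩
    · obtain rfl | ⟨j, a, -, rfl⟩ := amb_deg c.lf.deg (c.lf.amb k (c.n ▸ k4) x hx) hx
      · exact ⟨0, map_zero _⟩
      · exact ⟨a • h' ^ j, by rw [H.map_smulC, map_pow, e]⟩

theorem Top_deg {f : C(Y.X, Y'.X)} (i : Injective (H.map f)) (k : ℤ) (y : H Y'.X) :
    H.IsDeg k (H.map f y) ↔ H.IsDeg k y := by
  refine ⟨fun hy => ?_, fun hy => hy.map f⟩
  have : H.comp k y = y := i (by rw [← H.comp_map]; exact hy.comp_eq)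
  exact this ▸ H.isDeg_comp k y

theorem Top_pair (g : HG Y T) {p q : ℤ} {y : H Y.X} (hy : y ∈ T p q)
    (k : ∀ w ∈ T (Y.n - p) (Y.n - q), Y.J (w * y) = 0) : y = 0 := Y.pd.nondeg y fun w => by
  refine Submodule.iSup_induction (motive := fun w => Y.J (w * y) = 0) _ (g.span w)
    (fun i w hw => ?_) (by rw [zero_mul, map_zero]) fun a b ha hb => by
      rw [add_mul, map_add, ha, hb, add_zero]
  by_cases e : i.1 = Y.n - p ∧ i.2 = Y.n - q
  · rw [e.1, e.2] at hw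
    exact k w hw
  · exact hg_J g (g.mul _ _ _ _ w hw y hy) (by omega)

variable (c : CubH Y T h) {σ : H Y.X} (hσ : σ ∈ T 3 1) (h0 : σ ≠ 0)
include c

theorem Top_z {p q r s : ℤ} {a b : H Y.X} (ha : a ∈ T p q) (hb : b ∈ T r s) (e : p + r ≠ 4) :
    Y.J (a * b) = 0 := hg_J c.hg (c.hg.mul _ _ _ _ a ha b hb) (Or.inl (c.n ▸ e))

include hσ h0

theorem Top_ne : Y.J (cj σ * σ) ≠ 0 := hg_ne c.hg hσ h0 (by
  rw [c.n]; exact hg_cj c.hg (c.gen hσ h0))

theorem Top_ne' : Y.J (σ * cj σ) ≠ 0 := by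
  rw [← J_comm (k := 2) (c.hg.deg 3 1 σ hσ)]; exact Top_ne c hσ h0

theorem Top_t22 {y : H Y.X} (hy : H.IsDeg 4 y) :
    y ∈ T 2 2 ↔ Y.J (y * σ) = 0 ∧ Y.J (y * cj σ) = 0 := by
  have hc := c.hg.cj _ _ σ hσ
  refine ⟨fun k => ⟨Top_z c k hσ (by omega), Top_z c k hc (by omega)⟩, fun k => ?_⟩
  obtain ⟨a, b, z, hz, rfl⟩ := hg_dec c.hg c.h40 (c.gen hσ h0) hy
  simp only [add_mul, smul_mul_assoc, map_add, map_smul, Top_z c hσ hσ (by omega),
    Top_z c hz hσ (by omega), Top_z c hz hc (by omega), Top_z c hc hc (by omega), smul_eq_mul,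
    mul_zero, zero_add, add_zero, mul_eq_zero, Top_ne c hσ h0, Top_ne' c hσ h0, or_false] at k
  simpa [k.1, k.2] using hz

theorem Top_f3 {x : H Y.X} (hx : H.IsDeg 4 x) (k2 : ∀ w ∈ T 2 2, Y.J (x * w) = 0)
    (k3 : Y.J (x * σ) = 0) : x ∈ T 3 1 := by
  have hc := c.hg.cj _ _ σ hσ
  obtain ⟨a, b, z, hz, rfl⟩ := hg_dec c.hg c.h40 (c.gen hσ h0) hx
  simp only [add_mul, smul_mul_assoc, map_add, map_smul, Top_z c hσ hσ (by omega),
    Top_z c hz hσ (by omega), smul_eq_mul, mul_zero, zero_add, mul_eq_zero, Top_ne c hσ h0,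
    or_false] at k3
  have : z = 0 := Top_pair c.hg hz fun w hw => by
    rw [c.n] at hw
    have hw : w ∈ T 2 2 := hw
    have := k2 w hw
    rw [k3, zero_smul, add_zero, add_mul, smul_mul_assoc, map_add, map_smul,
      Top_z c hσ hw (by omega), smul_zero, zero_add] at this
    rwa [J_comm (k := 2) (c.hg.deg 2 2 z hz)]
  rw [this, k3, zero_smul, add_zero, add_zero]
  exact (T 3 1).smul_mem a hσ

omit h0 in
theorem Top_prim : h * σ = 0 := c.h42.le (c.hg.mul 1 1 3 1 h c.h11 σ hσ)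

omit hσ h0 in
theorem Top_prim_iff {y : H Y.X} (hy : H.IsDeg 4 y) : h * y = 0 ↔ Y.J (h * (h * y)) = 0 := by
  refine ⟨fun k => by rw [k, mul_zero, map_zero], fun k => ?_⟩
  have d := c.lf.deg.mul hy
  obtain e | ⟨j, a, e', e⟩ := amb_deg c.lf.deg (c.lf.amb _ (by rw [c.n]; omega) _ d) d
  · exact e
  · obtain rfl : j = 3 := by omega
    rw [e, mul_smul_comm, ← pow_succ', map_smul, c.deg, smul_eq_mul] at k
    rw [e, (mul_eq_zero.1 k).resolve_right three_ne_zero, zero_smul]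

theorem Top_dim (K : Submodule ℂ (H Y.X))
    (hK : ∀ y, y ∈ K ↔ H.IsDeg 4 y ∧ h * y = 0 ∧ Y.J (y * σ) = 0) : finrank ℂ K = 21 := by
  have hc := c.hg.cj _ _ σ hσ
  let L : H.deg Y.X 4 →ₗ[ℂ] ℂ × ℂ :=
    ((Y.J ∘ₗ LinearMap.mulLeft ℂ h ∘ₗ LinearMap.mulLeft ℂ h).prod
      (Y.J ∘ₗ LinearMap.mulRight ℂ σ)) ∘ₗ (H.deg Y.X 4).subtype
  have hL : ∀ y, L y = (Y.J (h * (h * y.1)), Y.J (y.1 * σ)) := fun _ => rfl
  have e : K = (LinearMap.ker L).map (H.deg Y.X 4).subtype := by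
    ext y
    rw [hK]
    constructor
    · rintro ⟨a, b, d⟩
      exact ⟨⟨y, a⟩, by
        rw [SetLike.mem_coe, LinearMap.mem_ker, hL, (Top_prim_iff c a).1 b, d]; rfl, rfl⟩
    · rintro ⟨z, a, rfl⟩
      rw [SetLike.mem_coe, LinearMap.mem_ker, hL, Prod.mk_eq_zero] at a
      exact ⟨z.2, (Top_prim_iff c z.2).2 a.1, a.2⟩
  have s : LinearMap.range L = ⊤ := eq_top_iff.2 fun w _ => by
    have h1 : Y.J (h * (h * (h * h))) = 3 := by
      rw [← c.deg]; congr 1; noncomm_ring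
    have h2 : Y.J (h * h * σ) = 0 := by rw [mul_assoc, Top_prim c hσ, mul_zero, map_zero]
    have h3 : Y.J (h * (h * cj σ)) = 0 :=
      Top_z c c.h11 (c.hg.mul _ _ _ _ h c.h11 _ hc) (by omega)
    refine ⟨(w.1 / 3) • ⟨h * h, c.lf.deg.mul c.lf.deg⟩ +
      (w.2 / Y.J (cj σ * σ)) • ⟨cj σ, c.hg.deg 1 3 _ hc⟩, ?_⟩
    rw [map_add, map_smul, map_smul, hL, hL, h1, h2, h3]
    ext <;> simp [Top_ne c hσ h0]
  have := L.finrank_range_add_finrank_ker
  rw [s, c.b4, finrank_top, finrank_prod, finrank_self] at this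
  rw [e, Submodule.finrank_map_subtype_eq]
  omega

omit hσ h0 in
theorem Top_nd {y : H Y.X} (hy : H.IsDeg 4 y) (k : ∀ z, H.IsDeg 4 z → Y.J (y * z) = 0) :
    y = 0 := Y.pd.nondeg y fun w => by
  induction w using PA0.induction with
  | h0 => simp
  | hadd a b ha hb => rw [add_mul, map_add, ha, hb, add_zero]
  | h j x hx =>
    have n := c.n
    by_cases e : j = 4
    · rw [J_comm (k := 2) hy]; exact k x (e ▸ hx)
    · exact Y.pd.deg _ (by omega) _ (hx.mul hy)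

end abs

theorem stTop : StTop := fun {F F' Φ} h h' e => by
  have := N0_isAct (π₀ (Fin 6))
  have := h.qm.fp
  have := h'.qm.fp
  have e1 : H.map e.φ (hyp F') = hyp F := e.eqh.map_lcq (hm_crd ())
  have b := Top_bij h.cubH h'.cubH e1
  have j := Top_J h.cubH h'.cubH e1
  refine ⟨e1, j, b, Top_deg (Y := h.ps) (Y' := h'.ps) b.1, fun y => ⟨fun k => ⟨?_,
    (Top_deg (Y := h.ps) (Y' := h'.ps) b.1 4 y).1 k.2⟩, fun k => ⟨Lam.map _ k.1, H.IsDeg.map k.2 _⟩⟩⟩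
  have := h.cubH.pz.push h'.cubH.pz e.φ k.1
  rwa [PS.push_map_of_J j] at this

theorem Top_orth {F : MP 5} (h : Sm F) {u : SM 5} (hu : u ∈ h.Z 4) (k : ∀ x ≠ 0, u.1 x ∈ Fl 3)
    {p q : ℤ} (e : p + q = 4) (hp : 2 ≤ p) {w : H (XF F)} (hw : w ∈ TT F p q) :
    h.J (h.cls 4 u * w) = 0 := by
  obtain ⟨v, v1, v2, rfl⟩ := h.mem_TT.1 hw
  have h1 : u ∈ Fk true 3 4 := ⟨(h.mem_Z.1 hu).1, fun p q a x hx => k x hx p q a⟩
  have h2 : ML u v ∈ Hb.Nl (Pub.cone F) :=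
    Fk_ind _ (fun u a y hy => by rw [a y hy.1]; exact zero_mem _)
      (fun p q _ a u hu => h.subC.Om_big hu (Or.inl (by simp at a; omega)))
      (ML_Fk h1 (Om_le_Fk (r := 2) v2 rfl hp))
  rw [← h.cls_mul hu v1, h.cls_nl (Hb.ML_Z h.subC hu v1) (zero_mem _) (by rwa [sub_zero]),
    h.cls_zero, map_zero]

theorem Top_stFil : StFil where
  f3 h u hu k := by
    obtain ⟨σ, hσ, h0, -⟩ := h.cubH.exists_gen
    exact Top_f3 h.cubH hσ h0 (h.cls_deg 4 u) (fun w => Top_orth h hu k rfl le_rfl)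
      (Top_orth h hu k rfl (by omega) hσ)
  t22 h _ hσ h0 _ hy := Top_t22 h.cubH hσ h0 hy
  prim h _ hσ := Top_prim h.cubH hσ
  dim h _ hσ h0 := Top_dim h.cubH hσ h0
  nd h _ := Top_nd h.cubH

end Vale.Agent.P287T.Per
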