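import Vale.Agent.P287T.Per.Lam
import Vale.Agent.P287T.Per.Top
import Vale.Agent.P287T.Per.Fil
import Vale.Agent.P287T.Per.Alg
import Vale.Agent.P287T.Per.Pos
import Vale.Agent.P287T.Per.Phi

/-!
# P287, periods: the local theorem of Torelli
-/

noncomputable section

namespace Vale.Agent.P287T.Per

open Set Function Topology Filter Module MvPolynomial P291Z P269 P269.Hdg P287Q P287Q.Hb P287Q.Cub
  Metric
open scoped ComplexConjugate ContDiff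

variable {F A : MP 5}

namespace Sm

variable (h : Sm F)

theorem ρ_mem : h.ρ 1 1 ∈ TT F 3 1 :=
  stFil.f3 h _ (h.r_Z (k := 1) hom_one rfl) fun _ hx => h.r_Fl 1 1 hx

theorem ρ_ne (s : StHes) : h.ρ 1 1 ≠ 0 := fun e =>
  h.J_hes stBnd s stPos stAlg (by rw [e, zero_mul, map_zero])

theorem mem_J3 (s : StHes) (hA : A.IsHomogeneous 3) (e : h.ρ 2 A = 0) : A ∈ J3 F := by
  by_contra k
  obtain ⟨l1, -, l2, -⟩ := stAlg h
  obtain ⟨B, hB, c, hc, e2⟩ := l2 A hA k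
  have h1 := h.J_22 stBnd s hA hB
  have h2 : ∀ j, (c j * pderiv j F).IsHomogeneous 6 := fun j => (hc j).mul (h.hom_pd j)
  rw [e, zero_mul, map_zero, e2, h.ρ_add l1 (IsHomogeneous.sum _ _ _ fun j _ => h2 j) rfl,
    h.ρ_sum _ h2 rfl, mul_add, map_add, Finset.mul_sum, map_sum,
    Finset.sum_eq_zero fun j _ => h.J_jac stBnd (hc j) j, add_zero, eq_comm, neg_eq_zero] at h1
  exact h.J_hes stBnd s stPos stAlg h1

/-- The residue map on cubic forms. -/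
def ρ2 : homogeneousSubmodule (Fin 6) ℂ 3 →ₗ[ℂ] H (XF F) where
  toFun A := h.ρ 2 A.1
  map_add' A B := h.ρ_add A.2 B.2 rfl
  map_smul' c A := h.ρ_smul c A.2 rfl

theorem rank_ρ2 (s : StHes) : 21 ≤ finrank ℂ (LinearMap.range h.ρ2) := by
  obtain ⟨-, -, -, l1, l2⟩ := stAlg h
  have : FiniteDimensional ℂ (homogeneousSubmodule (Fin 6) ℂ 3) :=
    Module.finite_of_finrank_pos (by omega)
  have : FiniteDimensional ℂ (J3 F) := FiniteDimensional.span_of_finite _ (finite_range _)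
  have h1 := h.ρ2.finrank_range_add_finrank_ker
  have h2 : (LinearMap.ker h.ρ2).map (Submodule.subtype _) < J3 F := by
    refine lt_of_le_of_ne ?_ fun e => ?_
    · rintro _ ⟨A, hA, rfl⟩
      exact h.mem_J3 s A.2 hA
    · have h3 : (3 : ℂ) • F ∈ J3 F := by
        rw [show (3 : ℂ) • F = ∑ j, X j * pderiv j F by
          rw [h.hom.sum_X_mul_pderiv]; exact Nat.cast_smul_eq_nsmul ℂ 3 F]
        exact sum_mem fun j _ => Submodule.subset_span ⟨(j, j), rfl⟩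
      obtain ⟨A, hA, e2⟩ := e.ge ((Submodule.smul_mem_iff _ (by norm_num)).1 h3)
      have h4 : h.ρ 2 A.1 = 0 := hA
      rw [show A.1 = F from e2, h.ρ_euler] at h4
      exact smul_ne_zero two_ne_zero (h.ρ_ne s) h4
  have h5 := Submodule.finrank_lt_finrank_of_lt h2
  rw [Submodule.finrank_map_subtype_eq] at h5
  have h6 := h5.trans_le l2
  omega

/-- **The theorem of Griffiths** in the middle step. -/
theorem ρ2_onto (s : StHes) (hp : ∀ A : MP 5, A.IsHomogeneous 3 → hyp F * h.ρ 2 A = 0)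
    {y : H (XF F)} (h1 : H.IsDeg 4 y) (h2 : hyp F * y = 0) (h3 : h.J (y * h.ρ 1 1) = 0) :
    ∃ A : MP 5, A.IsHomogeneous 3 ∧ h.ρ 2 A = y := by
  let K : Submodule ℂ (H (XF F)) := H.deg _ 4 ⊓ LinearMap.ker (LinearMap.mulLeft ℂ (hyp F)) ⊓
    LinearMap.ker (h.J ∘ₗ LinearMap.mulRight ℂ (h.ρ 1 1))
  have hK : ∀ y, y ∈ K ↔ H.IsDeg 4 y ∧ hyp F * y = 0 ∧ h.J (y * h.ρ 1 1) = 0 := fun _ => and_assoc
  have k1 := stFil.dim h _ h.ρ_mem (h.ρ_ne s) K hK
  have := h.ps.pd.fin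
  have k2 : LinearMap.range h.ρ2 = K := Submodule.eq_of_le_of_finrank_le (by
    rintro _ ⟨A, rfl⟩
    exact (hK _).2 ⟨h.ρ_deg _ _, hp _ A.2, h.J_low stBnd A.2 hom_one rfl rfl le_rfl⟩)
    (k1 ▸ h.rank_ρ2 s)
  obtain ⟨A, hA⟩ := k2.ge ((hK y).2 ⟨h1, h2, h3⟩)
  exact ⟨A.1, A.2, hA⟩

end Sm

variable {T : Type} [NormedAddCommGroup T] [NormedSpace ℂ T] [FiniteDimensional ℂ T] {U : Set T}
  {t : T} {p : T →ₗ[ℂ] MP 5} {Φ : T → V → V}

namespace FS

variable (f : FS F p U Φ) (h : Sm F) (ht : t ∈ U)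
include h ht

omit [FiniteDimensional ℂ T] in
theorem hyp_σ : hyp F * f.σ t = 0 := by
  rw [f.σ_eq ht, ← (stTop h (f.sm t ht) (f.tr t ht)).1, ← map_mul,
    stFil.prim (f.sm t ht) _ (f.sm t ht).ρ_mem, map_zero]

theorem hyp_η (w : T) : hyp F * f.η t w = 0 := h.ps.pd.nondeg _ fun z => by
  have := f.fderiv_eq h stBnd (z * hyp F) ht w
  rw [Filter.EventuallyEq.fderiv_eq (f := fun _ => 0) ((f.opn.eventually_mem ht).mono fun s hs => by
    simp only [mul_assoc, f.hyp_σ h hs, mul_zero, map_zero]), mul_assoc] at this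
  simpa using this.symm

omit [FiniteDimensional ℂ T] in
theorem J_η (w : T) : h.J (f.η t w * f.σ t) = 0 := by
  rw [f.σ_eq ht, f.η_eq ht, neg_mul, ← map_mul, map_neg, (stTop h (f.sm t ht) (f.tr t ht)).2.1,
    (f.sm t ht).J_low stBnd (f.hom w) hom_one rfl rfl le_rfl, neg_zero]

theorem onto (s : StHes) (hp : ∀ A : MP 5, A.IsHomogeneous 3 → ∃ w, p w = A) {y : H (XF F)}
    (h1 : H.IsDeg 4 y) (h2 : hyp F * y = 0) (h3 : h.J (y * f.σ t) = 0) : ∃ w, f.η t w = y := by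
  obtain ⟨e1, e2, e3, e4, -⟩ := stTop h (f.sm t ht) (f.tr t ht)
  obtain ⟨y, rfl⟩ := e3.2 y
  rw [← e1, ← map_mul, map_eq_zero_iff _ e3.1] at h2
  rw [f.σ_eq ht, ← map_mul, e2] at h3
  obtain ⟨A, hA, rfl⟩ := (f.sm t ht).ρ2_onto s (fun A hA => by
    obtain ⟨w, rfl⟩ := hp A hA
    have := f.hyp_η h ht w
    rwa [f.η_eq ht, mul_neg, neg_eq_zero, ← e1, ← map_mul, map_eq_zero_iff _ e3.1] at this)
    ((e4 4 y).1 h1) h2 h3
  obtain ⟨w, rfl⟩ := hp A hA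
  exact ⟨-w, by rw [map_neg, f.η_eq ht, neg_neg]⟩

end FS

theorem stPer_of (s : StHes) : StPer := fun T _ _ _ F h p hp => by
  obtain ⟨r, Φ, h1, h2, h3, h4⟩ := stPhi T F h p hp
  have f : FS F p (ball 0 r) Φ :=
    ⟨isOpen_ball, hp, fun t ht => (h2 t ht).1, fun t ht => (h2 t ht).2, h3⟩
  exact ⟨r, Φ, f.σ, f.η, h1, f.sm, f.tr, h3, h4, fun t ht => ⟨_, (f.sm t ht).ρ_mem,
    (f.sm t ht).ρ_ne s, f.σ_eq ht⟩, f.an h stBnd, fun y t ht => f.fderiv_eq h stBnd y ht,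
    fun t ht w => ⟨f.η_deg ht w, f.hyp_η h ht w, f.J_η h ht w⟩,
    fun k t ht y => f.onto h ht s k⟩

end Vale.Agent.P287T.Per
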