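import Vale.Agent.P287T.Per.St

/-!
# P287, periods of cubic fourfolds: products of the leading terms and the Hessian
-/

noncomputable section

namespace Vale.Agent.P287T.Per

open Set Function Topology Filter Module MvPolynomial P291Z P269 P269.Holo P269.Mono P269.Coh
  P269.Tq P269.Hdg P287Q P287Q.Hb P287Q.Cub P287Q.Zc Metric
open scoped ComplexConjugate ContDiff

variable {F : MP 5} {x : V}

/-- The action of `kp` on one-forms. -/
def hesA (F : MP 5) (x : V) : W 5 →ₗ[ℂ] W 5 :=
  ∑ j, (vec true (ee j)).smulRight (df false (pderiv j F) x)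

theorem hesA_apply (w : W 5) :
    hesA F x w = ∑ j, vec true (ee j) w • df false (pderiv j F) x := by
  simp [hesA]

theorem hes_kp_apply (a : Λ 5) :
    kp F x a = ∑ j, io (df false (pderiv j F) x) * ct (vec true (ee j)) a := by
  simp [kp]

theorem hes_kp_one : kp F x 1 = 0 := by simp [hes_kp_apply, ct_one]

theorem hes_kp_io (w : W 5) (a : Λ 5) :
    kp F x (io w * a) = io (hesA F x w) * a + io w * kp F x a := by
  rw [hes_kp_apply, hes_kp_apply, hesA_apply, map_sum, Finset.sum_mul, Finset.mul_sum,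
    ← Finset.sum_add_distrib]
  refine Finset.sum_congr rfl fun j _ => ?_
  rw [ct_io_mul, mul_sub, io_io_swap, map_smul, mul_smul_comm, smul_mul_assoc, sub_neg_eq_add]

theorem hes_kp_mul (a b : Λ 5) : kp F x (a * b) = kp F x a * b + a * kp F x b := by
  induction a using Hdg.ind with
  | one => simp [hes_kp_one]
  | smul c a h => simp [h]
  | add a a' ha hb => simp only [add_mul, map_add, ha, hb]; abel
  | mul v a h =>
    rw [mul_assoc, hes_kp_io, h, hes_kp_io]
    simp only [mul_add, add_mul, mul_assoc]; abel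

theorem hesA_sq (w : W 5) : hesA F x (hesA F x w) = 0 := by
  rw [hesA_apply w, map_sum]
  refine Finset.sum_eq_zero fun j _ => ?_
  rw [map_smul, hesA_apply, Finset.sum_eq_zero, smul_zero]
  intro i _
  rw [vec_df, if_neg (by simp)]
  ext v; simp

theorem hes_kp_succ (k : ℕ) (a : Λ 5) : (kp F x ^ (k + 1)) a = kp F x ((kp F x ^ k) a) := by
  rw [pow_succ']; rfl

theorem hes_pow_io (k : ℕ) (w : W 5) (a : Λ 5) : (kp F x ^ (k + 1)) (io w * a) =
    ((k : ℂ) + 1) • (io (hesA F x w) * (kp F x ^ k) a) + io w * (kp F x ^ (k + 1)) a := by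
  induction k with
  | zero => simp [hes_kp_io]
  | succ k ih =>
    rw [hes_kp_succ, ih, map_add, map_smul, hes_kp_io, hes_kp_io, hesA_sq, map_zero, zero_mul,
      zero_add, ← hes_kp_succ, ← hes_kp_succ]
    push_cast
    module

theorem hes_pow_wl (L : List (W 5)) : (kp F x ^ (L.length + 1)) (wl L) = 0 ∧
    (kp F x ^ L.length) (wl L) = (L.length.factorial : ℂ) • wl (L.map (hesA F x)) := by
  induction L with
  | nil => simp [hes_kp_one]
  | cons w L ih =>
    rw [List.length_cons, wl_cons, hes_pow_io, hes_pow_io, hes_kp_succ (L.length + 1), ih.1, ih.2,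
      List.map_cons, wl_cons, Nat.factorial_succ]
    simp [smul_smul]

theorem hes_ct_kp (v : V) (a : Λ 5) : ct (vec true v) (kp F x a) = kp F x (ct (vec true v) a) := by
  rw [hes_kp_apply, hes_kp_apply, map_sum]
  refine Finset.sum_congr rfl fun j _ => ?_
  rw [ct_io_mul, vec_df, ct_comm]; simp

theorem hes_ct_pow (v : V) (k : ℕ) (a : Λ 5) :
    ct (vec true v) ((kp F x ^ k) a) = (kp F x ^ k) (ct (vec true v) a) := by
  induction k with
  | zero => rfl
  | succ k ih => rw [hes_kp_succ, hes_kp_succ, hes_ct_kp, ih]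

theorem hes_kp_Eg {r : ℤ} {a : Λ 5} (h : a ∈ Eg true r) : kp F x a ∈ Eg true (r - 1) := by
  rw [hes_kp_apply]
  refine Submodule.sum_mem _ fun j _ => ?_
  simpa [df] using Eg_mul (io_cv_mem true false (dEval (pderiv j F) x)) (ct_mem h true (ee j))

theorem hes_wl_Eg (s : Bool) (L : List (Fin 6)) :
    wl (L.map (dz true : Fin 6 → W 5)) ∈ Eg s (dl s true * L.length) := by
  induction L with
  | nil => simpa using one_mem_Eg s
  | cons j L ih =>
    rw [List.map_cons, wl_cons, List.length_cons, Nat.cast_succ, mul_add, mul_one, add_comm]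
    exact Eg_mul (io_cv_mem s true _) ih

theorem hes_Omg_Eg (s : Bool) : Omg ∈ Eg s (dl s true * 6) := by
  have := hes_wl_Eg s (List.ofFn id)
  rwa [List.map_ofFn, List.length_ofFn] at this

theorem hes_ak_succ (k : ℕ) : ak F x (k + 1) = kp F x (ak F x k) := hes_kp_succ _ _

theorem hes_ak_Eg (k : ℕ) : ak F x k ∈ Eg true (4 - k) := by
  induction k with
  | zero => simpa [ak] using ct_mem (ct_mem (hes_Omg_Eg true) true (gb F x)) true x
  | succ k ih =>
    rw [hes_ak_succ, Nat.cast_succ, ← sub_sub]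
    exact hes_kp_Eg ih

theorem hes_ct_x (k : ℕ) : ct (vec true x) (ak F x k) = 0 := by
  rw [ak, hes_ct_pow, ct_ct, map_zero]

theorem hes_ct_gb (k : ℕ) : ct (vec true (gb F x)) (ak F x k) = 0 := by
  rw [ak, hes_ct_pow, ct_comm, ct_ct, map_zero, neg_zero, map_zero]

theorem hes_three (h : Sm F) (hx : x ∈ Pub.cone F) {i j : ℕ} (e : i + j = 3) :
    ak F x i * ak F x j = 0 := by
  have h0 : dEval F x x = 0 := by rw [dEval_self h.hom, hx.2, mul_zero]
  have hl : LinearIndependent ℂ ![x, gb F x] := by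
    rw [LinearIndependent.pair_iff]
    intro s t k
    have k1 := congrArg (dEval F x) k
    rw [map_add, map_smul, map_smul, h0, dEval_gb, map_zero, smul_zero, zero_add, smul_eq_mul] at k1
    have ht := (mul_eq_zero.1 k1).resolve_right (h.gg_ne hx.1)
    rw [ht, zero_smul, add_zero] at k
    exact ⟨(smul_eq_zero.1 k).resolve_right hx.1, ht⟩
  refine Nul_kill true 2 (Submodule.span ℂ (range ![x, gb F x])) (4 - i + (4 - j)) _
    (by rw [finrank_span_eq_card hl]; simp) (Eg_mul (hes_ak_Eg i) (hes_ak_Eg j)) ?_ (by omega)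
  intro v hv
  induction hv using Submodule.span_induction with
  | zero => simp [vec_zero]
  | add a b _ _ ha hb => rw [vec_add, map_add, LinearMap.add_apply, ha, hb, add_zero]
  | smul c a _ ha => rw [vec_smul, map_smul, LinearMap.smul_apply, ha, smul_zero]
  | mem a ha =>
    obtain ⟨l, rfl⟩ := ha
    fin_cases l
    · simp [ct_mul, hes_ct_x]
    · simp [ct_mul, hes_ct_gb]

theorem hes_ct_bar (h : Sm F) (a : Λ 5) : ct (vec false x) (kp F x a) =
    (2 : ℂ) • ct (vec true (gb F x)) a + kp F x (ct (vec false x) a) := by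
  rw [hes_kp_apply, hes_kp_apply, map_sum, vec_eq_sum true (gb F x), map_sum, LinearMap.sum_apply,
    Finset.smul_sum, ← Finset.sum_add_distrib]
  refine Finset.sum_congr rfl fun j _ => ?_
  rw [ct_io_mul, vec_df, ct_comm, dEval_self (h.hom_pd j)]
  simp [gb, gr, smul_smul, map_ofNat]

theorem hes_ct_bar_ak (h : Sm F) (k : ℕ) : ct (vec false x) (ak F x k) = 0 := by
  induction k with
  | zero =>
    have := ct_mem (ct_mem (hes_Omg_Eg false) true (gb F x)) true x
    exact ct_of_Eg_zero (by simpa [ak] using this) x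
  | succ k ih => rw [hes_ak_succ, hes_ct_bar h, ih, hes_ct_gb]; simp

theorem hes_io_Omg (l : V →L[ℂ] ℂ) : io (cv true l) * Omg = 0 :=
  Eg_big (s := true) (r := dl true true + dl true true * 6) (by simp)
    (Eg_mul (io_cv_mem true true l) (hes_Omg_Eg true))

theorem hes_io_ct {w : W 5} {o : Λ 5} (h : io w * o = 0) (f : Dual ℂ (W 5)) :
    io w * ct f o = f w • o := by
  have := ct_io_mul f w o
  rw [h, map_zero] at this
  exact (sub_eq_zero.1 this.symm).symm

theorem hes_lf_gb (h : Sm F) (hx : x ∈ Pub.cone F) : lf x (gb F x) = 0 := by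
  have h0 : dEval F x x = 0 := by rw [dEval_self h.hom, hx.2, mul_zero]
  have h1 := congrArg (fun z => conj z * (nu x)⁻¹) h0
  simp only [dEval_apply, map_sum, map_mul, map_zero, zero_mul, Finset.sum_mul] at h1
  simp only [lf, _root_.sum_apply, _root_.smul_apply,
    ContinuousLinearMap.proj_apply, smul_eq_mul, gb, gr]
  rw [← h1]
  exact Finset.sum_congr rfl fun j _ => by ring

theorem hes_fac (h : Sm F) (hx : x ∈ Pub.cone F) :
    io (df true F x) * (io (cv true (lf x)) * ak F x 0) = gg F x • Omg := by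
  have e1 : io (cv true (lf x)) * ct (vec true (gb F x)) Omg = 0 := by
    rw [hes_io_ct (hes_io_Omg _), vec_cv, hes_lf_gb h hx]; simp
  have e2 : io (cv true (lf x)) * ak F x 0 = ct (vec true (gb F x)) Omg := by
    rw [ak, pow_zero, Module.End.one_apply, hes_io_ct e1, vec_cv, lf_self hx.1]; simp
  rw [e2, df, hes_io_ct (hes_io_Omg _), vec_cv, dEval_gb]; simp

theorem hes_wl_det (M : Matrix (Fin 6) (Fin 6) ℂ) (b : Fin 6 → W 5) :
    wl (List.ofFn fun j => ∑ i, M j i • b i) = M.det • wl (List.ofFn b) := by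
  obtain ⟨G, e⟩ : ∃ G : (W 5) [⋀^Fin 6]→ₗ[ℂ] Λ 5, ∀ v, wl (List.ofFn v) = G v :=
    ⟨ExteriorAlgebra.ιMulti ℂ 6, fun v => by
      rw [wl, List.map_ofFn]; exact (ExteriorAlgebra.ιMulti_apply v).symm⟩
  rw [e, e, ← sub_eq_zero, ← Module.forall_dual_apply_eq_zero_iff ℂ]
  intro φ
  let T : (Fin 6 → ℂ) →ₗ[ℂ] W 5 := Fintype.linearCombination ℂ b
  have k := ((φ.compAlternatingMap G).compLinearMap T).eq_smul_basis_det (Pi.basisFun ℂ (Fin 6))
  have k1 := DFunLike.congr_fun k (fun j => M j)
  have e1 : (fun j => T (M j)) = fun j => ∑ i, M j i • b i := by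
    funext j; simp [T, Fintype.linearCombination_apply]
  have e2 : (fun j => T (Pi.basisFun ℂ (Fin 6) j)) = b := by
    funext j; simp [T, Fintype.linearCombination_apply, Pi.single_apply]
  simp only [AlternatingMap.compLinearMap_apply, LinearMap.compAlternatingMap_apply,
    AlternatingMap.smul_apply, e1, e2, Pi.basisFun_det_apply, smul_eq_mul] at k1
  rw [map_sub, map_smul, smul_eq_mul, sub_eq_zero, mul_comm]
  exact k1

theorem hes_cj_wl (L : List (W 5)) : cjL (wl L) = wl (L.map cw) := by
  induction L with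
  | nil => exact cjL_one
  | cons w L ih => rw [wl_cons, cjL_io_mul, ih, List.map_cons, wl_cons]

theorem hes_six : (kp F x ^ 6) Omg = (720 * conj (eval x (Hes F))) • cjL Omg := by
  have e := (hes_pow_wl (F := F) (x := x) (List.ofFn (dz true))).2
  rw [List.length_ofFn, List.map_ofFn] at e
  have e1 : (hesA F x ∘ dz true) = fun j => ∑ i, (Matrix.of fun j i : Fin 6 =>
      conj (MvPolynomial.eval x (pderiv i (pderiv j F)))) j i • dz false i := by
    funext j
    rw [comp_apply, hesA_apply, Finset.sum_eq_single j (fun b _ hb => by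
      rw [vec_ee_dz, if_neg (by simp [hb])]; ext v; simp)
      (by simp), vec_ee_dz, df, cv_eq_sum]
    simp [dEval_apply, ee, Pi.single_apply]
  have e2 : (Matrix.of fun j i : Fin 6 => conj (MvPolynomial.eval x (pderiv i (pderiv j F)))).det =
      conj (eval x (Hes F)) := by
    rw [Hes, RingHom.map_det, RingHom.map_det, ← Matrix.det_transpose]
    rfl
  have e3 : cjL Omg = wl (List.ofFn (dz false)) := by
    rw [Omg, hes_cj_wl, List.map_ofFn]
    exact congrArg (fun v => wl (List.ofFn v)) (funext fun j => cw_dz true j)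
  rw [e3, Omg, e, e1, hes_wl_det, e2, smul_smul]
  norm_num [Nat.factorial]

theorem hes_pd_comm (i j : Fin 6) (P : MP 5) : pderiv i (pderiv j P) = pderiv j (pderiv i P) := by
  induction P using MvPolynomial.induction_on with
  | C a => simp
  | add p q hp hq => simp only [map_add, hp, hq]
  | mul_X p l hp =>
    have k : ∀ a b : Fin 6, pderiv a (pderiv b (X l : MP 5)) = 0 := fun a b => by
      rw [pderiv_X, Pi.single_apply]; split_ifs <;> simp
    simp only [Derivation.leibniz, map_add, smul_eq_mul, hp, k]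
    ring

theorem hes_A_lf (h : Sm F) : hesA F x (cv true (lf x)) = (2 * (nu x)⁻¹) • df false F x := by
  ext v
  have k : ∀ i, ∑ j, x j * eval x (pderiv i (pderiv j F)) = 2 * eval x (pderiv i F) := fun i => by
    have := dEval_self (h.hom_pd i) x
    rw [dEval_apply] at this
    rw [← show ((2 : ℕ) : ℂ) = 2 from rfl, ← this]
    refine Finset.sum_congr rfl fun j _ => ?_
    rw [mul_comm, hes_pd_comm]
  have k2 : ∑ j, x j * dEval (pderiv j F) x v = 2 * dEval F x v := by
    simp only [dEval_apply, Finset.mul_sum]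
    rw [Finset.sum_comm]
    refine Finset.sum_congr rfl fun i _ => ?_
    rw [← mul_assoc, ← k, Finset.sum_mul]
    exact Finset.sum_congr rfl fun j _ => by ring
  have k3 := congrArg (fun z => conj z * (nu x)⁻¹) k2
  simp only [map_sum, map_mul, map_ofNat, Finset.sum_mul] at k3
  have k4 : ∀ j, lf x (ee j) = conj (x j) * (nu x)⁻¹ := fun j => by
    simp [lf, ee, Pi.single_apply]
  simp only [hesA_apply, vec_cv, k4, if_true, sg_true, _root_.sum_apply,
    _root_.smul_apply, df, cv_apply, sg_false, smul_eq_mul]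
  rw [mul_right_comm, ← k3]
  exact Finset.sum_congr rfl fun j _ => by ring

theorem hes_conj_nu (y : V) : conj (nu y) = nu y := by
  simp [nu, mul_comm]

theorem hes_vec_A (h : Sm F) : vec false x (hesA F x (df true F x)) = 2 * gg F x := by
  rw [hesA_apply, map_sum, gg, nu, Finset.mul_sum]
  refine Finset.sum_congr rfl fun j _ => ?_
  rw [map_smul, vec_df, vec_df, dEval_self (h.hom_pd j)]
  simp [dEval_apply, ee, Pi.single_apply, gr, map_ofNat]
  ring

theorem hes_main (h : Sm F) (hx : x ∈ Pub.cone F) : io (df false F x) * (ak F x 4 -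
    (-6 * conj (eval x (Hes F)) * nu x * (gg F x)⁻¹) • cjL (ak F x 0)) = 0 := by
  have a5 : ak F x 5 = 0 := Eg_neg (by norm_num) (hes_ak_Eg 5)
  have a6 : ak F x 6 = 0 := Eg_neg (by norm_num) (hes_ak_Eg 6)
  have p : ∀ k, (kp F x ^ k) (ak F x 0) = ak F x k := fun k => rfl
  have h0 : dEval F x x = 0 := by rw [dEval_self h.hom, hx.2, mul_zero]
  have e1 := congrArg (kp F x ^ 6 : Module.End ℂ (Λ 5)) (hes_fac h hx)
  rw [hes_pow_io 5, hes_pow_io 4, hes_pow_io 5, p, p, p, a5, a6, map_smul, hes_six, smul_comm,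
    hes_A_lf h] at e1
  have e2 := congrArg cjL (hes_fac h hx)
  rw [cjL_io_mul, cjL_io_mul, cjL_smul, gg, hes_conj_nu, ← gg, df, cw_cv, cw_cv] at e2
  rw [← e2] at e1
  have e3 := congrArg (ct (vec false x)) e1
  have b0 : ct (vec false x) (cjL (ak F x 0)) = 0 :=
    (cjL_ct true x _).symm.trans (by rw [hes_ct_x, map_zero])
  simp only [mul_zero, smul_zero, add_zero, map_smul, mul_smul_comm, smul_mul_assoc, ct_io_mul,
    hes_vec_A h, vec_df, h0, hes_ct_bar_ak h, vec_cv, lf_self hx.1, b0, Bool.not_true, if_true,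
    map_zero, map_one, zero_smul, one_smul, sub_zero, zero_sub, smul_smul] at e3
  have n1 := nu_ne hx.1
  have n2 := h.gg_ne hx.1
  rw [mul_sub, mul_smul_comm, sub_eq_zero, df]
  have e4 := congrArg (fun z => (nu x * (gg F x)⁻¹ / 120) • z) e3
  simp only [smul_smul, smul_neg, ← neg_smul] at e4
  rw [df] at e4
  refine ((one_smul ℂ _).symm.trans ?_).trans (e4.trans ?_)
  · congr 1
    push_cast
    field_simp
    norm_num
  · congr 1
    ring

/-- **The products of the leading terms.** -/
theorem stHes : StHes := by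
  refine ⟨-6, by norm_num, fun {F} h x hx => ?_⟩
  have e1 := congrArg (kp F x) (hes_three h hx (i := 0) (j := 3) rfl)
  have e2 := congrArg (kp F x) (hes_three h hx (i := 1) (j := 2) rfl)
  rw [hes_kp_mul, ← hes_ak_succ, ← hes_ak_succ, map_zero] at e1 e2
  have e3 := eq_neg_of_add_eq_zero_left e1
  refine ⟨e3, ?_, ?_⟩
  · have := eq_neg_of_add_eq_zero_left e2
    rwa [e3, neg_neg] at this
  · have k := hes_io_ct (hes_main h hx) (vec false (gb F x))
    rw [vec_df, dEval_gb, if_pos rfl, sg_false, gg, hes_conj_nu, ← gg] at k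
    have := h.df_nl hx false (ct (vec false (gb F x)) (ak F x 4 -
      (-6 * conj (eval x (Hes F)) * nu x * (gg F x)⁻¹) • cjL (ak F x 0)))
    rw [k, Submodule.smul_mem_iff _ (h.gg_ne hx.1)] at this
    simpa using this

end Vale.Agent.P287T.Per
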