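import Vale.Agent.P287T.Per.Defs

/-!
# P287, periods of cubic fourfolds: the statements of the block
-/

noncomputable section

namespace Vale.Agent.P287T.Per

open Set Function Topology Filter Module MvPolynomial P291Z P269 P269.Holo P269.Mono P269.Coh
  P269.Tq P269.Hdg P287Q P287Q.Hb P287Q.Cub P287Q.Zc Metric
open scoped ComplexConjugate ContDiff

/-- The invariant description of the forms of weight `w` and of the basic forms. -/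
structure StFw : Prop where
  fw : ∀ m w (u : SM 5), u ∈ Fw m w ↔ ∀ x ≠ 0, u.1 x ∈ Dg m ∧ ct (vec false x) (u.1 x) = 0 ∧
    ∀ t : ℂ, t ≠ 0 → mp (tr (scal t)) (u.1 (t • x)) = t ^ w • u.1 x
  ak : ∀ m (u : SM 5), u ∈ Ak m ↔ u ∈ Fw m 0 ∧ ∀ x ≠ 0, ct (vec true x) (u.1 x) = 0

/-- Pull-back along smooth equivariant maps. -/
structure StPB : Prop where
  fw : ∀ {Φ} (e : Eqv Φ) {m w u}, u ∈ Fw m w → e.PB u ∈ Fw m w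
  ak : ∀ {Φ} (e : Eqv Φ) {k u}, u ∈ Ak k → e.PB u ∈ Ak k
  ie : ∀ {Φ} (e : Eqv Φ) (u : SM 5), ∀ x ≠ 0, (iE (e.PB u)).1 x = (e.PB (iE u)).1 x
  df : ∀ {F F' Φ}, Tr F F' Φ → ∀ s, ∀ x ≠ 0, tr (fderiv ℝ Φ x) (df s F' (Φ x)) = df s F x
  cls : ∀ {F F' Φ} (h : Sm F) (h' : Sm F') (e : Tr F F' Φ) {k u}, u ∈ h'.Z k →
    e.toEqv.PB u ∈ h.Z k ∧ h.cls k (e.toEqv.PB u) = H.map e.φ (h'.cls k u)

/-- The family of identifications. -/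
def StPhi : Prop := ∀ (T : Type) [NormedAddCommGroup T] [NormedSpace ℂ T] [FiniteDimensional ℂ T]
  (F : MP 5), Sm F → ∀ p : T →ₗ[ℂ] MP 5, (∀ t, (p t).IsHomogeneous 3) →
    ∃ (r : ℝ) (Φ : T → V → V), 0 < r ∧ (∀ t ∈ ball 0 r, Sm (F + p t) ∧ Tr F (F + p t) (Φ t)) ∧
      Fam (ball 0 r) Φ ∧ ∀ x ≠ 0, Φ 0 x = x

/-- The identification of the cohomology rings. -/
def StTop : Prop := ∀ {F F' Φ} (h : Sm F) (h' : Sm F') (e : Tr F F' Φ),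
  H.map e.φ (hyp F') = hyp F ∧ (∀ y, h.J (H.map e.φ y) = h'.J y) ∧ Bijective (H.map e.φ) ∧
    (∀ k y, H.IsDeg k (H.map e.φ y) ↔ H.IsDeg k y) ∧
    ∀ y, H.map e.φ y ∈ Lk (XF F) 4 ↔ y ∈ Lk (XF F') 4

/-- The Hodge filtration of the cubic fourfold. -/
structure StFil : Prop where
  f3 : ∀ {F} (h : Sm F), ∀ u ∈ h.Z 4, (∀ x ≠ 0, u.1 x ∈ Fl 3) → h.cls 4 u ∈ TT F 3 1
  t22 : ∀ {F} (h : Sm F), ∀ σ ∈ TT F 3 1, σ ≠ 0 → ∀ y, H.IsDeg 4 y →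
    (y ∈ TT F 2 2 ↔ h.J (y * σ) = 0 ∧ h.J (y * cj σ) = 0)
  prim : ∀ {F}, Sm F → ∀ σ ∈ TT F 3 1, hyp F * σ = 0
  dim : ∀ {F} (h : Sm F), ∀ σ ∈ TT F 3 1, σ ≠ 0 → ∀ K : Submodule ℂ (H (XF F)),
    (∀ y, y ∈ K ↔ H.IsDeg 4 y ∧ hyp F * y = 0 ∧ h.J (y * σ) = 0) → finrank ℂ K = 21
  nd : ∀ {F} (h : Sm F) (y : H (XF F)), H.IsDeg 4 y →
    (∀ z, H.IsDeg 4 z → h.J (y * z) = 0) → y = 0

/-- Calculus of families. -/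
structure StFam (T : Type) [NormedAddCommGroup T] [NormedSpace ℝ T] : Prop where
  dd : ∀ {U : Set T} {a : T → V → Λ 5}, IsOpen U → Fam U a → Fam U (fun t => dd idE (a t)) ∧
    ∀ t ∈ U, ∀ w, ∀ x ≠ 0, dT (fun t => dd idE (a t)) t w x = dd idE (dT a t w) x
  pb : ∀ {U : Set T} {Φ : T → V → V}, IsOpen U → Fam U Φ → (∀ t ∈ U, ∀ x ≠ 0, Φ t x ≠ 0) →
    ∀ u : SM 5, Fam U (fun t => pb (Φ t) u.1) ∧ ∀ t ∈ U, ∀ w, ∀ x ≠ 0,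
      ContDiffAt ℝ ∞ (hop Φ t w u.1) x ∧ dT (fun t => pb (Φ t) u.1) t w x =
        Hdg.dd idE (hop Φ t w u.1) x + hop Φ t w (Hdg.dd idE u.1) x
  unif : ∀ {U : Set T} {a : T → V → Λ 5}, IsOpen U → Fam U a → ∀ t ∈ U, ∀ K : Set V, IsCompact K →
    0 ∉ K → ∀ ε : ℝ, 0 < ε → ∀ᶠ w in 𝓝 (0 : T), ∀ x ∈ K,
      ‖a (t + w) x - a t x - dT a t w x‖ ≤ ε * ‖w‖

/-- Positivity of the integral. -/
def StPos : Prop := ∀ {F} (h : Sm F), ∃ c : ℂ, c ≠ 0 ∧ ∀ (m : ℕ) (f p : V → ℂ),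
  (∀ x ≠ 0, ContDiffAt ℝ ∞ f x) → Hdg.Hm m 0 f → (∀ x ≠ 0, ContDiffAt ℝ ∞ p x) →
  Hdg.Hm (-m - 3) (-m - 3) p → (∀ x ≠ 0, ∃ s : ℝ, 0 < s ∧ p x = s) → ∀ θ ∈ Ak 8,
  (∀ x ∈ Pub.cone F, θ.1 x - (f x * conj (f x) * p x) • h.vol.1 x ∈ nl (Pub.cone F) x) →
    ∃ t : ℝ, 0 ≤ t ∧ h.J (h.cls 8 θ) = t * c ∧ ((∃ x ∈ Pub.cone F, f x ≠ 0) → 0 < t)

/-- Continuity of the integral. -/
def StBnd : Prop := ∀ {F} (h : Sm F), (∀ θ ∈ Ak 8, θ ∈ h.Z 8) ∧ ∃ M : ℝ, ∀ θ ∈ Ak 8, ∀ c : ℝ,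
  (∀ x ∈ Pub.cone F, ‖x‖ = 1 → ‖θ.1 x‖ ≤ c) → ‖h.J (h.cls 8 θ)‖ ≤ M * c

/-- The leading terms of the residue forms. -/
def StTyp : Prop := ∀ {F} (h : Sm F) (k : ℕ) (A : MP 5), ∀ x ≠ 0,
  ak F x k ∈ Ty (4 - k) k ∧ ct (vec true x) (ak F x k) = 0 ∧
    (x ∈ Pub.cone F → ct (vec false x) (ak F x k) = 0) ∧
    (h.r k A).1 x - (eval x A * (gg F x)⁻¹ ^ (k + 1)) • ak F x k ∈ Fl (5 - k)

/-- The products of the leading terms. -/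
def StHes : Prop := ∃ c : ℝ, c ≠ 0 ∧ ∀ {F}, Sm F → ∀ x ∈ Pub.cone F,
  ak F x 1 * ak F x 3 = -(ak F x 0 * ak F x 4) ∧ ak F x 2 * ak F x 2 = ak F x 0 * ak F x 4 ∧
    ak F x 4 - (c * conj (eval x (Hes F)) * nu x * (gg F x)⁻¹) • cjL (ak F x 0) ∈ nl (Pub.cone F) x

/-- The socle of the Jacobian ring. -/
def StAlg : Prop := ∀ {F}, Sm F → (Hes F).IsHomogeneous 6 ∧ (∃ x ∈ Pub.cone F, eval x (Hes F) ≠ 0) ∧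
  (∀ A : MP 5, A.IsHomogeneous 3 → A ∉ J3 F → ∃ B : MP 5, B.IsHomogeneous 3 ∧ ∃ c : Fin 6 → MP 5,
    (∀ j, (c j).IsHomogeneous 4) ∧ A * B = Hes F + ∑ j, c j * pderiv j F) ∧
  finrank ℂ (homogeneousSubmodule (Fin 6) ℂ 3) = 56 ∧ finrank ℂ (J3 F) ≤ 36

/-- **The period map** of the family `F + p t` over the ball of radius `r`. -/
structure PM {F : MP 5} (h : Sm F) {T : Type} [NormedAddCommGroup T] [NormedSpace ℂ T]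
    (p : T →ₗ[ℂ] MP 5) (r : ℝ) (Φ : T → V → V) (σ : T → H (XF F))
    (η : T → T →ₗ[ℂ] H (XF F)) : Prop where
  pos : 0 < r
  sm : ∀ t ∈ ball 0 r, Sm (F + p t)
  tr : ∀ t ∈ ball 0 r, Tr F (F + p t) (Φ t)
  fam : Fam (ball 0 r) Φ
  zero : ∀ x ≠ 0, Φ 0 x = x
  om : ∀ t (ht : t ∈ ball 0 r), ∃ s ∈ TT (F + p t) 3 1, s ≠ 0 ∧ σ t = H.map (tr t ht).φ s
  an : ∀ y, AnalyticOnNhd ℂ (fun t => h.J (y * σ t)) (ball 0 r)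
  der : ∀ y, ∀ t ∈ ball 0 r, ∀ w, fderiv ℂ (fun t => h.J (y * σ t)) t w = h.J (y * η t w)
  tan : ∀ t ∈ ball 0 r, ∀ w, H.IsDeg 4 (η t w) ∧ hyp F * η t w = 0 ∧ h.J (η t w * σ t) = 0
  onto : (∀ A : MP 5, A.IsHomogeneous 3 → ∃ w, p w = A) → ∀ t ∈ ball 0 r, ∀ y, H.IsDeg 4 y →
    hyp F * y = 0 → h.J (y * σ t) = 0 → ∃ w, η t w = y

/-- **Local Torelli**: the output of the block. -/
def StPer : Prop := ∀ (T : Type) [NormedAddCommGroup T] [NormedSpace ℂ T] [FiniteDimensional ℂ T]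
  {F : MP 5} (h : Sm F) (p : T →ₗ[ℂ] MP 5), (∀ t, (p t).IsHomogeneous 3) →
    ∃ r Φ σ η, PM h p r Φ σ η

end Vale.Agent.P287T.Per
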