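import Vale.Agent.P287Q.Cub.S
import Vale.Agent.P287Q.Hb.HRg
import Vale.Agent.P287Q.Hb.Span

/-!
# P287, periods of cubic fourfolds: definitions

`Ω = dz₀ ∧ ⋯ ∧ dz₅`, `g = ∇F`, `ν = conj g / |g|²` (so `dF(ν) = 1` away from the origin),
`R_k(A) = ι_ν (d ι_ν)^k (A Ω)`, `r_k(A) = ι_e R_k(A)`: the residue of `k! A Ω / F^(k+1)`.
-/

set_option linter.unusedSectionVars false
set_option linter.style.haveILetI false

noncomputable section

namespace Vale.Agent.P287T.Per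

open Set Function Topology Filter Module MvPolynomial P291Z P269 P269.Holo P269.Mono P269.Coh
  P269.Tq P269.Hdg P287Q P287Q.Hb P287Q.Cub
open scoped ComplexConjugate ContDiff

/-- The affine space. -/
abbrev V : Type := E 5

/-- A smooth cubic form. -/
structure Sm (F : MP 5) : Prop where
  hom : F.IsHomogeneous 3
  sm : Pub.IsSmoothForm F

/-- The gradient. -/
def gr (F : MP 5) (x : V) : V := fun j => eval x (pderiv j F)

/-- The conjugate gradient. -/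
def gb (F : MP 5) (x : V) : V := fun j => conj (gr F x j)

/-- The squared norm of the gradient. -/
def gg (F : MP 5) (x : V) : ℂ := nu (gr F x)

/-- The normal field. -/
def nv (F : MP 5) (x : V) : V := (gg F x)⁻¹ • gb F x

/-- The determinant of the Hessian. -/
def Hes (F : MP 5) : MP 5 := (Matrix.of fun i j => pderiv i (pderiv j F)).det

/-- The cubic part of the Jacobian ideal. -/
def J3 (F : MP 5) : Submodule ℂ (MP 5) :=
  Submodule.span ℂ (range fun q : Fin 6 × Fin 6 => X q.1 * pderiv q.2 F)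

variable {F F' : MP 5} {x : V}

theorem sm_gr (F : MP 5) (x : V) : ContDiffAt ℝ ∞ (gr F) x :=
  contDiffAt_pi.2 fun _ => sm_eval _ _

theorem sm_gb (F : MP 5) (x : V) : ContDiffAt ℝ ∞ (gb F) x :=
  contDiffAt_pi.2 fun _ => contDiffAt_conj (sm_eval _ _)

theorem sm_gg (F : MP 5) (x : V) : ContDiffAt ℝ ∞ (gg F) x :=
  (contDiffAt_nu _).comp x (sm_gr F x)

theorem dEval_gb (F : MP 5) (x : V) : dEval F x (gb F x) = gg F x := dEval_apply _ _ _

namespace Sm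

variable (h : Sm F)
include h

theorem gr_ne (hx : x ≠ 0) : gr F x ≠ 0 := fun e => hx (h.sm x (congrFun e))

theorem gg_ne (hx : x ≠ 0) : gg F x ≠ 0 := nu_ne (h.gr_ne hx)

theorem sm_nv (x : V) (hx : x ≠ 0) : ContDiffAt ℝ ∞ (nv F) x :=
  sm_smul ((sm_gg F x).inv (h.gg_ne hx)) (sm_gb F x)

theorem dEval_nv (hx : x ≠ 0) : dEval F x (nv F x) = 1 := by
  rw [nv, map_smul, dEval_gb, smul_eq_mul, inv_mul_cancel₀ (h.gg_ne hx)]

theorem hom_pd (j : Fin 6) : (pderiv j F).IsHomogeneous 2 := h.hom.pderiv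

theorem gr_smul (t : ℂ) (x : V) : gr F (t • x) = t ^ 2 • gr F x :=
  funext fun j => by rw [gr, eval_smul_of_hom (h.hom_pd j) t x]; rfl

theorem gb_smul (t : ℂ) (x : V) : gb F (t • x) = conj t ^ 2 • gb F x :=
  funext fun j => by simp [gb, h.gr_smul]

theorem gg_smul (t : ℂ) (x : V) : gg F (t • x) = t ^ 2 * conj t ^ 2 * gg F x := by
  rw [gg, h.gr_smul, nu_smul, map_pow, gg]

theorem hm_nv : Hdg.Hm (1 - 3) 0 (nv F) := fun t x ht hx => by
  have h1 : conj t ≠ 0 := (map_ne_zero _).2 ht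
  have h2 := h.gg_ne hx
  rw [nv, nv, h.gb_smul, h.gg_smul, smul_smul, smul_smul]
  congr 1
  norm_num
  field_simp

theorem cb : Cb fun _ : Unit => F := S_cb h.hom h.sm

/-- The tangent spaces of the cone. -/
theorem mem_tn (hx : x ∈ Pub.cone F) {v : V} : v ∈ tn (Pub.cone F) x ↔ dEval F x v = 0 := by
  rw [S_cone] at hx ⊢
  rw [← SetLike.mem_coe, tn_cone h.cb.ci h.cb.hn hx, dEval_apply]
  exact ⟨fun k => k (), fun k _ => k⟩

theorem qm : QM (scl (π₀ (Fin 6))) (Pub.cone F) 4 :=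
  haveI := N0_isAct (π₀ (Fin 6))
  qmF h.hom h.sm

theorem subC : SubC (Pub.cone F) 4 := by
  haveI := N0_isAct (π₀ (Fin 6))
  refine ⟨fun _ k => k.1, fun t ht x k => ⟨smul_ne_zero ht k.1, ?_⟩, fun x k k0 => ⟨k0, ?_⟩,
    fun x k => ?_⟩
  · rw [eval_smul_of_hom h.hom, k.2, mul_zero]
  · exact closure_minimal (fun _ a => a.2) (isClosed_eq (continuous_eval F) continuous_const) k
  · obtain ⟨m, e, a⟩ := h.qm.mfd k
    rwa [show m = 4 + 1 by simp at e; omega] at a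

theorem isProj : IsProj (Quo.mk (scl (π₀ (Fin 6))) : Pub.cone F → XF F) := by
  haveI := N0_isAct (π₀ (Fin 6))
  have := (sc_scl (N := 5) (π₀ (Fin 6))).isProj (F := fun _ : Unit => F)
  rwa [← S_cone] at this

/-- The cubic fourfold with its integral. -/
@[reducible] def ps : PS :=
  haveI := N0_isAct (π₀ (Fin 6))
  h.qm.ps

/-- The integral. -/
abbrev J : H (XF F) →ₗ[ℂ] ℂ := h.ps.J

/-- Closed forms on the cubic fourfold. -/
abbrev Z (k : ℤ) : Submodule ℂ (SM 5) := (Hb.dR h.subC).sh.gl.Z k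

/-- Exact forms on the cubic fourfold. -/
abbrev B (k : ℤ) : Submodule ℂ (SM 5) := (Hb.dR h.subC).sh.gl.B k

open Classical in
/-- The class of a closed form (zero for the other forms). -/
def cls (k : ℤ) (u : SM 5) : H (XF F) :=
  if hu : u ∈ h.Z k then Hb.cmp h.subC h.isProj k (Cx.cl u hu) else 0

end Sm

/-- The Hodge types. -/
abbrev TT (F : MP 5) : ℤ → ℤ → Submodule ℂ (H (XF F)) := QT (scl (π₀ (Fin 6))) (Pub.cone F)

namespace Sm

variable (h : Sm F) {k l : ℤ} {u v : SM 5}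
include h

theorem cubH : CubH h.ps (TT F) (hyp F) :=
  haveI := N0_isAct (π₀ (Fin 6))
  cubF _ h.hom h.sm

theorem mem_Z : u ∈ h.Z k ↔ u ∈ Ak k ∧ DD u ∈ Hb.Nl (Pub.cone F) := dR_Z h.subC

theorem mem_B : u ∈ h.B k ↔ ∃ w ∈ Ak (k - 1), u - DD w ∈ Hb.Nl (Pub.cone F) := dR_B h.subC

theorem cls_eq (hu : u ∈ h.Z k) : h.cls k u = Hb.cmp h.subC h.isProj k (Cx.cl u hu) := dif_pos hu

theorem cls_add (hu : u ∈ h.Z k) (hv : v ∈ h.Z k) : h.cls k (u + v) = h.cls k u + h.cls k v := by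
  rw [h.cls_eq hu, h.cls_eq hv, h.cls_eq (add_mem hu hv), ← map_add]; rfl

theorem cls_smul (c : ℂ) (hu : u ∈ h.Z k) : h.cls k (c • u) = c • h.cls k u := by
  rw [h.cls_eq hu, h.cls_eq (Submodule.smul_mem _ c hu), ← map_smul]; rfl

theorem cls_sub (hu : u ∈ h.Z k) (hv : v ∈ h.Z k) : h.cls k (u - v) = h.cls k u - h.cls k v := by
  rw [h.cls_eq hu, h.cls_eq hv, h.cls_eq (sub_mem hu hv), ← map_sub]; rfl

theorem cls_neg (hu : u ∈ h.Z k) : h.cls k (-u) = -h.cls k u := by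
  rw [h.cls_eq hu, h.cls_eq (neg_mem hu), ← map_neg]; rfl

theorem cls_zero : h.cls k 0 = 0 := by
  rw [h.cls_eq (zero_mem _)]; exact map_zero _

theorem cls_congr (hu : u ∈ h.Z k) (hv : v ∈ h.Z k) (e : u - v ∈ h.B k) :
    h.cls k u = h.cls k v := by
  rw [h.cls_eq hu, h.cls_eq hv, (Cx.cl_eq_cl hu hv).2 e]

theorem Nl_le_B (hu : u ∈ Hb.Nl (Pub.cone F)) : u ∈ h.B k := Cx.nul_le_B ((dR_nul h.subC).2 hu)

theorem cls_nl (hu : u ∈ h.Z k) (hv : v ∈ h.Z k) (e : u - v ∈ Hb.Nl (Pub.cone F)) :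
    h.cls k u = h.cls k v := h.cls_congr hu hv (h.Nl_le_B e)

theorem cls_mul (hu : u ∈ h.Z k) (hv : v ∈ h.Z l) :
    h.cls (k + l) (ML u v) = h.cls k u * h.cls l v := by
  rw [h.cls_eq hu, h.cls_eq hv, h.cls_eq (Hb.ML_Z h.subC hu hv), Hb.cmp_mul]

theorem cls_deg (k : ℤ) (u : SM 5) : H.IsDeg k (h.cls k u) := by
  by_cases hu : u ∈ h.Z k
  · rw [h.cls_eq hu]; exact (Hb.cmp_range _ _).1 ⟨_, rfl⟩
  · rw [cls, dif_neg hu]; exact zero_mem (H.deg _ k)

theorem cls_surj {c : H (XF F)} (hc : H.IsDeg k c) : ∃ u ∈ h.Z k, h.cls k u = c := by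
  obtain ⟨y, rfl⟩ := (Hb.cmp_range h.subC h.isProj).2 hc
  obtain ⟨u, hu, rfl⟩ := Cx.exists_cl y
  exact ⟨u, hu, h.cls_eq hu⟩

theorem mem_TT {p q : ℤ} {c : H (XF F)} :
    c ∈ TT F p q ↔ ∃ u ∈ h.Z (p + q), u ∈ Om p q ∧ h.cls (p + q) u = c :=
  (mem_HT_iff h.subC h.isProj).trans (exists_congr fun _ =>
    ⟨fun ⟨a, b, c⟩ => ⟨a, b, (h.cls_eq a).trans c⟩, fun ⟨a, b, c⟩ => ⟨a, b, (h.cls_eq a).symm.trans c⟩⟩)

theorem df_nl (hx : x ∈ Pub.cone F) (s : Bool) (b : Λ 5) :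
    io (df s F x) * b ∈ nl (Pub.cone F) x := fun P hP => by
  rw [map_mul, mp_io, show tr P (df s F x) = 0 from ContinuousLinearMap.ext fun v => by
    simp [df, (h.mem_tn hx).1 (hP v)], map_zero, zero_mul]

end Sm

/-! ## Forms on the cone -/

/-- The holomorphic volume form. -/
def Omg : Λ 5 := wl (List.ofFn (dz true))

/-- Forms of degree `m` and weight `w`, horizontal in the antiholomorphic direction. -/
def Fw (m w : ℤ) : Submodule ℂ (SM 5) where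
  carrier := {u | (∀ p q, PT p q u ∈ Fm p q w) ∧ ∀ x ≠ 0, u.1 x ∈ Dg m}
  zero_mem' := ⟨fun _ _ => by rw [map_zero]; exact zero_mem _, fun _ _ => zero_mem _⟩
  add_mem' hu hv := ⟨fun p q => by rw [map_add]; exact add_mem (hu.1 p q) (hv.1 p q),
    fun x hx => add_mem (hu.2 x hx) (hv.2 x hx)⟩
  smul_mem' c _ hu := ⟨fun p q => by rw [map_smul]; exact Submodule.smul_mem _ _ (hu.1 p q),
    fun x hx => Submodule.smul_mem _ _ (hu.2 x hx)⟩

/-- Contraction with the Euler field. -/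
def iE : SM 5 →ₗ[ℂ] SM 5 := CT true (fun x => x) fun _ _ => contDiffAt_id

/-- The form `A Ω`. -/
def PO : MP 5 →ₗ[ℂ] SM 5 where
  toFun A := ⟨fun x => eval x A • Omg, fun x _ => sm_smul (sm_eval A x) contDiffAt_const⟩
  map_add' _ _ := Subtype.ext (funext fun _ => by simp [add_smul])
  map_smul' _ _ := Subtype.ext (funext fun _ => by simp [smul_smul, smul_eval])

/-- Contraction with the normal field. -/
def Sm.iN (h : Sm F) : SM 5 →ₗ[ℂ] SM 5 := CT true (nv F) h.sm_nv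

/-- The derivative along `F`. -/
def Sm.S (h : Sm F) : Module.End ℂ (SM 5) := h.iN ∘ₗ DD

/-- The residue forms on the cone. -/
def Sm.R (h : Sm F) (k : ℕ) : MP 5 →ₗ[ℂ] SM 5 := (h.S ^ k) ∘ₗ h.iN ∘ₗ PO

/-- The residue forms on the cubic fourfold. -/
def Sm.r (h : Sm F) (k : ℕ) : MP 5 →ₗ[ℂ] SM 5 := iE ∘ₗ h.R k

/-- The residue classes. -/
def Sm.ρ (h : Sm F) (k : ℕ) (A : MP 5) : H (XF F) := h.cls 4 (h.r k A)

/-- The form `ι_e ι_ν Ω` of type `(4, 0)` and weight three. -/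
def Sm.o4 (h : Sm F) : SM 5 := h.r 0 1

/-- The form `o4 ∧ conj o4` of type `(4, 4)`. -/
def Sm.vol (h : Sm F) : SM 5 := ML h.o4 (CL h.o4)

/-- Forms of holomorphic degree at least `r`. -/
def Fl (r : ℤ) : Submodule ℂ (Λ 5) where
  carrier := {o | ∀ p q, p < r → pt p q o = 0}
  zero_mem' _ _ _ := map_zero _
  add_mem' ha hb p q k := by rw [map_add, ha p q k, hb p q k, add_zero]
  smul_mem' c _ ha p q k := by rw [map_smul, ha p q k, smul_zero]

/-- The even derivation `∑ conj (d g_j) ∧ ι_j`. -/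
def kp (F : MP 5) (x : V) : Module.End ℂ (Λ 5) :=
  ∑ j, LinearMap.mulLeft ℂ (io (df false (pderiv j F) x)) ∘ₗ ct (vec true (ee j))

/-- The forms `κ^k ι_e ι_(conj g) Ω` of type `(4 - k, k)`. -/
def ak (F : MP 5) (x : V) (k : ℕ) : Λ 5 :=
  (kp F x ^ k) (ct (vec true x) (ct (vec true (gb F x)) Omg))

/-! ## Equivariant smooth maps and families -/

/-- A smooth equivariant self-map of the punctured affine space. -/
structure Eqv (Φ : V → V) : Prop where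
  sm : ∀ x ≠ 0, ContDiffAt ℝ ∞ Φ x
  ne : ∀ x ≠ 0, Φ x ≠ 0
  eq : ∀ (t : ℂ) (x : V), t ≠ 0 → x ≠ 0 → Φ (t • x) = t • Φ x

/-- Pull-back of forms. -/
def Eqv.PB {Φ : V → V} (e : Eqv Φ) : SM 5 →ₗ[ℂ] SM 5 where
  toFun u := ⟨pb Φ u.1, fun x hx => sm_pb (e.sm x hx) (u.sm (e.ne x hx))⟩
  map_add' _ _ := Subtype.ext (funext fun _ => map_add _ _ _)
  map_smul' c u := Subtype.ext (funext fun x => map_smul (mp (tr (fderiv ℝ Φ x))) c (u.1 (Φ x)))

/-- `Φ` carries `F` to `F'`. -/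
structure Tr (F F' : MP 5) (Φ : V → V) : Prop extends Eqv Φ where
  ev : ∀ x ≠ 0, eval (Φ x) F' = eval x F

theorem Tr.eqh {Φ : V → V} (e : Tr F F' Φ) : Eqh (scl (π₀ (Fin 6))) (scl (π₀ (Fin 6)))
    (Pub.cone F) (Pub.cone F') (fun a => a) Φ :=
  ⟨Tq.Hm.id, fun x hx => ⟨e.ne x hx.1, (e.ev x hx.1).trans hx.2⟩,
    fun x hx => (e.sm x hx.1).continuousAt.continuousWithinAt,
    fun a ha x hx => e.eq (a ()) x (Pi.isUnit_iff.1 ha ()).ne_zero hx.1⟩

/-- The map of cubic fourfolds. -/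
def Tr.φ {Φ : V → V} (e : Tr F F' Φ) : C(XF F, XF F') := e.eqh.toEqv.qm

theorem Tr.φ_mk {Φ : V → V} (e : Tr F F' Φ) (y : Pub.cone F) :
    e.φ (Quo.mk _ y) = Quo.mk _ ⟨Φ y.1, e.eqh.maps y.2⟩ := rfl

section fam

variable {T : Type} [NormedAddCommGroup T] [NormedSpace ℝ T]

/-- The family is smooth in both variables over `U`. -/
def Fam {B : Type} [NormedAddCommGroup B] [NormedSpace ℝ B] (U : Set T) (a : T → V → B) : Prop :=
  ∀ t ∈ U, ∀ x ≠ 0, ContDiffAt ℝ ∞ (fun q : V × T => a q.2 q.1) (x, t)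

/-- The derivative with respect to the parameter. -/
def dT {B : Type} [NormedAddCommGroup B] [NormedSpace ℝ B] (a : T → V → B) (t w : T) (x : V) : B :=
  fderiv ℝ (fun q : V × T => a q.2 q.1) (x, t) (0, w)

/-- The homotopy operator of the family of maps `Φ`. -/
def hop (Φ : T → V → V) (t w : T) (u : V → Λ 5) (x : V) : Λ 5 :=
  mp (tr (fderiv ℝ (Φ t) x)) (ct (vec true (dT Φ t w x) + vec false (dT Φ t w x)) (u (Φ t x)))

end fam

end Vale.Agent.P287T.Per
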