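import Vale.Agent.P287T.Per.St

/-!
# P287, periods: calculus of families and the homotopy formula
-/

noncomputable section

namespace Vale.Agent.P287T.Per

open Set Function Topology Filter Module MvPolynomial P291Z P269 P269.Holo P269.Mono P269.Coh
  P269.Tq P269.Hdg P287Q P287Q.Hb P287Q.Cub P287Q.Zc Metric
open scoped ComplexConjugate ContDiff

section gen

variable {Y : Type} [NormedAddCommGroup Y] [NormedSpace ℝ Y] {y : Y} (L : V →L[ℝ] Y) (v : Y)
  {B : Type} [NormedAddCommGroup B] [NormedSpace ℝ B] {Ψ : Y → V}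

theorem fam_sm_comp {G : Y → B} (h : ContDiffAt ℝ ∞ G y) :
    ContDiffAt ℝ ∞ (fun q => (fderiv ℝ G q).comp L) y := (sm_fderiv h).clm_comp contDiffAt_const

theorem fam_sm_app {G : Y → B} (h : ContDiffAt ℝ ∞ G y) :
    ContDiffAt ℝ ∞ (fun q => fderiv ℝ G q v) y := (sm_fderiv h).clm_apply contDiffAt_const

theorem fam_symm {G : Y → B} (h : ContDiffAt ℝ ∞ G y) :
    fderiv ℝ (fun q => (fderiv ℝ G q).comp L) y v = (fderiv ℝ (fun q => fderiv ℝ G q v) y).comp L := by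
  have hs : IsSymmSndFDerivAt ℝ G y := h.isSymmSndFDerivAt (by
    simp only [minSmoothness_of_isRCLikeNormedField]
    exact WithTop.coe_le_coe.2 (le_top (a := (2 : ℕ∞))))
  have hd := sm_diff (sm_fderiv h)
  rw [fderiv_clm_comp hd (differentiableAt_const _), fderiv_clm_apply hd (differentiableAt_const _)]
  ext z
  simp [hs.eq v]

theorem fam_dd_dir {A : Y → Λ 5} (h : ContDiffAt ℝ ∞ A y) :
    fderiv ℝ (dd L A) y v = dd L (fun q => fderiv ℝ A q v) y := by
  have hd := (sm_diff (fam_sm_comp L h)).hasFDerivAt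
  have h1 := ((al true).hasFDerivAt.comp y hd).add ((al false).hasFDerivAt.comp y hd)
  have h2 : fderiv ℝ (dd L A) y = _ := h1.fderiv
  rw [h2, dd, db, db, ← fam_symm L v h]
  rfl

/-- Evaluation at a real vector. -/
def famEv (v : V) : Module.Dual ℂ (W 5) := vec true v + vec false v

theorem famEv_apply (v : V) (w : W 5) : famEv v w = w v := vec_add_vec v w

theorem fam_sm_ct {ξ : Y → V} {u : Y → Λ 5} (hξ : ContDiffAt ℝ ∞ ξ y) (hu : ContDiffAt ℝ ∞ u y) :
    ContDiffAt ℝ ∞ (fun q => ct (famEv (ξ q)) (u q)) y := by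
  simp only [famEv, map_add, LinearMap.add_apply]
  exact (sm_ct true hξ hu).add (sm_ct false hξ hu)

theorem fam_sm_mp {M : Y → V →L[ℝ] V} {u : Y → Λ 5} (hM : ContDiffAt ℝ ∞ M y)
    (hu : ContDiffAt ℝ ∞ u y) : ContDiffAt ℝ ∞ (fun q => mp (tr (M q)) (u q)) y :=
  sm_app (Φ := fun q => (mp (tr (M q))).toLinearMap) (fun a => sm_mp hM a) hu

theorem fam_cartan (K : V →L[ℝ] Λ 5) (ξ : V) :
    al true ((toR (ct (famEv ξ))).comp K) + al false ((toR (ct (famEv ξ))).comp K) +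
      ct (famEv ξ) (al true K + al false K) = K ξ := by
  have : ∀ s, al s ((toR (ct (famEv ξ))).comp K) + ct (famEv ξ) (al s K) =
      ∑ j, dz s j ξ • vv s (ee j) K := fun s => by
    rw [al_apply, al_apply, map_sum, ← Finset.sum_add_distrib]
    refine Finset.sum_congr rfl fun j _ => ?_
    rw [ct_io_mul, vv_comp, famEv_apply]; abel
  rw [map_add, add_add_add_comm, this, this, ← K_expand]

theorem fam_closed (h : ContDiffAt ℝ ∞ Ψ y) (a : Λ 5) :
    dd L (fun q => mp (tr ((fderiv ℝ Ψ q).comp L)) a) y = 0 := by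
  have hs := fun a => sm_diff (sm_mp (fam_sm_comp L h) a)
  induction a using Hdg.ind with
  | one => simp [dd_const]
  | smul c a h => simp only [map_smul]; rw [dd_csmul c (hs a), h, smul_zero]
  | add a b ha hb => simp only [map_add]; rw [dd_add (hs a) (hs b), ha, hb, add_zero]
  | mul w a ih =>
    simp only [map_mul]
    rw [dd_mul (hs _) (hs _), ih, mul_zero, add_zero]
    have : (fun q => mp (tr ((fderiv ℝ Ψ q).comp L)) (io w)) =ᶠ[𝓝 y]
        dd L fun q => w (Ψ q) • (1 : Λ 5) :=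
      (sm_ev h).mono fun q hq => by
        have h1 := w.hasFDerivAt.comp q hq.hasFDerivAt
        have h2 : fderiv ℝ (fun q => w (Ψ q)) q = _ := h1.fderiv
        rw [dd_smul (g := fun q => w (Ψ q)) h1.differentiableAt (differentiableAt_const _), dd_const,
          smul_zero, add_zero, mul_one, h2]
        exact mp_io _ _
    rw [dd_congr this, dd_dd_self (sm_one (f := fun q => w (Ψ q))
      (w.contDiff.contDiffAt.comp y h)), zero_mul]

theorem fam_const (h : ContDiffAt ℝ ∞ Ψ y) (a : Λ 5) :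
    fderiv ℝ (fun q => mp (tr ((fderiv ℝ Ψ q).comp L)) a) y v =
      dd L (fun q => mp (tr ((fderiv ℝ Ψ q).comp L)) (ct (famEv (fderiv ℝ Ψ q v)) a)) y := by
  have hM := fam_sm_comp L h
  have hs := fun a => sm_diff (sm_mp hM a)
  have hc := fun a : Λ 5 =>
    sm_diff (fam_sm_mp hM (fam_sm_ct (fam_sm_app v h) (contDiffAt_const (c := a))))
  induction a using Hdg.ind with
  | one => simp [dd_const, ct_one]
  | smul c a ih =>
    simp only [map_smul]
    rw [dd_csmul c (hc a), ← ih, fderiv_fun_const_smul (hs a)]; rfl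
  | add a b ha hb =>
    simp only [map_add]
    rw [dd_add (hc a) (hc b), ← ha, ← hb, fderiv_fun_add (hs a) (hs b)]; rfl
  | mul w a ih =>
    have h1 := w.hasFDerivAt.comp y (sm_diff (fam_sm_app v h)).hasFDerivAt
    have h2 : fderiv ℝ (fun q => w (fderiv ℝ Ψ q v)) y = _ := h1.fderiv
    have h3 : fderiv ℝ (fun q => mp (tr ((fderiv ℝ Ψ q).comp L)) (io w)) y v =
        io ((fderiv ℝ (fun q => w (fderiv ℝ Ψ q v)) y).comp L) := by
      have h4 := (ioL.comp (ContinuousLinearMap.compL ℝ V V ℂ w)).hasFDerivAt.comp y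
        (sm_diff hM).hasFDerivAt
      have h5 : fderiv ℝ (fun q => io (tr ((fderiv ℝ Ψ q).comp L) w)) y = _ := h4.fderiv
      simp only [mp_io]
      rw [h5, h2, ContinuousLinearMap.comp_assoc w, ← fam_symm L v h]
      rfl
    simp only [ct_io_mul, map_mul, map_sub, map_smul, famEv_apply]
    rw [dd_sub ((show DifferentiableAt ℝ (fun q => w (fderiv ℝ Ψ q v)) y from
        h1.differentiableAt).fun_smul (hs a)) ((hs _).fun_mul (hc a)),
      dd_smul (g := fun q => w (fderiv ℝ Ψ q v)) h1.differentiableAt (hs a),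
      dd_mul (hs _) (hc a), fam_closed L h, fam_closed L h, fderiv_fun_mul' (hs _) (hs a), ← ih,
      ← h3, mp_io, par_io]
    simp [add_comm]

theorem fam_hom (h : ContDiffAt ℝ ∞ Ψ y) {u : V → Λ 5} (hu : DifferentiableAt ℝ u (Ψ y)) :
    fderiv ℝ (fun q => mp (tr ((fderiv ℝ Ψ q).comp L)) (u (Ψ q))) y v =
      dd L (fun q => mp (tr ((fderiv ℝ Ψ q).comp L)) (ct (famEv (fderiv ℝ Ψ q v)) (u (Ψ q)))) y +
        mp (tr ((fderiv ℝ Ψ y).comp L)) (ct (famEv (fderiv ℝ Ψ y v)) (dd idE u (Ψ y))) := by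
  have hM := fam_sm_comp L h
  have hd : DifferentiableAt ℝ (fun q => u (Ψ q)) y := hu.comp y (sm_diff h)
  have h1 : fderiv ℝ (fun q => mp (tr ((fderiv ℝ Ψ q).comp L)) (u (Ψ q))) y =
      fderiv ℝ (fun q => mp (tr ((fderiv ℝ Ψ q).comp L)) (u (Ψ y))) y + _ :=
    fderiv_app (Φ := fun q => (mp (tr ((fderiv ℝ Ψ q).comp L))).toLinearMap)
      (fun a => sm_mp hM a) hd
  have h2 : fderiv ℝ (fun q => mp (tr ((fderiv ℝ Ψ q).comp L))
      (ct (famEv (fderiv ℝ Ψ q v)) (u (Ψ q)))) y = fderiv ℝ (fun q => mp (tr ((fderiv ℝ Ψ q).comp L))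
      (ct (famEv (fderiv ℝ Ψ q v)) (u (Ψ y)))) y + _ :=
    fderiv_app (Φ := fun q => (mp (tr ((fderiv ℝ Ψ q).comp L))).toLinearMap ∘ₗ
      ct (famEv (fderiv ℝ Ψ q v)))
      (fun a => fam_sm_mp hM (fam_sm_ct (fam_sm_app v h) contDiffAt_const)) hd
  have h3 := al_tr_real ((toR (ct (famEv (fderiv ℝ Ψ y v)))).comp (fderiv ℝ u (Ψ y)))
    ((fderiv ℝ Ψ y).comp L)
  have h4 := congrArg (mp (tr ((fderiv ℝ Ψ y).comp L)))
    (fam_cartan (fderiv ℝ u (Ψ y)) (fderiv ℝ Ψ y v))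
  rw [map_add, ← h3] at h4
  rw [h1, _root_.add_apply, fam_const L v h, fderiv_fun_comp y hu (sm_diff h)]
  simp only [dd, db, h2, ContinuousLinearMap.add_comp, map_add, ContinuousLinearMap.comp_id]
  simp only [map_add] at h4
  rw [fderiv_fun_comp y hu (sm_diff h)]
  have h5 : ∀ a b c d e f g : Λ 5, c + d + (e + f) = g → a + b + g = a + c + (b + d) + (e + f) :=
    fun a b c d e f g k => by rw [← k]; abel
  exact h5 _ _ _ _ _ _ _ h4

end gen

section fam

variable {T : Type} [NormedAddCommGroup T] [NormedSpace ℝ T] {t : T} {x : V}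
  {B : Type} [NormedAddCommGroup B] [NormedSpace ℝ B]

theorem fam_fd {A : V × T → B} (h : DifferentiableAt ℝ A (x, t)) :
    fderiv ℝ (fun y => A (y, t)) x = (fderiv ℝ A (x, t)).comp (ContinuousLinearMap.inl ℝ V T) :=
  (h.hasFDerivAt.comp x (hasFDerivAt_prodMk_left x t)).fderiv

theorem fam_dd_eq {A : V × T → Λ 5} (h : DifferentiableAt ℝ A (x, t)) :
    dd idE (fun y => A (y, t)) x = dd (ContinuousLinearMap.inl ℝ V T) A (x, t) := by
  simp only [dd, db, fam_fd h, ContinuousLinearMap.comp_id]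

theorem fam_slice {A : V × T → B} (h : ContDiffAt ℝ ∞ A (x, t)) :
    ContDiffAt ℝ ∞ (fun y => A (y, t)) x :=
  h.comp (f := fun y : V => (y, t)) x (contDiffAt_id.prodMk contDiffAt_const)

theorem fam_dd {a : T → V → Λ 5} (h : ContDiffAt ℝ ∞ (fun q : V × T => a q.2 q.1) (x, t)) :
    ContDiffAt ℝ ∞ (fun q : V × T => dd idE (a q.2) q.1) (x, t) ∧
      ∀ w, dT (fun t => dd idE (a t)) t w x = dd idE (dT a t w) x := by
  have e : (fun q : V × T => dd idE (a q.2) q.1) =ᶠ[𝓝 (x, t)]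
      dd (ContinuousLinearMap.inl ℝ V T) fun q : V × T => a q.2 q.1 :=
    (sm_ev h).mono fun q hq => fam_dd_eq (A := fun q : V × T => a q.2 q.1) hq
  refine ⟨(sm_dd h).congr_of_eventuallyEq e, fun w => ?_⟩
  rw [dT, e.fderiv_eq, fam_dd_dir _ _ h, ← fam_dd_eq (sm_diff (fam_sm_app _ h))]
  rfl

theorem fam_pb {Φ : T → V → V} (h : ContDiffAt ℝ ∞ (fun q : V × T => Φ q.2 q.1) (x, t))
    {u : V → Λ 5} (hu : ContDiffAt ℝ ∞ u (Φ t x)) :
    ContDiffAt ℝ ∞ (fun q : V × T => pb (Φ q.2) u q.1) (x, t) ∧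
      ∀ w, ContDiffAt ℝ ∞ (hop Φ t w u) x ∧ dT (fun t => pb (Φ t) u) t w x =
        dd idE (hop Φ t w u) x + hop Φ t w (dd idE u) x := by
  set Ψ : V × T → V := fun q => Φ q.2 q.1
  set L := ContinuousLinearMap.inl ℝ V T
  have hM := fam_sm_comp L h
  have hc : ContDiffAt ℝ ∞ (fun q => u (Ψ q)) (x, t) := ContDiffAt.comp (g := u) (f := Ψ) _ hu h
  have e0 : ∀ᶠ q in 𝓝 (x, t), fderiv ℝ (Φ q.2) q.1 = (fderiv ℝ Ψ q).comp L :=
    (sm_ev h).mono fun q hq => fam_fd (A := Ψ) hq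
  have e : (fun q : V × T => pb (Φ q.2) u q.1) =ᶠ[𝓝 (x, t)]
      fun q => mp (tr ((fderiv ℝ Ψ q).comp L)) (u (Ψ q)) :=
    e0.mono fun q hq => congrArg (fun M => mp (tr M) (u (Ψ q))) hq
  refine ⟨(fam_sm_mp hM hc).congr_of_eventuallyEq e, fun w => ?_⟩
  have hH := fam_sm_mp hM (fam_sm_ct (fam_sm_app (0, w) h) hc)
  have e1 : ∀ u : V → Λ 5, hop Φ t w u =ᶠ[𝓝 x] fun y => mp (tr ((fderiv ℝ Ψ (y, t)).comp L))
      (ct (famEv (fderiv ℝ Ψ (y, t) (0, w))) (u (Ψ (y, t)))) := fun u =>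
    (((continuous_id.prodMk continuous_const).tendsto x).eventually e0).mono fun y hy =>
      congrArg (fun M => mp (tr M) (ct (famEv (fderiv ℝ Ψ (y, t) (0, w))) (u (Ψ (y, t))))) hy
  refine ⟨(fam_slice hH).congr_of_eventuallyEq (e1 u), ?_⟩
  rw [dT, e.fderiv_eq, fam_hom L (0, w) h (sm_diff hu), dd_congr (e1 u), (e1 _).self_of_nhds,
    ← fam_dd_eq (sm_diff hH)]

theorem fam_unif {A : V × T → B} (h : ContDiffAt ℝ ∞ A (x, t)) {ε : ℝ} (hε : 0 < ε) :
    ∀ᶠ z : T × V in 𝓝 (0, x),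
      ‖A (z.2, t + z.1) - A (z.2, t) - fderiv ℝ A (z.2, t) (0, z.1)‖ ≤ ε * ‖z.1‖ := by
  have h1 := (h.hasStrictFDerivAt (by simp)).isLittleO.def (half_pos hε)
  have h2 : Tendsto (fun z : T × V => ((z.2, t + z.1), (z.2, t))) (𝓝 (0, x)) (𝓝 ((x, t), (x, t))) :=
    Continuous.tendsto' (by fun_prop) _ _ (by simp)
  have h3 : Tendsto (fun z : T × V => fderiv ℝ A (z.2, t)) (𝓝 (0, x)) (𝓝 (fderiv ℝ A (x, t))) :=
    (sm_fderiv h).continuousAt.tendsto.comp (Continuous.tendsto' (by fun_prop) _ _ rfl)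
  filter_upwards [h2.eventually h1, h3.eventually (Metric.closedBall_mem_nhds _ (half_pos hε))]
    with z k1 k2
  have k3 : ((z.2, t + z.1) - (z.2, t) : V × T) = (0, z.1) := by simp
  have k4 : ‖((0, z.1) : V × T)‖ = ‖z.1‖ := by simp
  rw [k3, k4] at k1
  have k5 := (fderiv ℝ A (x, t) - fderiv ℝ A (z.2, t)).le_of_opNorm_le
    (show _ ≤ ε / 2 by rwa [← dist_eq_norm, dist_comm]) (0, z.1)
  rw [k4] at k5
  have k6 := norm_add_le_of_le k1 k5
  rw [_root_.sub_apply, sub_add_sub_cancel] at k6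
  linarith

end fam

theorem stFam (T : Type) [NormedAddCommGroup T] [NormedSpace ℝ T] : StFam T where
  dd _ h := ⟨fun t ht x hx => (fam_dd (h t ht x hx)).1,
    fun t ht w x hx => (fam_dd (h t ht x hx)).2 w⟩
  pb _ h hn u := ⟨fun t ht x hx => (fam_pb (h t ht x hx) (u.sm (hn t ht x hx))).1,
    fun t ht w x hx => (fam_pb (h t ht x hx) (u.sm (hn t ht x hx))).2 w⟩
  unif _ h t ht _ hK h0 _ hε := hK.eventually_forall_of_forall_eventually fun x hx =>
    fam_unif (h t ht x fun e => h0 (e ▸ hx)) hε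

end Vale.Agent.P287T.Per
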