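import Vale.Agent.P287T.Per.St

/-!
# P287, periods: the invariant description of the forms of a given weight
-/

noncomputable section

namespace Vale.Agent.P287T.Per

open Set Function Topology Filter Module MvPolynomial P291Z P269 P269.Holo P269.Mono P269.Coh
  P269.Tq P269.Hdg P287Q P287Q.Hb P287Q.Cub P287Q.Zc Metric
open scoped ComplexConjugate ContDiff

theorem fw_ct {a : Λ 5} {s : Bool} {x : V} (h : ∀ p q, ct (vec s x) (pt p q a) = 0) :
    ct (vec s x) a = 0 := by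
  rw [← sum_pt a, map_sum]
  refine Finset.sum_eq_zero fun p _ => ?_
  rw [map_sum]
  exact Finset.sum_eq_zero fun q _ => h p q

theorem fw_pt_scal (p q : ℤ) (t : ℂ) (a : Λ 5) :
    pt p q (mp (tr (scal t)) a) = (t ^ p * conj t ^ q) • pt p q a := by
  rw [scal, pt_mp_tr, ← scal, mp_scal (pt_mem p q _)]

theorem fw_iff (m w : ℤ) (u : SM 5) : u ∈ Fw m w ↔ ∀ x ≠ 0, u.1 x ∈ Dg m ∧
    ct (vec false x) (u.1 x) = 0 ∧
      ∀ t : ℂ, t ≠ 0 → mp (tr (scal t)) (u.1 (t • x)) = t ^ w • u.1 x := by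
  refine ⟨fun h x hx => ⟨h.2 x hx, fw_ct fun p q => ((h.1 p q).1 x hx).2, fun t ht => ?_⟩,
    fun h => ⟨fun p q => ⟨fun x hx => ⟨pt_mem _ _ _, ?_⟩, fun t x ht hx => ?_⟩,
      fun x hx => (h x hx).1⟩⟩
  · have hc : conj t ≠ 0 := by simpa
    rw [← sum_pt (mp _ _), ← sum_pt (u.1 x), Finset.smul_sum]
    refine Finset.sum_congr rfl fun p _ => ?_
    rw [Finset.smul_sum]
    refine Finset.sum_congr rfl fun q _ => ?_
    have := (h.1 p q).2 t x ht hx
    simp only [PT_apply] at this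
    rw [fw_pt_scal, this, smul_smul, zpow_sub₀ ht, zpow_neg]
    congr 1
    field_simp
  · rw [PT_apply, ← pt_ct, (h x hx).2.1, map_zero]
  · have hc : conj t ≠ 0 := by simpa
    have := congrArg (pt p q) ((h x hx).2.2 t ht)
    rw [fw_pt_scal, map_smul] at this
    simp only [PT_apply]
    rw [zpow_sub₀ ht, zpow_neg, show t ^ w / t ^ p * (conj t ^ q)⁻¹ =
      (t ^ p * conj t ^ q)⁻¹ * t ^ w by field_simp, mul_smul, ← this, smul_smul,
      inv_mul_cancel₀ (mul_ne_zero (zpow_ne_zero _ ht) (zpow_ne_zero _ hc)), one_smul]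

theorem fw_ak (m : ℤ) (u : SM 5) :
    u ∈ Ak m ↔ u ∈ Fw m 0 ∧ ∀ x ≠ 0, ct (vec true x) (u.1 x) = 0 :=
  ⟨fun h => ⟨⟨fun p q => (h.1 p q).1, h.2⟩, fun _ hx => Ak_ct h true hx⟩,
    fun h => ⟨fun p q => ⟨h.1.1 p q, fun x hx => by
      rw [PT_apply, ← pt_ct, h.2 x hx, map_zero]⟩, h.1.2⟩⟩

theorem stFw : StFw := ⟨fw_iff, fw_ak⟩

end Vale.Agent.P287T.Per
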