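import Vale.Agent.P287T.Per.Fw

/-!
# P287, periods: pull-back along smooth equivariant maps
-/

noncomputable section

namespace Vale.Agent.P287T.Per

open Set Function Topology Filter Module MvPolynomial P291Z P269 P269.Holo P269.Mono P269.Coh
  P269.Tq P269.Hdg P287Q P287Q.Hb P287Q.Cub P287Q.Zc Metric
open scoped ComplexConjugate ContDiff

variable {F F' : MP 5} {Φ : V → V} {x : V}

namespace Eqv

variable (e : Eqv Φ)
include e

theorem PB_apply (u : SM 5) (x : V) : (e.PB u).1 x = mp (tr (fderiv ℝ Φ x)) (u.1 (Φ x)) := rfl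

theorem fd_scal {t : ℂ} (ht : t ≠ 0) (hx : x ≠ 0) :
    (fderiv ℝ Φ (t • x)).comp (scal t) = (scal t).comp (fderiv ℝ Φ x) := by
  have h1 : HasFDerivAt (fun y => Φ (scal t y)) ((fderiv ℝ Φ (t • x)).comp (scal t)) x :=
    HasFDerivAt.comp (g := Φ) (f := scal t) x
      (sm_diff (e.sm _ (smul_ne_zero ht hx))).hasFDerivAt (scal t).hasFDerivAt
  have h2 : HasFDerivAt (fun y => scal t (Φ y)) ((scal t).comp (fderiv ℝ Φ x)) x :=
    (scal t).hasFDerivAt.comp x (sm_diff (e.sm x hx)).hasFDerivAt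
  exact h1.unique (h2.congr_of_eventuallyEq ((ne_zero_ev hx).mono fun y hy => e.eq t y ht hy))

theorem fd_self (hx : x ≠ 0) (c : ℂ) : fderiv ℝ Φ x (c • x) = c • Φ x := by
  let L : V → ℂ →L[ℝ] V := fun y => ((ContinuousLinearMap.id ℂ ℂ).smulRight y).restrictScalars ℝ
  have hL : ∀ y t, L y t = t • y := fun _ _ => rfl
  have h0 : HasFDerivAt Φ (fderiv ℝ Φ x) (L x 1) := by
    rw [hL, one_smul]; exact (sm_diff (e.sm x hx)).hasFDerivAt
  have h1 : HasFDerivAt (fun t => Φ (L x t)) ((fderiv ℝ Φ x).comp (L x)) 1 :=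
    h0.comp 1 (L x).hasFDerivAt
  have h2 := h1.unique ((L (Φ x)).hasFDerivAt.congr_of_eventuallyEq
    ((eventually_ne_nhds (one_ne_zero (α := ℂ))).mono fun t ht => e.eq t x ht hx))
  exact DFunLike.congr_fun h2 c

theorem vec_tr (hx : x ≠ 0) (s : Bool) : vec s x ∘ₗ tr (fderiv ℝ Φ x) = vec s (Φ x) := by
  have h1 := e.fd_self hx 1
  rw [one_smul, one_smul] at h1
  ext w
  simp only [LinearMap.comp_apply, vec_apply, tr_apply, e.fd_self hx, h1]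

theorem ct_PB (hx : x ≠ 0) (s : Bool) (u : SM 5) :
    ct (vec s x) ((e.PB u).1 x) = mp (tr (fderiv ℝ Φ x)) (ct (vec s (Φ x)) (u.1 (Φ x))) := by
  rw [e.PB_apply, ct_mp, e.vec_tr hx]

theorem PB_Fw {m w : ℤ} {u : SM 5} (hu : u ∈ Fw m w) : e.PB u ∈ Fw m w := by
  rw [fw_iff] at hu ⊢
  intro x hx
  obtain ⟨h1, h2, h3⟩ := hu _ (e.ne x hx)
  refine ⟨mp_mem_Dg _ h1, by rw [e.ct_PB hx, h2, map_zero], fun t ht => ?_⟩
  rw [e.PB_apply, e.PB_apply, mp_mp, tr_comp, e.fd_scal ht hx, ← tr_comp, ← mp_mp, e.eq t x ht hx,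
    h3 t ht, map_smul]

theorem PB_Ak {k : ℤ} {u : SM 5} (hu : u ∈ Ak k) : e.PB u ∈ Ak k := by
  rw [fw_ak] at hu ⊢
  exact ⟨e.PB_Fw hu.1, fun x hx => by rw [e.ct_PB hx, hu.2 _ (e.ne x hx), map_zero]⟩

theorem DD_PB (u : SM 5) (hx : x ≠ 0) : (DD (e.PB u)).1 x = (e.PB (DD u)).1 x := by
  rw [DD_apply _ hx, e.PB_apply, DD_apply _ (e.ne x hx)]
  exact dd_pb (e.sm x hx) (u.df (e.ne x hx))

theorem isSm_pull {a : Coch V} (ha : IsSm a) : IsSm (pull Φ a) := by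
  refine ⟨fun m l y hy => ?_, fun l l' h => ha.inv _ _ ?_⟩
  · simp only [pull_val, List.map_map]
    have h1 : ContDiffAt ℝ ∞ (fun (z : Fin m → V) i => Φ (z i)) y :=
      contDiffAt_pi.2 fun i => ContDiffAt.comp (g := Φ) (f := fun z : Fin m → V => z i) y
        (e.sm _ (hy i)) (contDiffAt_apply ℝ V i y)
    exact ContDiffAt.comp (g := fun z : Fin m → V => a.1 (l.map z)) y
      (ha.sm m l _ fun i => e.ne _ (hy i)) h1
  · rw [List.forall₂_map_left_iff, List.forall₂_map_right_iff]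
    refine h.imp fun p q k => ?_
    obtain ⟨hp, t, ht, rfl⟩ := k
    exact ⟨e.ne p hp, t, ht, e.eq t p ht hp⟩

theorem Dm_pull {a : Coch V} (ha : IsSm a) (k : ℕ) (hx : x ≠ 0) :
    Dm k (pull Φ a) x = pb Φ (Dm k a) x := by
  rw [Dm, Dm, ← Df_pb ((ne_zero_ev hx).mono e.sm) (ha.ofFn_ev fun _ => e.ne x hx)]
  simp only [pull_val, List.map_ofFn]
  rfl

theorem DM_pull (a : smA 5) (hx : x ≠ 0) :
    (DM ⟨pull Φ a.1, e.isSm_pull a.2⟩).1 x = (e.PB (DM a)).1 x := by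
  rw [DM_apply _ hx, e.PB_apply, DM_apply _ (e.ne x hx), map_sum]
  exact Finset.sum_congr rfl fun k _ => e.Dm_pull a.2 k hx

end Eqv

namespace Tr

variable (e : Tr F F' Φ)
include e

theorem tr_df (s : Bool) (hx : x ≠ 0) : tr (fderiv ℝ Φ x) (df s F' (Φ x)) = df s F x := by
  rw [← fderiv_sg_eval, ← fderiv_sg_eval, ← EventuallyEq.fderiv_eq
    (f₁ := fun y => sgL s (eval (Φ y) F'))
    ((ne_zero_ev hx).mono fun y hy => congrArg (sgL s) (e.ev y hy)),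
    fderiv_fun_comp x (sm_diff (sm_sg_eval s F' (Φ x))) (sm_diff (e.sm x hx))]
  rfl

theorem maps (hx : x ∈ Pub.cone F) : Φ x ∈ Pub.cone F' := e.eqh.maps hx

theorem mp_nl (h : Sm F) (h' : Sm F') (hx : x ∈ Pub.cone F) {o : Λ 5}
    (ho : o ∈ nl (Pub.cone F') (Φ x)) : mp (tr (fderiv ℝ Φ x)) o ∈ nl (Pub.cone F) x :=
  mp_nul (fun v hv => (h'.mem_tn (e.maps hx)).2
    ((DFunLike.congr_fun (e.tr_df true hx.1) v).trans ((h.mem_tn hx).1 hv))) ho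

theorem PB_Nl (h : Sm F) (h' : Sm F') {u : SM 5} (hu : u ∈ Hb.Nl (Pub.cone F')) :
    e.toEqv.PB u ∈ Hb.Nl (Pub.cone F) := fun _ hx => e.mp_nl h h' hx (hu _ (e.maps hx))

theorem PB_Z (h : Sm F) (h' : Sm F') {k : ℤ} {u : SM 5} (hu : u ∈ h'.Z k) :
    e.toEqv.PB u ∈ h.Z k :=
  h.mem_Z.2 ⟨e.toEqv.PB_Ak (h'.mem_Z.1 hu).1, fun x hx => by
    rw [e.toEqv.DD_PB u hx.1]; exact e.PB_Nl h h' (h'.mem_Z.1 hu).2 x hx⟩

theorem PB_B (h : Sm F) (h' : Sm F') {k : ℤ} {u : SM 5} (hu : u ∈ h'.B k) :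
    e.toEqv.PB u ∈ h.B k := by
  obtain ⟨w, hw, k⟩ := h'.mem_B.1 hu
  refine h.mem_B.2 ⟨e.toEqv.PB w, e.toEqv.PB_Ak hw, fun x hx => ?_⟩
  have := e.PB_Nl h h' k x hx
  rw [map_sub] at this
  rwa [Submodule.coe_sub, Pi.sub_apply, e.toEqv.DD_PB w hx.1]

theorem rs_pull (h : Sm F) (h' : Sm F') {a : Coch V} (ha : IsSm a) :
    Hb.rs h.isProj (pull Φ a) = pull e.φ (Hb.rs h'.isProj a) := by
  refine Coch.ext fun l => ?_
  have := Hb.rs_val h'.subC h'.isProj ha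
    (l.map fun z => ⟨Φ (Hb.sec h.isProj z).1, e.maps (Hb.sec h.isProj z).2⟩)
  simp only [List.map_map, Function.comp_def, ← e.φ_mk, Hb.π_sec] at this
  rw [pull_val, this, Hb.rs, pull_val, pull_val, List.map_map]
  rfl

theorem cls_PB (h : Sm F) (h' : Sm F') {k : ℤ} {u : SM 5} (hu : u ∈ h'.Z k) :
    h.cls k (e.toEqv.PB u) = H.map e.φ (h'.cls k u) := by
  obtain ⟨a, ha, k1⟩ := Hb.exists_SmZ h'.subC hu
  have hc := ha.cyc h'.subC h'.isProj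
  have hs := e.toEqv.isSm_pull a.2
  have hz : Hb.SmZ (Pub.cone F) k ⟨pull Φ a.1, hs⟩ := ⟨ha.1.pull _, fun b =>
    Hb.VA_of_rs h.subC h.isProj hs.delta ((Hb.VA_iff h.subC h.isProj).2 (by
      rw [Hb.rs, ← δ_pull, ← Hb.rs, e.rs_pull h h' a.2, δ_pull]
      exact supp_pull_eq_empty e.φ.continuous hc) b)⟩
  rw [h.cls_eq (e.PB_Z h h' hu), h'.cls_eq hu, Hb.cmp_eq h'.subC h'.isProj hu ha k1,
    Hb.cmp_eq h.subC h.isProj _ hz, H.map_hcls e.φ hc, e.rs_pull h h' a.2]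
  obtain ⟨w, hw, k2⟩ := h.mem_B.1 (e.PB_B h h' k1)
  refine h.mem_B.2 ⟨w, hw, fun x hx => ?_⟩
  have := k2 x hx
  rw [map_sub] at this
  simp only [Submodule.coe_sub, Pi.sub_apply] at this ⊢
  rwa [e.toEqv.DM_pull a hx.1]

end Tr

theorem stPB : StPB :=
  ⟨fun e _ _ _ => e.PB_Fw, fun e _ _ => e.PB_Ak, fun e u _ hx => e.ct_PB hx true u,
    fun e s _ hx => e.tr_df s hx, fun h h' e _ _ hu => ⟨e.PB_Z h h' hu, e.cls_PB h h' hu⟩⟩

end Vale.Agent.P287T.Per
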