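import Vale.Agent.P287T.Per.Res2
import Vale.Agent.P287T.Per.PB

/-!
# P287, periods: pull-back of the residue classes; the homotopy operator
-/

noncomputable section

namespace Vale.Agent.P287T.Per

open Set Function Topology Filter Module MvPolynomial P291Z P269 P269.Hdg P287Q P287Q.Hb P287Q.Cub
open scoped ComplexConjugate ContDiff

variable {F F' : MP 5} {x : V} {m w : ℤ} {u : SM 5} {a : ℕ → SM 5} {A : MP 5} {n k : ℕ}

theorem Sm.ρ_eq (h : Sm F) (k : ℕ) (A : MP 5) : h.ρ k A = h.cls 4 (iE (h.R k A)) := rfl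

theorem Sm.R_zero (h : Sm F) (A : MP 5) (x : V) :
    (h.R 0 A).1 x = ct (vec true (nv F x)) ((PO A).1 x) := rfl

namespace Tr

variable {Φ : V → V} (e : Tr F F' Φ)
include e

theorem dF_mp (hx : x ≠ 0) (o : Λ 5) : io (df true F x) * mp (tr (fderiv ℝ Φ x)) o =
    mp (tr (fderiv ℝ Φ x)) (io (df true F' (Φ x)) * o) := by
  rw [map_mul, mp_io, e.tr_df true hx]

theorem tw_PB (ha : Tw F' m w a) : Tw F m w fun k => e.toEqv.PB (a k) :=
  ⟨fun k => e.toEqv.PB_Fw (ha.fw k), fun k x hx => by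
    rw [e.toEqv.DD_PB _ hx, Eqv.PB_apply, Eqv.PB_apply, ha.nx k _ (e.ne x hx), e.dF_mp hx]⟩

theorem dF_γ (A : MP 5) (x : V) (hx : x ≠ 0) :
    io (df true F x) * (e.toEqv.PB (PO A)).1 x = 0 := by
  rw [Eqv.PB_apply, e.dF_mp hx, Sm.dF_PO, map_zero]

theorem DD_γ (A : MP 5) (x : V) (hx : x ≠ 0) : (DD (e.toEqv.PB (PO A))).1 x = 0 := by
  rw [e.toEqv.DD_PB _ hx, Eqv.PB_apply, DD_PO A (e.ne x hx), map_zero]

theorem γ_tw (h : Sm F) (hA : A.IsHomogeneous n) :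
    Tw F 5 (n + 3) fun k => (h.S ^ k) (h.iN (e.toEqv.PB (PO A))) :=
  (h.tw_iN (m := 6) (e.toEqv.PB_Fw (Fm_le_Fw (PO_Fm hA) rfl)) (e.dF_γ A) (e.DD_γ A)).cast (by ring)

/-- The pull-back of a residue class, computed with the normal field of the source. -/
theorem map_ρ (h : Sm F) (h' : Sm F') (hA : A.IsHomogeneous n) (hk : n + 3 = 3 * k) :
    H.map e.φ (h'.ρ k A) = h.cls 4 (iE ((h.S ^ k) (h.iN (e.toEqv.PB (PO A))))) := by
  have hk' : (n : ℤ) + 3 = 3 * k := by exact_mod_cast hk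
  have t1 := e.tw_PB (h'.R_tw hA)
  have t2 := e.γ_tw h hA
  have z1 : iE (h'.R k A) ∈ h'.Z 4 := h'.r_Z hA hk
  have z2 := h.tw_Z t1 hk'
  have e1 := h.cls_nl (e.PB_Z h h' z1) z2 (h.subC.zero_nl fun x hx =>
    sub_eq_zero.2 (stPB.ie e.toEqv (h'.R k A) x hx).symm)
  have e2 := h.tw_cls t1 t2 (h.NN_of_dF (by simpa using (t1.sub t2).fw 0) fun x hx => by
    rw [Submodule.coe_sub, Pi.sub_apply, pow_zero, Module.End.one_apply, Eqv.PB_apply, h'.R_zero,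
      h.iN_apply, mul_sub, h.div_dF hx (e.dF_γ A x hx), e.dF_mp hx,
      h'.div_dF (e.ne x hx) (Sm.dF_PO A _), Eqv.PB_apply, sub_self]) hk'
  rw [h'.ρ_eq, ← e.cls_PB h h' z1, e1, e2]

end Tr

variable {T : Type} [NormedAddCommGroup T] [NormedSpace ℝ T] {U : Set T} {t : T}

section gen

variable {B : Type} [NormedAddCommGroup B] [NormedSpace ℝ B] {f : T → V → B}

theorem Fam.hasT (hf : Fam U f) (ht : t ∈ U) (hx : x ≠ 0) : HasFDerivAt (fun s => f s x)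
    ((fderiv ℝ (fun q : V × T => f q.2 q.1) (x, t)).comp (ContinuousLinearMap.inr ℝ V T)) t :=
  (sm_diff (hf t ht x hx)).hasFDerivAt.comp t (hasFDerivAt_prodMk_right x t)

theorem Fam.dT_eq (hf : Fam U f) (ht : t ∈ U) (hx : x ≠ 0) (w : T) :
    dT f t w x = fderiv ℝ (fun s => f s x) t w := by
  rw [(hf.hasT ht hx).fderiv]; rfl

theorem Fam.sm (hf : Fam U f) (ht : t ∈ U) (hx : x ≠ 0) : ContDiffAt ℝ ∞ (f t) x :=
  (hf t ht x hx).comp (f := fun y => (y, t)) x (contDiffAt_id.prodMk contDiffAt_const)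

theorem Fam.sm_dT (hf : Fam U f) (ht : t ∈ U) (w : T) (hx : x ≠ 0) :
    ContDiffAt ℝ ∞ (dT f t w) x :=
  ((sm_fderiv (hf t ht x hx)).comp x (contDiffAt_id.prodMk contDiffAt_const)).clm_apply
    contDiffAt_const

end gen

theorem Fam.ct {f : T → V → Λ 5} (hf : Fam U f) {ξ : V → V} (hξ : ∀ x ≠ 0, ContDiffAt ℝ ∞ ξ x) :
    Fam U (fun t x => ct (vec true (ξ x)) (f t x)) ∧ ∀ t ∈ U, ∀ w, ∀ x ≠ 0,
      dT (fun t x => ct (vec true (ξ x)) (f t x)) t w x = ct (vec true (ξ x)) (dT f t w x) := by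
  have h1 : Fam U fun t x => Hdg.ct (vec true (ξ x)) (f t x) := fun t ht x hx =>
    sm_ct true ((hξ x hx).comp (x, t) contDiffAt_fst) (hf t ht x hx)
  refine ⟨h1, fun t ht w x hx => ?_⟩
  rw [h1.dT_eq ht hx, hf.dT_eq ht hx, fderiv_T _ (hf.hasT ht hx).differentiableAt]
  rfl

/-- The tower, on functions. -/
def op (F : MP 5) : ℕ → (V → Λ 5) → V → Λ 5
  | 0, a => fun x => ct (vec true (nv F x)) (a x)
  | k + 1, a => fun x => ct (vec true (nv F x)) (dd idE (op F k a) x)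

theorem Sm.op_eq (h : Sm F) {a : V → Λ 5} (e : ∀ x ≠ 0, a x = u.1 x) (k : ℕ) :
    ∀ x ≠ 0, op F k a x = ((h.S ^ k) (h.iN u)).1 x := by
  induction k with
  | zero => exact fun x hx => congrArg _ (e x hx)
  | succ k ih =>
    intro x hx
    rw [pow_succ', Module.End.mul_apply, h.S_apply, DD_apply _ hx,
      ← dd_congr ((ne_zero_ev hx).mono ih)]
    rfl

theorem Sm.fam_op (h : Sm F) (s : StFam T) (hU : IsOpen U) {f : T → V → Λ 5} (hf : Fam U f)
    (k : ℕ) : Fam U (fun t => op F k (f t)) ∧ ∀ t ∈ U, ∀ w, ∀ x ≠ 0,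
      dT (fun t => op F k (f t)) t w x = op F k (dT f t w) x := by
  induction k with
  | zero => exact hf.ct h.sm_nv
  | succ k ih =>
    obtain ⟨h1, h2⟩ := s.dd hU ih.1
    obtain ⟨h3, h4⟩ := h1.ct h.sm_nv
    refine ⟨h3, fun t ht w x hx => (h4 t ht w x hx).trans ?_⟩
    rw [h2 t ht w x hx, dd_congr ((ne_zero_ev hx).mono (ih.2 t ht w))]
    rfl

end Vale.Agent.P287T.Per
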