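import Vale.Agent.P287T.Per.GM1

/-!
# P287, periods: the connection of Gauss and Manin on the residue classes
-/

noncomputable section

namespace Vale.Agent.P287T.Per

open Set Function Topology Filter Module MvPolynomial P291Z P269 P269.Hdg P287Q P287Q.Hb P287Q.Cub
open scoped ComplexConjugate ContDiff

variable {F : MP 5} {x : V} {A : MP 5} {n k : ℕ}
  {T : Type} [NormedAddCommGroup T] [NormedSpace ℂ T] {U : Set T} {t : T} {p : T →ₗ[ℂ] MP 5}
  {Φ : T → V → V}

/-- A trivialised family of smooth cubics over `U`. -/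
structure FS (F : MP 5) (p : T →ₗ[ℂ] MP 5) (U : Set T) (Φ : T → V → V) : Prop where
  opn : IsOpen U
  hom : ∀ t, (p t).IsHomogeneous 3
  sm : ∀ t ∈ U, Sm (F + p t)
  tr : ∀ t ∈ U, Tr F (F + p t) (Φ t)
  fam : Fam U Φ

namespace FS

variable (f : FS F p U Φ) (ht : t ∈ U)
include f ht

theorem hm_dT (w : T) : Hdg.Hm 1 0 (dT Φ t w) := fun c x hc hx => by
  rw [f.fam.dT_eq ht hx, f.fam.dT_eq ht (smul_ne_zero hc hx),
    Filter.EventuallyEq.fderiv_eq (f := fun s => c • Φ s x)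
      ((f.opn.eventually_mem ht).mono fun s hs => (f.tr s hs).eq c x hc hx),
    fderiv_fun_const_smul (f.fam.hasT ht hx).differentiableAt]
  simp

theorem dF_dT (w : T) (hx : x ≠ 0) :
    dEval (F + p t) (Φ t x) (dT Φ t w x) = -eval (Φ t x) (p w) := by
  have h0 : HasDerivAt (fun s : ℝ => t + s • w) w 0 := by
    simpa using ((hasDerivAt_id (0 : ℝ)).smul_const w).const_add t
  have h1 : HasDerivAt (fun s : ℝ => Φ (t + s • w) x) (dT Φ t w x) 0 :=
    HasFDerivAt.comp_hasDerivAt_of_eq (0 : ℝ) (f.fam.hasT ht hx) h0 (by simp)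
  have h2 : ∀ G : MP 5, HasDerivAt (fun s : ℝ => eval (Φ (t + s • w) x) G)
      (dEval G (Φ t x) (dT Φ t w x)) 0 := fun G =>
    HasFDerivAt.comp_hasDerivAt_of_eq (0 : ℝ) ((hasFDerivAt_eval G (Φ t x)).restrictScalars ℝ) h1
      (by simp)
  have h3 := (h2 (F + p t)).add ((Complex.ofRealCLM.hasDerivAt (x := 0)).mul (h2 (p w)))
  have h4 : HasDerivAt (fun _ : ℝ => eval x F) _ 0 := h3.congr_of_eventuallyEq (by
    have : ∀ᶠ s : ℝ in 𝓝 0, t + s • w ∈ U :=
      h0.continuousAt.eventually_mem (by simpa using f.opn.mem_nhds ht)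
    filter_upwards [this] with s hs
    rw [← (f.tr _ hs).ev x hx, map_add p, ← Complex.coe_smul, map_smul, ← add_assoc, map_add,
      smul_eval]
    rfl)
  have h5 := h4.unique (hasDerivAt_const _ _)
  simp only [Complex.ofRealCLM_apply, Complex.ofReal_one, Complex.ofReal_zero, zero_smul, add_zero,
    one_mul, zero_mul] at h5
  exact eq_neg_of_add_eq_zero_left h5

omit f ht in
theorem hop_PO (w : T) (A : MP 5) (x : V) : hop Φ t w (PO A).1 x =
    mp (Hdg.tr (fderiv ℝ (Φ t) x)) (ct (vec true (dT Φ t w x)) ((PO A).1 (Φ t x))) := by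
  rw [hop, map_add, LinearMap.add_apply, PO_apply, map_smul (ct (vec false _)),
    ct_of_Eg_zero Omg_Ty.2, smul_zero, add_zero]

theorem exists_hop (w : T) (hA : A.IsHomogeneous n) :
    ∃ b ∈ Fw 5 (n + 6), ∀ x, hop Φ t w (PO A).1 x = b.1 x := by
  refine ⟨∑ j, MF (fun x => dT Φ t w x j) (fun x hx => contDiffAt_pi.1 (f.fam.sm_dT ht w hx) j)
    ((f.tr t ht).toEqv.PB (CT true (fun _ => ee j) (fun _ _ => contDiffAt_const) (PO A))),
    Submodule.sum_mem _ fun j _ => Fw_cast (MF_Fw (e := 1) _ ?_ ((f.tr t ht).toEqv.PB_Fw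
      (CT_Fw (e := 1) _ (by simpa using Hdg.Hm.const (ee j)) (Fm_le_Fw (PO_Fm hA) rfl)))) rfl
      (by ring), fun x => ?_⟩
  · exact (f.hm_dT ht w).lin (LinearMap.proj j)
  · rw [hop_PO, vec_eq_sum]
    simp [Eqv.PB_apply]

/-- The derivative of the residue forms. -/
theorem der (h : Sm F) (s : StFam T) (hA : A.IsHomogeneous n) (hk : n + 3 = 3 * k) (w : T) :
    ∃ b ∈ h.Z 4, (∀ x ≠ 0,
      dT (fun t x => ct (vec true x) (op F k (pb (Φ t) (PO A).1) x)) t w x = b.1 x) ∧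
      h.cls 4 b = -H.map (f.tr t ht).φ ((f.sm t ht).ρ (k + 1) (A * p w)) := by
  obtain ⟨b, h1, h2⟩ := f.exists_hop ht w hA
  obtain ⟨h3, h4⟩ := s.pb f.opn f.fam (fun t ht => (f.tr t ht).ne) (PO A)
  obtain ⟨h5, h6⟩ := h.fam_op s f.opn h3 k
  have e := f.tr t ht
  have h7 : ∀ x ≠ 0, io (df true F x) * b.1 x = (-e.toEqv.PB (PO (A * p w))).1 x := fun x hx => by
    rw [← h2, hop_PO, e.dF_mp hx, Submodule.coe_neg, Pi.neg_apply, Eqv.PB_apply, ← map_neg]
    congr 1
    have := ct_io_mul (vec true (dT Φ t w x)) (df true (F + p t) (Φ t x)) ((PO A).1 (Φ t x))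
    rw [Sm.dF_PO, map_zero, vec_df, if_pos rfl, sg_true, f.dF_dT ht w hx] at this
    rw [← sub_eq_zero.1 this.symm, PO_apply, PO_apply, map_mul, smul_smul, ← neg_smul]
    congr 1
    ring
  have t1 := h.tw_of h1 fun x hx => by
    rw [dF_DD_of h7 hx, map_neg, Submodule.coe_neg, Pi.neg_apply, e.DD_γ _ x hx, neg_zero, neg_zero]
  have t2 : Tw F 5 (n + 6) _ := (e.γ_tw h (hA.mul (f.hom w))).cast (by push_cast; ring)
  have hk' : (n : ℤ) + 6 = 3 * (k + 1 : ℕ) := by push_cast; omega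
  have z1 := h.tw_Z t1 hk'
  have z2 := h.tw_Z t2 hk'
  refine ⟨_, z1, fun x hx => ?_, ?_⟩
  · rw [(h5.ct (ξ := fun x => x) fun _ _ => contDiffAt_id).2 t ht w x hx, h6 t ht w x hx,
      h.op_eq (u := DD b) (fun y hy => ?_) k x hx, iE_apply, pow_succ, Module.End.mul_apply]
    · rfl
    · rw [(h4 t ht w y hy).2, DD_apply _ hy, funext h2, hop, dd_PO, map_zero, map_zero, add_zero]
  · rw [e.map_ρ h _ (hA.mul (f.hom w)) (by omega), eq_neg_iff_add_eq_zero, ← h.cls_add z1 z2,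
      ← h.cls_zero (k := 4)]
    refine h.cls_congr (add_mem z1 z2) (zero_mem _) ?_
    have := h.tw_NN (t1.add t2) (h.NN_of_dF (by simpa using (t1.add t2).fw 0) fun x hx => by
      rw [Submodule.coe_add, Pi.add_apply, pow_zero, Module.End.one_apply, Module.End.one_apply,
        mul_add, h7 x hx, h.iN_apply, h.div_dF hx (e.dF_γ _ x hx), Submodule.coe_neg, Pi.neg_apply,
        neg_add_cancel]) (k + 1)
    rw [hk', sub_self] at this
    rw [sub_zero, ← map_add]
    exact h.iE_B (m := 5) this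

end FS

end Vale.Agent.P287T.Per
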