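import Vale.Agent.P287T.Per.GM2
import Vale.Agent.P287T.Per.Fam
import Vale.Agent.P268.Hol

/-!
# P287, periods: the period map is holomorphic
-/

noncomputable section

namespace Vale.Agent.P287T.Per

open Set Function Topology Filter Module MvPolynomial P291Z P269 P269.Hdg P287Q P287Q.Hb P287Q.Cub
  Metric
open scoped ComplexConjugate ContDiff

variable {F : MP 5} {x : V}
  {T : Type} [NormedAddCommGroup T] [NormedSpace ℂ T] {U : Set T} {t : T} {p : T →ₗ[ℂ] MP 5}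
  {Φ : T → V → V}

theorem Sm.J_comp (h : Sm F) (z : H (XF F)) : h.J (H.comp 8 z) = h.J z := by
  refine H.induction_deg (P := fun z => h.J (H.comp 8 z) = h.J z) z (by simp)
    (fun a b ha hb => by simp only [map_add, ha, hb]) fun k => ?_
  by_cases e : k = 8
  · rw [e, (H.isDeg_comp 8 z).comp_eq]
  · rw [(H.isDeg_comp k z).comp_ne (Ne.symm e), map_zero,
      h.ps.pd.deg k (by simpa using e) _ (H.isDeg_comp k z)]

theorem Sm.J_comp4 (h : Sm F) (y : H (XF F)) {s : H (XF F)} (hs : H.IsDeg 4 s) :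
    h.J (H.comp 4 y * s) = h.J (y * s) := by
  rw [← H.comp_mul_right hs]; exact h.J_comp _

theorem Sm.cls_mul8 (h : Sm F) {u v : SM 5} (hu : u ∈ h.Z 4) (hv : v ∈ h.Z 4) :
    h.cls 8 (ML u v) = h.cls 4 u * h.cls 4 v := by
  rw [← h.cls_mul hu hv]; norm_num

theorem ML_Ak8 {u v : SM 5} (hu : u ∈ Ak 4) (hv : v ∈ Ak 4) : ML u v ∈ Ak 8 := by
  have := ML_Ak hu hv
  norm_num at this
  exact this

theorem hom_one : (1 : MP 5).IsHomogeneous 0 := isHomogeneous_one _ _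

namespace FS

variable (f : FS F p U Φ)

open Classical in
/-- The period point. -/
def σ (t : T) : H (XF F) :=
  if ht : t ∈ U then H.map (f.tr t ht).φ ((f.sm t ht).ρ 1 1) else 0

open Classical in
/-- The derivative of the period map. -/
def η (t : T) : T →ₗ[ℂ] H (XF F) :=
  if ht : t ∈ U then
    { toFun := fun w => -H.map (f.tr t ht).φ ((f.sm t ht).ρ 2 (p w))
      map_add' := fun v w => by
        rw [map_add, (f.sm t ht).ρ_add (f.hom v) (f.hom w) rfl, map_add, neg_add]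
      map_smul' := fun c w => by
        rw [map_smul, (f.sm t ht).ρ_smul c (f.hom w) rfl, H.map_smulC, smul_neg]; rfl }
  else 0

theorem σ_eq (ht : t ∈ U) : f.σ t = H.map (f.tr t ht).φ ((f.sm t ht).ρ 1 1) := dif_pos ht

theorem η_eq (ht : t ∈ U) (w : T) :
    f.η t w = -H.map (f.tr t ht).φ ((f.sm t ht).ρ 2 (p w)) := by
  rw [η, dif_pos ht]; rfl

theorem σ_deg (ht : t ∈ U) : H.IsDeg 4 (f.σ t) :=
  f.σ_eq ht ▸ ((f.sm t ht).ρ_deg 1 1).map _

theorem η_deg (ht : t ∈ U) (w : T) : H.IsDeg 4 (f.η t w) :=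
  f.η_eq ht w ▸ neg_mem (s := H.deg _ 4) (((f.sm t ht).ρ_deg 2 _).map _)

theorem σ_form (h : Sm F) (ht : t ∈ U) : ∃ u ∈ h.Z 4, h.cls 4 u = f.σ t ∧
    ∀ x ≠ 0, ct (vec true x) (op F 1 (pb (Φ t) (PO 1).1) x) = u.1 x :=
  ⟨_, h.tw_Z (k := 1) ((f.tr t ht).γ_tw h hom_one) rfl,
    ((f.σ_eq ht).trans ((f.tr t ht).map_ρ h _ hom_one rfl)).symm, fun x hx =>
    congrArg _ (h.op_eq (u := (f.tr t ht).toEqv.PB (PO 1)) (fun _ _ => rfl) 1 x hx)⟩

theorem est (h : Sm F) (ht : t ∈ U) {w : T} (h2 : t + w ∈ U) (y : H (XF F)) {v : SM 5}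
    (hv : v ∈ h.Z 4) (e : h.cls 4 v = H.comp 4 y) :
    ∃ θ ∈ Ak 8, h.J (y * f.σ (t + w)) - h.J (y * f.σ t) - h.J (y * f.η t w) = h.J (h.cls 8 θ) ∧
      ∀ x ≠ 0, θ.1 x = v.1 x * (ct (vec true x) (op F 1 (pb (Φ (t + w)) (PO 1).1) x) -
        ct (vec true x) (op F 1 (pb (Φ t) (PO 1).1) x) -
        dT (fun t x => ct (vec true x) (op F 1 (pb (Φ t) (PO 1).1) x)) t w x) := by
  obtain ⟨u, u1, u2, u3⟩ := f.σ_form h h2
  obtain ⟨u', v1, v2, v3⟩ := f.σ_form h ht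
  obtain ⟨d, d1, d2, d3⟩ := f.der ht h (stFam T) hom_one (k := 1) rfl w
  rw [one_mul, ← f.η_eq ht] at d3
  have z := sub_mem (sub_mem u1 v1) d1
  refine ⟨ML v (u - u' - d), ML_Ak8 (h.mem_Z.1 hv).1 (h.mem_Z.1 z).1, ?_,
    fun x hx => ?_⟩
  · rw [← h.J_comp4 y (f.σ_deg h2), ← h.J_comp4 y (f.σ_deg ht), ← h.J_comp4 y (f.η_deg ht w),
      h.cls_mul8 hv z, h.cls_sub (sub_mem u1 v1) d1, h.cls_sub u1 v1,
      e, u2, v2, d3, mul_sub, mul_sub, map_sub, map_sub]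
  · rw [u3 x hx, v3 x hx, d2 x hx]; rfl

/-- **The period map is holomorphic**, with derivative `η`. -/
theorem hasFDerivAt [FiniteDimensional ℂ T] (h : Sm F) (b : StBnd) (y : H (XF F)) (ht : t ∈ U) :
    HasFDerivAt (fun t => h.J (y * f.σ t))
      (LinearMap.toContinuousLinearMap (h.J ∘ₗ LinearMap.mulLeft ℂ y ∘ₗ f.η t)) t := by
  obtain ⟨v, hv, e⟩ := h.cls_surj (H.isDeg_comp 4 y)
  obtain ⟨-, M, hM⟩ := b h
  have s := stFam T
  have k0 : (0 : V) ∉ sphere (0 : V) 1 := by simp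
  obtain ⟨C, hC⟩ := (isCompact_sphere (0 : V) 1).exists_bound_of_continuousOn (f := v.1)
    fun x hx => (v.sm (ne_of_mem_of_not_mem hx k0)).continuousAt.continuousWithinAt
  have k1 := ((h.fam_op s f.opn (s.pb f.opn f.fam (fun t ht => (f.tr t ht).ne) (PO 1)).1 1).1.ct
    (ξ := fun x => x) fun _ _ => contDiffAt_id).1
  have k2 : 0 < |M| * |C| + 1 := by positivity
  have k3 : ∀ᶠ w in 𝓝 (0 : T), t + w ∈ U := (continuous_const.add continuous_id).continuousAt.eventually_mem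
      (show U ∈ 𝓝 (t + 0) by simpa using f.opn.mem_nhds ht)
  rw [hasFDerivAt_iff_isLittleO_nhds_zero, Asymptotics.isLittleO_iff]
  intro ε hε
  refine ((s.unif f.opn k1 t ht _ (isCompact_sphere _ _) k0 _ (div_pos hε k2)).and k3).mono
    fun w ⟨h1, h2⟩ => ?_
  obtain ⟨θ, h3, h4, h5⟩ := f.est h ht h2 y hv e
  have e2 := hM θ h3 (|C| * (ε / (|M| * |C| + 1) * ‖w‖)) fun x hx hn => by
    have hs : x ∈ sphere (0 : V) 1 := mem_sphere_zero_iff_norm.2 hn
    rw [h5 x hx.1]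
    exact (norm_mul_le _ _).trans (mul_le_mul ((hC x hs).trans (le_abs_self C)) (h1 x hs)
      (norm_nonneg _) (abs_nonneg _))
  rw [← h4] at e2
  refine e2.trans ((mul_le_mul_of_nonneg_right (le_abs_self M) (by positivity)).trans ?_)
  rw [← mul_assoc, ← mul_assoc, mul_div_assoc']
  exact mul_le_mul_of_nonneg_right ((div_le_iff₀ k2).2 (by nlinarith)) (norm_nonneg _)

theorem an [FiniteDimensional ℂ T] (h : Sm F) (b : StBnd) (y : H (XF F)) :
    AnalyticOnNhd ℂ (fun t => h.J (y * f.σ t)) U :=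
  P268.analyticOnNhd_of_differentiableOn f.opn fun _ ht =>
    (f.hasFDerivAt h b y ht).differentiableAt.differentiableWithinAt

theorem fderiv_eq [FiniteDimensional ℂ T] (h : Sm F) (b : StBnd) (y : H (XF F)) (ht : t ∈ U)
    (w : T) : fderiv ℂ (fun t => h.J (y * f.σ t)) t w = h.J (y * f.η t w) := by
  rw [(f.hasFDerivAt h b y ht).fderiv]; rfl

end FS

end Vale.Agent.P287T.Per
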