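import Vale.Agent.P287T.Per.St

/-!
# P287, periods of cubic fourfolds: the leading terms of the residue forms
-/

set_option linter.unusedSectionVars false

noncomputable section

namespace Vale.Agent.P287T.Per

open Set Function Topology Filter Module MvPolynomial P291Z P269 P269.Holo P269.Mono P269.Coh
  P269.Tq P269.Hdg P287Q P287Q.Hb P287Q.Cub P287Q.Zc Metric
open scoped ComplexConjugate ContDiff

variable {F : MP 5} {x : V}

theorem Typ_wl (L : List (Fin 6)) : wl (L.map (dz true)) ∈ (Ty L.length 0 : Submodule ℂ (Λ 5)) := by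
  induction L with
  | nil => exact one_mem_Ty
  | cons j L ih =>
    rw [List.map_cons, wl_cons]
    have := Ty_mul (io_cv_mem_Ty true (ContinuousLinearMap.proj j)) ih
    simp only [dl_self, dl_ft, add_zero] at this
    rwa [List.length_cons, Nat.cast_succ, add_comm]

theorem Typ_Omg : Omg ∈ Ty 6 0 := by
  have := Typ_wl (List.ofFn id)
  rwa [List.map_ofFn, List.length_ofFn] at this

theorem Typ_kp (F : MP 5) (x : V) (a : Λ 5) :
    kp F x a = ∑ j, io (df false (pderiv j F) x) * ct (vec true (ee j)) a := by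
  simp [kp]

theorem Typ_ct_kp (v : V) (a : Λ 5) :
    ct (vec true v) (kp F x a) = kp F x (ct (vec true v) a) := by
  rw [Typ_kp, Typ_kp, map_sum]
  refine Finset.sum_congr rfl fun j _ => ?_
  rw [ct_io_mul, vec_df, ct_comm]; simp

theorem Typ_ct_pow (v : V) (k : ℕ) (a : Λ 5) :
    ct (vec true v) ((kp F x ^ k) a) = (kp F x ^ k) (ct (vec true v) a) := by
  induction k with
  | zero => rfl
  | succ k ih => rw [pow_succ', Module.End.mul_apply, Module.End.mul_apply, Typ_ct_kp, ih]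

theorem Typ_j (F : MP 5) (x : V) (a : Λ 5) : ct (vec true (gb F x)) a =
    ∑ j, sgL false (eval x (pderiv j F)) • ct (vec true (ee j)) a := by
  rw [vec_eq_sum]; simp [gb, gr]

theorem Typ_ct_bar (h : Sm F) (a : Λ 5) : ct (vec false x) (kp F x a) =
    kp F x (ct (vec false x) a) + (2 : ℂ) • ct (vec true (gb F x)) a := by
  rw [Typ_kp, Typ_kp, Typ_j, map_sum, Finset.smul_sum, ← Finset.sum_add_distrib]
  refine Finset.sum_congr rfl fun j _ => ?_
  rw [ct_io_mul, vec_df, ct_comm, if_pos rfl, dEval_self (h.hom_pd j), smul_smul, mul_neg,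
    sub_neg_eq_add, add_comm]
  simp [map_ofNat]

theorem Typ_kp_mem {p q : ℤ} {a : Λ 5} (ha : a ∈ Ty p q) : kp F x a ∈ Ty (p - 1) (q + 1) := by
  rw [Typ_kp]
  refine Submodule.sum_mem _ fun j _ => ?_
  have := Ty_mul (io_cv_mem_Ty false (dEval (pderiv j F) x)) (ct_mem_Ty ha true (ee j))
  simp only [dl_self, dl_ft, dl_tf, zero_add, sub_zero] at this
  rwa [add_comm q]

theorem Typ_pow_mem {p : ℤ} {a : Λ 5} (ha : a ∈ Ty p 0) (k : ℕ) :
    (kp F x ^ k) a ∈ Ty (p - k) k := by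
  induction k with
  | zero => simpa using ha
  | succ k ih =>
    have := Typ_kp_mem (F := F) (x := x) ih
    rwa [pow_succ', Module.End.mul_apply, Nat.cast_succ, ← sub_sub]

theorem Typ_sm_kp {u : V → Λ 5} (hu : ContDiffAt ℝ ∞ u x) :
    ContDiffAt ℝ ∞ (fun y => kp F y (u y)) x := by
  simp only [Typ_kp]
  exact ContDiffAt.sum fun j _ => (sm_df _ _ _).mul (sm_T _ hu)

theorem Typ_db_kp {u : V → Λ 5} (hu : ContDiffAt ℝ ∞ u x) :
    db false idE (fun y => kp F y (u y)) x = kp F x (db false idE u x) := by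
  simp only [Typ_kp]
  rw [db_sum _ fun j _ => sm_diff ((sm_df _ _ _).mul (sm_T _ hu))]
  refine Finset.sum_congr rfl fun j _ => ?_
  rw [db_df_mul _ _ _ (sm_diff (sm_T _ hu)), db_ct_vec _ _ (sm_diff hu)]
  simp

/-- The forms `κ^k ι_(conj g) Ω`. -/
def Typ_c (F : MP 5) (k : ℕ) (x : V) : Λ 5 := (kp F x ^ k) (ct (vec true (gb F x)) Omg)

theorem Typ_c_succ (k : ℕ) : Typ_c F (k + 1) = fun y => kp F y (Typ_c F k y) :=
  funext fun y => by rw [Typ_c, pow_succ']; rfl

theorem Typ_c_mem (k : ℕ) : Typ_c F k x ∈ Ty (5 - k) k :=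
  Typ_pow_mem (by simpa using ct_mem_Ty Typ_Omg true (gb F x)) k

theorem Typ_j_c (k : ℕ) : ct (vec true (gb F x)) (Typ_c F k x) = 0 := by
  rw [Typ_c, Typ_ct_pow, ct_ct, map_zero]

theorem Typ_c_sm (k : ℕ) : ContDiffAt ℝ ∞ (Typ_c F k) x := by
  induction k with
  | zero => exact sm_ct true (sm_gb F x) contDiffAt_const
  | succ k ih => rw [Typ_c_succ]; exact Typ_sm_kp ih

theorem Typ_db_c (k : ℕ) : db false idE (Typ_c F k) x = (kp F x ^ (k + 1)) Omg := by
  induction k with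
  | zero =>
    have e : Typ_c F 0 = fun y => ∑ j, sgL false (eval y (pderiv j F)) • ct (vec true (ee j)) Omg :=
      funext fun y => Typ_j F y Omg
    rw [e, db_sum _ fun j _ => sm_diff (sm_smul (sm_sg_eval _ _ _) contDiffAt_const), zero_add,
      pow_one, Typ_kp]
    refine Finset.sum_congr rfl fun j _ => ?_
    rw [db_smul (sm_diff (sm_sg_eval _ _ _)) (differentiableAt_const _), db_const, smul_zero,
      add_zero, fderiv_sg_eval, ContinuousLinearMap.comp_id, df, pr_cv, if_pos rfl]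
  | succ k ih => rw [Typ_c_succ, Typ_db_kp (Typ_c_sm k), ih, pow_succ' _ (k + 1)]; rfl

/-- The leading term on the cone. -/
def Typ_b (F A : MP 5) (k : ℕ) (x : V) : Λ 5 := eval x A • ((gg F x)⁻¹ ^ (k + 1) • Typ_c F k x)

theorem Typ_g_sm (h : Sm F) (hx : x ≠ 0) (k : ℕ) :
    ContDiffAt ℝ ∞ (fun y => (gg F y)⁻¹ ^ k) x := ((sm_gg F x).inv (h.gg_ne hx)).pow k

theorem Typ_b_sm (h : Sm F) (hx : x ≠ 0) (A : MP 5) (k : ℕ) : ContDiffAt ℝ ∞ (Typ_b F A k) x :=
  sm_smul (sm_eval A x) (sm_smul (Typ_g_sm h hx _) (Typ_c_sm k))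

theorem Typ_nv (a : Λ 5) : ct (vec true (nv F x)) a = (gg F x)⁻¹ • ct (vec true (gb F x)) a := by
  rw [nv, vec_smul, map_smul]; rfl

theorem Typ_db_b (h : Sm F) (hx : x ≠ 0) (A : MP 5) (k : ℕ) :
    ct (vec true (nv F x)) (db false idE (Typ_b F A k) x) = Typ_b F A (k + 1) x := by
  unfold Typ_b
  rw [db_eval_smul _ (sm_diff (sm_smul (Typ_g_sm h hx _) (Typ_c_sm k))),
    db_smul (sm_diff (Typ_g_sm h hx _)) (sm_diff (Typ_c_sm k)), map_smul, Typ_nv, map_add,
    ct_io_mul, Typ_j_c, vec_pr, map_smul, Typ_db_c, Typ_ct_pow, if_neg (by simp), zero_smul,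
    mul_zero, sub_zero, zero_add, smul_smul _ (_ ^ _), ← pow_succ']
  rfl

theorem Typ_Fl {p q r : ℤ} {a : Λ 5} (ha : a ∈ Ty p q) (e : r ≤ p) : a ∈ Fl r := fun p' q' k => by
  rw [pt_of_mem ha, if_neg fun e' => by omega]

theorem Typ_Fl_ct {r : ℤ} {a : Λ 5} (ha : a ∈ Fl r) (v : V) : ct (vec true v) a ∈ Fl (r - 1) :=
  fun p q k => by
    have := pt_ct true v (p + 1) q a
    simp only [dl_self, dl_ft, add_sub_cancel_right, sub_zero] at this
    rw [this, ha _ _ (by omega), map_zero]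

theorem Typ_Fl_dd {r : ℤ} {u : V → Λ 5} (hu : DifferentiableAt ℝ u x)
    (h : ∀ᶠ y in 𝓝 x, u y ∈ Fl r) : dd idE u x ∈ Fl r := fun p q k => by
  have h1 := pt_db (s := true) (L := idE) (p - 1) q hu
  have h2 := pt_db (s := false) (L := idE) p (q - 1) hu
  simp only [dl_self, dl_ft, dl_tf, sub_add_cancel, add_zero] at h1 h2
  rw [dd, map_add, h1, h2, db_congr (v := fun _ => 0) (h.mono fun y hy => hy _ _ (by omega)),
    db_congr (v := fun _ => 0) (h.mono fun y hy => hy _ _ k), db_const, db_const, add_zero]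

theorem Typ_R (h : Sm F) (A : MP 5) (k : ℕ) :
    ∀ x ≠ 0, (h.R k A).1 x - Typ_b F A k x ∈ Fl (6 - k) := by
  induction k with
  | zero =>
    intro x hx
    have e : (h.R 0 A).1 x = ct (vec true (nv F x)) (eval x A • Omg) := rfl
    rw [e, map_smul, Typ_nv, Typ_b, zero_add, pow_one, Typ_c, pow_zero, Module.End.one_apply,
      sub_self]
    exact zero_mem _
  | succ k ih =>
    intro x hx
    have e : (h.R (k + 1) A).1 x = ct (vec true (nv F x)) ((DD (h.R k A)).1 x) := by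
      rw [Sm.R, pow_succ']; rfl
    have hb := sm_diff (Typ_b_sm h hx A k)
    have h1 := Typ_Fl_ct (Typ_Fl_dd (((h.R k A).df hx).fun_sub hb) ((ne_zero_ev hx).mono ih)) (nv F x)
    have h2 := ct_mem_Ty (db_mem (s := true) (L := idE) (p := 5 - k) (q := k) hb
      (Eventually.of_forall fun y => Submodule.smul_mem _ _
        (Submodule.smul_mem _ _ (Typ_c_mem k)))) true (nv F x)
    rw [dd_sub ((h.R k A).df hx) hb, dd.eq_1 idE (Typ_b F A k), map_sub, map_add,
      Typ_db_b h hx] at h1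
    have h3 := add_mem h1 (Typ_Fl h2 (by simp; omega))
    rw [← sub_sub, sub_right_comm (_ : Λ 5), sub_add_cancel] at h3
    rwa [e, DD_apply _ hx, Nat.cast_succ, ← sub_sub]

theorem Typ_ak (k : ℕ) : ak F x k = ct (vec true x) (Typ_c F k x) := (Typ_ct_pow _ _ _).symm

theorem stTyp : StTyp := fun {F} h k A x hx => by
  refine ⟨?_, by rw [Typ_ak, ct_ct], fun _ => ?_, ?_⟩
  · have := ct_mem_Ty (Typ_c_mem (F := F) (x := x) k) true x
    simp only [dl_self, dl_ft, sub_zero] at this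
    rwa [Typ_ak, show (4 : ℤ) - k = 5 - k - 1 by ring]
  · induction k with
    | zero =>
      rw [ak, pow_zero, Module.End.one_apply, ct_comm, ct_comm (vec false x),
        ct_of_Eg_zero Typ_Omg.2]
      simp
    | succ k ih =>
      rw [ak, pow_succ', Module.End.mul_apply, Typ_ct_bar h, ← ak, ih, Typ_ak, ct_comm, Typ_j_c]
      simp
  · have := Typ_Fl_ct (Typ_R h A k x hx) x
    rw [map_sub, Typ_b, map_smul, map_smul, smul_smul, ← Typ_ak] at this
    rwa [show (5 : ℤ) - k = 6 - k - 1 by ring]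

end Vale.Agent.P287T.Per
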