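import Vale.Agent.P287T.Per.GM3
import Vale.Agent.P287T.Per.Typ

/-!
# P287, periods: the cup product of residue classes
-/

noncomputable section

namespace Vale.Agent.P287T.Per

open Set Function Topology Filter Module MvPolynomial P291Z P269 P269.Hdg P287Q P287Q.Hb P287Q.Cub
open scoped ComplexConjugate ContDiff ComplexOrder

variable {F A B : MP 5} {x : V} {r r' : ℤ} {a b : Λ 5} {i j n m : ℕ}

theorem Fl_mono (e : r ≤ r') (ha : a ∈ Fl r') : a ∈ Fl r := fun p q k => ha p q (k.trans_le e)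

theorem Fl_mul (ha : a ∈ Fl r) (hb : b ∈ Fl r') : a * b ∈ Fl (r + r') := by
  rw [← sum_pt a, ← sum_pt b]
  simp only [Finset.sum_mul, Finset.mul_sum]
  refine sum_mem fun p' _ => sum_mem fun q' _ => sum_mem fun p _ => sum_mem fun q _ => ?_
  by_cases h : p < r
  · rw [ha p q h, zero_mul]; exact zero_mem _
  by_cases h' : p' < r'
  · rw [hb p' q' h', mul_zero]; exact zero_mem _
  exact Typ_Fl (Ty_mul (pt_mem p q a) (pt_mem p' q' b)) (by omega)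

namespace Sm

variable (h : Sm F)
include h

theorem Fl_nl (hx : x ∈ Pub.cone F) (ha : a ∈ Fl 5) (h0 : ∀ s, ct (vec s x) a = 0) :
    a ∈ nl (Pub.cone F) x := by
  rw [← sum_pt a]
  refine sum_mem fun p _ => sum_mem fun q _ => ?_
  by_cases k : p < 5
  · rw [ha p q k]; exact zero_mem _
  · exact nul_big (n := 4) (pt_mem p q a) (fun s => by rw [← pt_ct, h0, map_zero])
      (h.subC.self_mem hx) hx.1 (h.subC.finrank_tn hx) (.inl (by omega))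

theorem r_Fl (k : ℕ) (A : MP 5) (hx : x ≠ 0) : (h.r k A).1 x ∈ Fl (4 - k) := by
  obtain ⟨h1, -, -, h2⟩ := stTyp h k A x hx
  simpa using add_mem (Fl_mono (r := 4 - k) (by omega) h2)
    (Submodule.smul_mem _ (eval x A * (gg F x)⁻¹ ^ (k + 1)) (Typ_Fl h1 le_rfl))

theorem ak_ct (k : ℕ) (hx : x ∈ Pub.cone F) (s : Bool) : ct (vec s x) (ak F x k) = 0 := by
  obtain ⟨-, h1, h2, -⟩ := stTyp h k 1 x hx.1
  cases s
  · exact h2 hx
  · exact h1

theorem r_mul (hA : h.r i A ∈ Ak 4) (hB : h.r j B ∈ Ak 4) (e : i + j = 4) (hx : x ∈ Pub.cone F) :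
    (h.r i A).1 x * (h.r j B).1 x - (eval x (A * B) * (gg F x)⁻¹ ^ 6) • (ak F x i * ak F x j) ∈
      nl (Pub.cone F) x := by
  obtain ⟨h1, -, -, h2⟩ := stTyp h i A x hx.1
  obtain ⟨-, -, -, h3⟩ := stTyp h j B x hx.1
  refine h.Fl_nl hx ?_ fun s => by
    simp only [map_sub, map_smul, ct_mul, Ak_ct hA s hx.1, Ak_ct hB s hx.1, h.ak_ct _ hx s, zero_mul,
      mul_zero, add_zero, smul_zero, sub_zero]
  have := add_mem (Fl_mono (r := 5) (by omega) (Fl_mul h2 (h.r_Fl j B hx.1)))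
    (Fl_mono (r := 5) (by omega) (Fl_mul (Submodule.smul_mem _ (eval x A * (gg F x)⁻¹ ^ (i + 1))
      (Typ_Fl h1 le_rfl)) h3))
  rwa [sub_mul, mul_sub, sub_add_sub_cancel, smul_mul_smul_comm, mul_mul_mul_comm, ← map_mul,
    ← pow_add, show i + 1 + (j + 1) = 6 by omega] at this

theorem J_low (b : StBnd) (hA : A.IsHomogeneous n) (hB : B.IsHomogeneous m) (e1 : n + 3 = 3 * i)
    (e2 : m + 3 = 3 * j) (e : i + j ≤ 3) : h.J (h.ρ i A * h.ρ j B) = 0 := by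
  have z1 := h.r_Z hA e1
  have z2 := h.r_Z hB e2
  have a1 := (h.mem_Z.1 z1).1
  have a2 := (h.mem_Z.1 z2).1
  rw [ρ, ρ, ← h.cls_mul8 z1 z2, h.cls_nl ((b h).1 _ (ML_Ak8 a1 a2)) (zero_mem _) fun x hx => ?_,
    h.cls_zero, map_zero]
  rw [sub_zero]
  exact h.Fl_nl hx (Fl_mono (by omega) (Fl_mul (h.r_Fl i A hx.1) (h.r_Fl j B hx.1)))
    fun s => Ak_ct (ML_Ak8 a1 a2) s hx.1

theorem J_22 (b : StBnd) (s : StHes) (hA : A.IsHomogeneous 3) (hB : B.IsHomogeneous 3) :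
    h.J (h.ρ 2 A * h.ρ 2 B) = -h.J (h.ρ 1 1 * h.ρ 3 (A * B)) := by
  obtain ⟨c, -, hc⟩ := s
  have z1 := h.r_Z (k := 2) hA rfl
  have z2 := h.r_Z (k := 2) hB rfl
  have z3 := h.r_Z (k := 1) hom_one rfl
  have z4 := h.r_Z (k := 3) (hA.mul hB) rfl
  have a1 := (h.mem_Z.1 z1).1
  have a2 := (h.mem_Z.1 z2).1
  have a3 := (h.mem_Z.1 z3).1
  have a4 := (h.mem_Z.1 z4).1
  have y1 := (b h).1 _ (ML_Ak8 a1 a2)
  have y2 := (b h).1 _ (ML_Ak8 a3 a4)
  rw [ρ, ρ, ρ, ρ, ← h.cls_mul8 z1 z2, ← h.cls_mul8 z3 z4, ← map_neg, ← h.cls_neg y2,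
    h.cls_nl y1 (neg_mem y2) fun x hx => ?_]
  have := add_mem (h.r_mul a1 a2 rfl hx) (h.r_mul a3 a4 rfl hx)
  rw [(hc h x hx).1, (hc h x hx).2.1, one_mul, smul_neg, sub_neg_eq_add, sub_add_add_cancel] at this
  rw [sub_neg_eq_add]
  exact this

theorem J_jac (b : StBnd) (hA : A.IsHomogeneous 4) (j : Fin 6) :
    h.J (h.ρ 1 1 * h.ρ 3 (A * pderiv j F)) = 0 := by
  rw [h.ρ_jac (n := 3) (k := 2) hA rfl]
  exact h.J_low b hom_one (m := 3) hA.pderiv rfl rfl le_rfl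

theorem vol_eq (x : V) :
    h.vol.1 x = ((gg F x)⁻¹ ^ 2) • (ak F x 0 * cjL (ak F x 0)) := by
  have e : h.o4.1 x = (gg F x)⁻¹ • ak F x 0 := by
    change ct _ (ct _ (eval x (1 : MP 5) • Omg)) = _
    rw [map_one, one_smul, Typ_nv, map_smul]; rfl
  rw [vol, ML_apply, CL_apply, e, cjL_smul, smul_mul_smul_comm, map_inv₀, gg, FSH.conj_nu, sq]

theorem J_hes (b : StBnd) (s : StHes) (q : StPos) (l : StAlg) :
    h.J (h.ρ 1 1 * h.ρ 3 (Hes F)) ≠ 0 := by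
  obtain ⟨c, c0, hc⟩ := s
  obtain ⟨d, d0, hd⟩ := q h
  obtain ⟨l1, l2, -⟩ := l h
  have c1 : (-c : ℂ) ≠ 0 := neg_ne_zero.2 (Complex.ofReal_ne_zero.2 c0)
  have z3 := h.r_Z (k := 1) hom_one rfl
  have z4 := h.r_Z (k := 3) l1 rfl
  have a3 := (h.mem_Z.1 z3).1
  have a4 := (h.mem_Z.1 z4).1
  obtain ⟨t, -, t1, t2⟩ := hd 6 (fun x => eval x (Hes F)) (fun x => nu x * (gg F x)⁻¹ ^ 5)
    (fun x _ => sm_eval _ x) (hm_eval l1)
    (fun x hx => (contDiffAt_nu x).mul (Typ_g_sm h hx 5)) (fun t x ht hx => by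
      have h1 : conj t ≠ 0 := (map_ne_zero _).2 ht
      have h2 := h.gg_ne hx
      simp only [nu_smul, h.gg_smul, smul_eq_mul]
      norm_num
      field_simp) (fun x hx => by
      have k : 0 < nu x * (gg F x)⁻¹ ^ 5 :=
        mul_pos (nu_pos hx) (pow_pos (inv_pos.2 (nu_pos (h.gr_ne hx))) 5)
      exact ⟨_, (Complex.pos_iff.1 k).1, Complex.ext rfl (Complex.pos_iff.1 k).2.symm⟩)
    ((-c : ℂ)⁻¹ • ML (h.r 1 1) (h.r 3 (Hes F))) (Submodule.smul_mem _ _ (ML_Ak8 a3 a4))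
    fun x hx => by
      obtain ⟨e1, -, e2⟩ := hc h x hx
      have k1 := h.r_mul a3 a4 rfl hx
      have k2 := Submodule.smul_mem _ (MvPolynomial.eval x (Hes F) * (gg F x)⁻¹ ^ 6)
        (nul_mul_left e2 (ak F x 0))
      rw [e1, one_mul] at k1
      have k3 := Submodule.smul_mem _ (-c : ℂ)⁻¹ (sub_mem k1 k2)
      rw [mul_sub, smul_sub (MvPolynomial.eval x _ * _), smul_neg, sub_neg_eq_add, add_sub_assoc, sub_sub_cancel,
        mul_smul_comm, smul_smul, smul_add, smul_smul] at k3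
      rw [h.vol_eq x, smul_smul, sub_eq_add_neg, ← neg_smul, Submodule.coe_smul, Pi.smul_apply,
        ML_apply]
      have := Complex.ofReal_ne_zero.2 c0
      have := h.gg_ne hx.1
      rwa [show ∀ a b : ℂ, -(a * conj a * (b * (gg F x)⁻¹ ^ 5) * (gg F x)⁻¹ ^ 2) = (-c : ℂ)⁻¹ *
        (a * (gg F x)⁻¹ ^ 6 * (c * conj a * b * (gg F x)⁻¹)) from fun a b => by field_simp]
  rw [h.cls_smul _ ((b h).1 _ (ML_Ak8 a3 a4)), h.cls_mul8 z3 z4, map_smul] at t1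
  intro e
  rw [ρ, ρ] at e
  rw [e, smul_zero] at t1
  exact mul_ne_zero (Complex.ofReal_ne_zero.2 (t2 l2).ne') d0 t1.symm

end Sm

end Vale.Agent.P287T.Per
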