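import Vale.Agent.P287T.Per.Fin
import Vale.Agent.P287T.Per.Hes

/-!
# Block PER: the period map of cubic fourfolds
-/

namespace Vale.Agent.P287T.Per

/-- the period map of cubic fourfolds is a local submersion onto the period domain -/
theorem stPer : StPer := stPer_of stHes

end Vale.Agent.P287T.Per
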