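import Vale.Agent.P287T.Per.St

/-!
# P287, periods: forms of given weight on the cone
-/

noncomputable section

namespace Vale.Agent.P287T.Per

open Set Function Topology Filter Module MvPolynomial P291Z P269 P269.Hdg P287Q P287Q.Hb
open scoped ComplexConjugate ContDiff

variable {F : MP 5} {x : V} {p q m w m' w' : ℤ} {u v : SM 5}

theorem Fw_congr (hu : u ∈ Fw m w) (h : ∀ x ≠ 0, v.1 x = u.1 x) : v ∈ Fw m w :=
  ⟨fun p q => Fm_congr (hu.1 p q) fun x hx => by simp [h x hx],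
    fun x hx => by rw [h x hx]; exact hu.2 x hx⟩

theorem Fw_of_zero (h : ∀ x ≠ 0, u.1 x = 0) : u ∈ Fw m w := Fw_congr (zero_mem _) h

theorem Fm_le_Fw (hu : u ∈ Fm p q w) (e : p + q = m) : u ∈ Fw m w := by
  refine ⟨fun p' q' => ?_, fun x hx => e ▸ Ty_le_Dg (hu.1 x hx).1⟩
  by_cases h : p' = p ∧ q' = q
  · obtain ⟨rfl, rfl⟩ := h
    exact Fm_congr hu fun x hx => pt_self (hu.1 x hx).1
  · exact Fm_congr (zero_mem _) fun x hx => by
      rw [PT_apply, pt_of_mem (hu.1 x hx).1, if_neg h]; rfl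

theorem Fw_map (T : SM 5 →ₗ[ℂ] SM 5) (K : Submodule ℂ (SM 5))
    (h0 : ∀ u : SM 5, (∀ x ≠ 0, u.1 x = 0) → T u ∈ K)
    (h : ∀ p q, p + q = m → ∀ u ∈ Fm p q w, T u ∈ K) (hu : u ∈ Fw m w) : T u ∈ K := by
  rw [← sum_PT u, map_sum]
  refine Submodule.sum_mem _ fun p _ => ?_
  rw [map_sum]
  refine Submodule.sum_mem _ fun q _ => ?_
  by_cases e : p + q = m
  · exact h p q e _ (hu.1 p q)
  · exact h0 _ fun x hx => pt_of_Dg (hu.2 x hx) e

theorem DB_Fm' (hu : u ∈ Fm p q w) : DB true u ∈ Fm (p + 1) q w := by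
  refine ⟨fun x hx => ⟨by simpa using DB_ty true (fun x hx => (hu.1 x hx).1) hx, ?_⟩, ?_⟩
  · rw [DB_apply _ _ hx]; exact ct_db_of_ne (by simp) (fun x hx => (hu.1 x hx).2) hx
  · have := DB_hm true hu.2
    simp only [dl_self, dl_ft, sub_zero] at this
    rwa [sub_sub] at this

theorem DD_of_zero' (h : ∀ x ≠ 0, u.1 x = 0) (hx : x ≠ 0) : (DD u).1 x = 0 := by
  rw [DD_apply _ hx, dd_congr (v := fun _ => 0) ((ne_zero_ev hx).mono h), dd_const]

theorem DD_congr (h : ∀ x ≠ 0, u.1 x = v.1 x) (hx : x ≠ 0) : (DD u).1 x = (DD v).1 x := by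
  rw [DD_apply _ hx, DD_apply _ hx, dd_congr ((ne_zero_ev hx).mono h)]

theorem DD_Fw (hu : u ∈ Fw m w) : DD u ∈ Fw (m + 1) w :=
  Fw_map DD _ (fun _ h => Fw_of_zero fun _ hx => DD_of_zero' h hx)
    (fun _ _ e _ hu => add_mem (Fm_le_Fw (DB_Fm' hu) (by omega)) (Fm_le_Fw (DB_Fm hu) (by omega))) hu

theorem CT_Fw {ξ : V → V} (h : ∀ x ≠ 0, ContDiffAt ℝ ∞ ξ x) {e : ℤ} (hm : Hdg.Hm (1 - e) 0 ξ)
    (hu : u ∈ Fw m w) : CT true ξ h u ∈ Fw (m - 1) (w - e) :=
  Fw_map _ _ (fun _ h => Fw_of_zero fun x hx => by simp [h x hx])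
    (fun _ _ e _ hu => Fm_le_Fw (CT_Fm h hm hu) (by omega)) hu

theorem ML_Fw (hu : u ∈ Fm p q w') (hv : v ∈ Fw m w) : ML u v ∈ Fw (p + q + m) (w' + w) :=
  Fw_map _ _ (fun _ h => Fw_of_zero fun x hx => by simp [h x hx])
    (fun _ _ e _ hv => Fm_le_Fw (ML_Fm hu hv) (by omega)) hv

theorem MF_Fw {g : V → ℂ} (hg : ∀ x ≠ 0, ContDiffAt ℝ ∞ g x) {e : ℤ} (hm : Hdg.Hm e 0 g)
    (hu : u ∈ Fw m w) : MF g hg u ∈ Fw m (w + e) :=
  Fw_map _ _ (fun _ h => Fw_of_zero fun x hx => by simp [h x hx])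
    (fun _ _ e _ hu => Fm_le_Fw (MF_Fm hg hm hu) e) hu

theorem Fw_cast (hu : u ∈ Fw m w) (e : m = m') (e' : w = w') : u ∈ Fw m' w' := e ▸ e' ▸ hu

theorem iE_apply (u : SM 5) (x : V) : (iE u).1 x = ct (vec true x) (u.1 x) := rfl

theorem iE_Fw (hu : u ∈ Fw m w) : iE u ∈ Fw (m - 1) w :=
  Fw_cast (CT_Fw (e := 0) _ (by simpa using hm_id) hu) rfl (sub_zero w)

theorem iE_Ak (hu : u ∈ Fw m 0) : iE u ∈ Ak (m - 1) :=
  Fw_map _ _ (fun _ h => Ak_of_zero fun x hx => by simp [iE_apply, h x hx])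
    (fun p q e u hu => by
      rw [← e, add_sub_right_comm]
      have := CT_Fm (e := 0) (ξ := fun x => x) (fun _ _ => contDiffAt_id) (by simpa using hm_id) hu
      rw [sub_zero] at this
      exact Om_le_Ak ⟨this, fun x _ => ct_ct _ _⟩) hu

/-- The formula of Cartan for the Euler field. -/
theorem iE_DD (hu : u ∈ Fw m w) (hx : x ≠ 0) :
    (iE (DD u)).1 x + (DD (iE u)).1 x = (w : ℂ) • u.1 x := by
  have := Fw_map (iE ∘ₗ DD + DD ∘ₗ iE - (w : ℂ) • LinearMap.id) (Z0 5) (fun u h x hx => ?_)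
    (fun p q _ u hu x hx => ?_) hu x hx
  · exact sub_eq_zero.1 this
  · have h1 : ∀ x ≠ 0, (iE u).1 x = 0 := fun x hx => by rw [iE_apply, h x hx, map_zero]
    change ct _ ((DD u).1 x) + (DD (iE u)).1 x - (w : ℂ) • u.1 x = 0
    rw [DD_of_zero' h hx, DD_of_zero' h1 hx, h x hx]; simp
  · change ct _ ((DD u).1 x) + (DD (iE u)).1 x - (w : ℂ) • u.1 x = 0
    have h1 := db_ct_euler true true (u.df hx)
    have h2 := db_ct_euler false true (u.df hx)
    rw [mem_Eg.1 (hu.1 x hx).1.1, hu.2.euler hx (u.df hx)] at h1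
    rw [DD_apply _ hx, DD_apply _ hx, dd, dd, map_add]
    change _ + (db true idE (fun y => ct (vec true y) (u.1 y)) x +
      db false idE (fun y => ct (vec true y) (u.1 y)) x) - _ = 0
    rw [h1, h2]
    simp [sub_smul]
    abel

theorem Omg_Ty : Omg ∈ Ty (6 : ℤ) 0 := by
  have : ∀ L : List (Fin 6), wl (L.map (dz true)) ∈ Ty (N := 5) L.length 0 := fun L => by
    induction L with
    | nil => exact one_mem_Ty
    | cons j L ih =>
      rw [List.map_cons, wl_cons, List.length_cons, Nat.cast_succ, add_comm]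
      simpa [dz] using Ty_mul (io_cv_mem_Ty true _) ih
  have h := this (List.finRange 6)
  rwa [← List.ofFn_eq_map, List.length_finRange] at h

theorem PO_apply (A : MP 5) (x : V) : (PO A).1 x = eval x A • Omg := rfl

theorem PO_Fm {A : MP 5} {a : ℕ} (hA : A.IsHomogeneous a) : PO A ∈ Fm 6 0 (a + 6) :=
  ⟨fun x _ => ⟨Submodule.smul_mem _ _ Omg_Ty, by
    rw [PO_apply, map_smul, ct_of_Eg_zero Omg_Ty.2, smul_zero]⟩, by
    have := (hm_eval hA).smul (Hdg.Hm.const (N := 5) Omg)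
    rw [add_zero, add_zero] at this
    rwa [add_sub_cancel_right, neg_zero]⟩

theorem io_Omg (l : V →L[ℂ] ℂ) : io (cv true l) * Omg = 0 :=
  Eg_big (s := true) (r := 1 + 6) (by norm_num) (Eg_mul (by simpa using io_cv_mem true true l) Omg_Ty.1)

theorem dd_PO (A : MP 5) (x : V) : dd idE (PO A).1 x = 0 := by
  change dd idE (fun y => eval y A • Omg) x = 0
  rw [dd_smul (sm_diff (sm_eval A x)) (differentiableAt_const _), dd_const, smul_zero, add_zero,
    ContinuousLinearMap.comp_id]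
  exact (congrArg (fun w => io w * Omg) (fderiv_sg_eval true A x)).trans (io_Omg _)

theorem DD_PO (A : MP 5) (hx : x ≠ 0) : (DD (PO A)).1 x = 0 := (DD_apply _ hx).trans (dd_PO A x)

theorem DD_dF (F : MP 5) (u : SM 5) (hx : x ≠ 0) :
    (DD (ML (dfS true F) u)).1 x = -(io (df true F x) * (DD u).1 x) := by
  rw [DD_apply _ hx, DD_apply _ hx, dd, dd, mul_add, neg_add]
  exact congrArg₂ _ (db_df_mul true true F (u.df hx)) (db_df_mul true false F (u.df hx))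

namespace Sm

variable (h : Sm F)

theorem iN_apply (u : SM 5) (x : V) : (h.iN u).1 x = ct (vec true (nv F x)) (u.1 x) := rfl

theorem S_apply (u : SM 5) (x : V) : (h.S u).1 x = ct (vec true (nv F x)) ((DD u).1 x) := rfl

theorem iN_Fw (hu : u ∈ Fw m w) : h.iN u ∈ Fw (m - 1) (w - 3) := CT_Fw _ h.hm_nv hu

theorem S_Fw (hu : u ∈ Fw m w) : h.S u ∈ Fw m (w - 3) :=
  Fw_cast (h.iN_Fw (DD_Fw hu)) (by omega) rfl

include h

theorem dF_Fw (hu : u ∈ Fw m w) : ML (dfS true F) u ∈ Fw (m + 1) (w + 3) :=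
  Fw_cast (ML_Fw (dfS_Fm h.hom) hu) (by omega) (by push_cast; omega)

theorem ct_dF (hx : x ≠ 0) (o : Λ 5) : ct (vec true (nv F x)) (io (df true F x) * o) =
    o - io (df true F x) * ct (vec true (nv F x)) o := by
  rw [ct_io_mul, vec_df, if_pos rfl, h.dEval_nv hx, sg_true, one_smul]

/-- Division by `dF`. -/
theorem div_dF (hx : x ≠ 0) {o : Λ 5} (ho : io (df true F x) * o = 0) :
    io (df true F x) * ct (vec true (nv F x)) o = o := by
  have := h.ct_dF hx o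
  rw [ho, map_zero] at this
  exact (sub_eq_zero.1 this.symm).symm

end Sm

end Vale.Agent.P287T.Per
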