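import Vale.Agent.P287T.Per.Res1

/-!
# P287, periods: towers of forms, the residue forms, reduction of the pole order
-/

noncomputable section

namespace Vale.Agent.P287T.Per

open Set Function Topology Filter Module MvPolynomial P291Z P269 P269.Hdg P287Q P287Q.Hb
open scoped ComplexConjugate ContDiff

variable {F : MP 5} {x : V} {p q m w m' w' : ℤ} {u v : SM 5} {a b : ℕ → SM 5} {A : MP 5} {n k : ℕ}

/-- Exact forms plus multiples of `dF`. -/
def NN (F : MP 5) (m w : ℤ) : Submodule ℂ (SM 5) where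
  carrier := {u | ∃ c ∈ Fw (m - 1) w, ∃ b ∈ Fw (m - 1) (w - 3),
    ∀ x ≠ 0, u.1 x = (DD c).1 x + io (df true F x) * b.1 x}
  zero_mem' := ⟨0, zero_mem _, 0, zero_mem _, fun _ _ => by simp⟩
  add_mem' := by
    rintro u v ⟨c, h1, b, h2, h3⟩ ⟨c', k1, b', k2, k3⟩
    exact ⟨c + c', add_mem h1 k1, b + b', add_mem h2 k2, fun x hx => by
      simp only [map_add, Submodule.coe_add, Pi.add_apply, h3 x hx, k3 x hx, mul_add]; abel⟩
  smul_mem' := by
    rintro s u ⟨c, h1, b, h2, h3⟩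
    exact ⟨s • c, Submodule.smul_mem _ _ h1, s • b, Submodule.smul_mem _ _ h2, fun x hx => by
      simp only [map_smul, Submodule.coe_smul, Pi.smul_apply, h3 x hx, smul_add, mul_smul_comm]⟩

/-- A tower: `d a_k = dF ∧ a_(k+1)`. -/
structure Tw (F : MP 5) (m w : ℤ) (a : ℕ → SM 5) : Prop where
  fw : ∀ k : ℕ, a k ∈ Fw m (w - 3 * k)
  nx : ∀ k, ∀ x ≠ 0, (DD (a k)).1 x = io (df true F x) * (a (k + 1)).1 x

theorem Tw.sub (ha : Tw F m w a) (hb : Tw F m w b) : Tw F m w fun k => a k - b k :=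
  ⟨fun k => sub_mem (ha.fw k) (hb.fw k), fun k x hx => by
    simp only [map_sub, Submodule.coe_sub, Pi.sub_apply, ha.nx k x hx, hb.nx k x hx, mul_sub]⟩

theorem Tw.add (ha : Tw F m w a) (hb : Tw F m w b) : Tw F m w fun k => a k + b k :=
  ⟨fun k => add_mem (ha.fw k) (hb.fw k), fun k x hx => by
    simp only [map_add, Submodule.coe_add, Pi.add_apply, ha.nx k x hx, hb.nx k x hx, mul_add]⟩

theorem Tw.shift (ha : Tw F m w a) : Tw F m (w - 3) fun k => a (k + 1) :=
  ⟨fun k => Fw_cast (ha.fw (k + 1)) rfl (by push_cast; ring), fun k => ha.nx (k + 1)⟩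

theorem Tw.cast (ha : Tw F m w a) (e : w = w') : Tw F m w' a := e ▸ ha

theorem dF_DD_of (e : ∀ x ≠ 0, io (df true F x) * u.1 x = v.1 x) (hx : x ≠ 0) :
    io (df true F x) * (DD u).1 x = -(DD v).1 x := by
  rw [← DD_congr (u := ML (dfS true F) u) e hx, DD_dF F u hx, neg_neg]

namespace Sm

variable (h : Sm F)
include h

theorem NN_of_dF (hu : u ∈ Fw m w) (h0 : ∀ x ≠ 0, io (df true F x) * u.1 x = 0) : u ∈ NN F m w :=
  ⟨0, zero_mem _, h.iN u, h.iN_Fw hu, fun x hx => by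
    rw [iN_apply, h.div_dF hx (h0 x hx)]; simp⟩

theorem NN_next (hu : u ∈ NN F m w) (hv : v ∈ Fw m (w - 3))
    (e : ∀ x ≠ 0, (DD u).1 x = io (df true F x) * v.1 x) : v ∈ NN F m (w - 3) := by
  obtain ⟨c, -, b, h2, h3⟩ := hu
  have h4 : v + DD b ∈ NN F m (w - 3) :=
    h.NN_of_dF (add_mem hv (Fw_cast (DD_Fw h2) (by omega) rfl)) fun x hx => by
      rw [Submodule.coe_add, Pi.add_apply, mul_add, ← e x hx,
        DD_congr (v := DD c + ML (dfS true F) b) h3 hx, map_add, Submodule.coe_add, Pi.add_apply,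
        DD_DD c hx, DD_dF F b hx, zero_add, neg_add_cancel]
  have h5 : DD b ∈ NN F m (w - 3) := ⟨b, h2, 0, zero_mem _, fun _ _ => by simp⟩
  simpa using sub_mem h4 h5

theorem tw_NN (ha : Tw F m w a) (h0 : a 0 ∈ NN F m w) (k : ℕ) : a k ∈ NN F m (w - 3 * k) := by
  induction k with
  | zero => simpa using h0
  | succ k ih =>
    rw [show w - 3 * ((k + 1 : ℕ) : ℤ) = w - 3 * k - 3 by push_cast; ring]
    exact h.NN_next ih (Fw_cast (ha.fw (k + 1)) rfl (by push_cast; ring)) (ha.nx k)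

theorem tw_of (hu : u ∈ Fw m w) (h0 : ∀ x ≠ 0, io (df true F x) * (DD u).1 x = 0) :
    Tw F m w fun k => (h.S ^ k) u := by
  have key : ∀ k, (h.S ^ k) u ∈ Fw m (w - 3 * (k : ℕ)) ∧
      ∀ x ≠ 0, io (df true F x) * (DD ((h.S ^ k) u)).1 x = 0 := fun k => by
    induction k with
    | zero => exact ⟨by simpa using hu, h0⟩
    | succ k ih =>
      rw [pow_succ', Module.End.mul_apply]
      exact ⟨Fw_cast (h.S_Fw ih.1) rfl (by push_cast; ring), fun x hx => by
        rw [dF_DD_of (fun x hx => h.div_dF hx (ih.2 x hx)) hx, DD_DD _ hx, neg_zero]⟩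
  exact ⟨fun k => (key k).1, fun k x hx => by
    rw [pow_succ', Module.End.mul_apply]; exact (h.div_dF hx ((key k).2 x hx)).symm⟩

/-- The tower of a closed form killed by `dF`. -/
theorem tw_iN (hu : u ∈ Fw m w) (h0 : ∀ x ≠ 0, io (df true F x) * u.1 x = 0)
    (h1 : ∀ x ≠ 0, (DD u).1 x = 0) : Tw F (m - 1) (w - 3) fun k => (h.S ^ k) (h.iN u) :=
  h.tw_of (h.iN_Fw hu) fun x hx => by
    rw [dF_DD_of (fun x hx => h.div_dF hx (h0 x hx)) hx, h1 x hx, neg_zero]

theorem iE_dF_nl (hx : x ∈ Pub.cone F) (o : Λ 5) :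
    ct (vec true x) (io (df true F x) * o) ∈ nl (Pub.cone F) x := by
  rw [ct_io_mul, vec_df, if_pos rfl, dEval_self h.hom, hx.2, mul_zero, map_zero, zero_smul, zero_sub]
  exact neg_mem (h.df_nl hx _ _)

theorem iE_Z (hu : u ∈ Fw m 0) (e : ∀ x ≠ 0, (DD u).1 x = io (df true F x) * v.1 x) :
    iE u ∈ h.Z (m - 1) :=
  h.mem_Z.2 ⟨iE_Ak hu, fun x hx => by
    have := iE_DD hu hx.1
    rw [Int.cast_zero, zero_smul, add_eq_zero_iff_neg_eq, iE_apply, e x hx.1] at this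
    exact this ▸ neg_mem (h.iE_dF_nl hx _)⟩

theorem iE_B (hu : u ∈ NN F m 0) : iE u ∈ h.B (m - 1) := by
  obtain ⟨c, h1, b, -, h3⟩ := hu
  refine h.mem_B.2 ⟨-iE c, neg_mem (iE_Ak h1), fun x hx => ?_⟩
  have := iE_DD h1 hx.1
  rw [Int.cast_zero, zero_smul, iE_apply] at this
  rw [map_neg, sub_neg_eq_add, Submodule.coe_add, Pi.add_apply, iE_apply, h3 x hx.1, map_add,
    add_right_comm, this, zero_add]
  exact h.iE_dF_nl hx _

theorem tw_Z (ha : Tw F 5 w a) (e : w = 3 * k) : iE (a k) ∈ h.Z 4 :=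
  h.iE_Z (m := 5) (Fw_cast (ha.fw k) rfl (by omega)) (ha.nx k)

/-- Two towers which begin in the same way have the same residue classes. -/
theorem tw_cls (ha : Tw F 5 w a) (hb : Tw F 5 w b) (h0 : a 0 - b 0 ∈ NN F 5 w) (e : w = 3 * k) :
    h.cls 4 (iE (a k)) = h.cls 4 (iE (b k)) := by
  refine h.cls_congr (h.tw_Z ha e) (h.tw_Z hb e) ?_
  have := h.tw_NN (ha.sub hb) h0 k
  rw [e, sub_self] at this
  rw [← map_sub]
  exact h.iE_B (m := 5) this

omit h in
theorem dF_PO (A : MP 5) (x : V) : io (df true F x) * (PO A).1 x = 0 := by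
  rw [PO_apply, mul_smul_comm, df, io_Omg, smul_zero]

theorem R_tw (hA : A.IsHomogeneous n) : Tw F 5 (n + 3) fun k => h.R k A :=
  (h.tw_iN (m := 6) (Fm_le_Fw (PO_Fm hA) rfl) (fun x _ => dF_PO A x) fun _ hx => DD_PO A hx).cast
    (by ring)

theorem r_Z (hA : A.IsHomogeneous n) (e : n + 3 = 3 * k) : h.r k A ∈ h.Z 4 :=
  h.tw_Z (a := fun k => h.R k A) (h.R_tw hA) (by exact_mod_cast e)

theorem ρ_deg (k : ℕ) (A : MP 5) : H.IsDeg 4 (h.ρ k A) := h.cls_deg _ _

theorem ρ_add {B : MP 5} (hA : A.IsHomogeneous n) (hB : B.IsHomogeneous n) (e : n + 3 = 3 * k) :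
    h.ρ k (A + B) = h.ρ k A + h.ρ k B := by
  rw [ρ, map_add, h.cls_add (h.r_Z hA e) (h.r_Z hB e), ρ, ρ]

theorem ρ_smul (c : ℂ) (hA : A.IsHomogeneous n) (e : n + 3 = 3 * k) :
    h.ρ k (c • A) = c • h.ρ k A := by
  rw [ρ, map_smul, h.cls_smul c (h.r_Z hA e), ρ]

theorem ρ_zero (k : ℕ) : h.ρ k 0 = 0 := by rw [ρ, map_zero, h.cls_zero]

theorem ρ_sum {ι : Type} (s : Finset ι) {A : ι → MP 5} (hA : ∀ i, (A i).IsHomogeneous n)
    (e : n + 3 = 3 * k) : h.ρ k (∑ i ∈ s, A i) = ∑ i ∈ s, h.ρ k (A i) := by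
  classical
  induction s using Finset.induction_on with
  | empty => simpa using h.ρ_zero k
  | insert i s hi ih =>
    rw [Finset.sum_insert hi, Finset.sum_insert hi,
      h.ρ_add (hA i) (IsHomogeneous.sum _ _ _ fun i _ => hA i) e, ih]

/-- **Reduction of the pole order.** -/
theorem ρ_jac (hA : A.IsHomogeneous (n + 1)) (e : n + 3 = 3 * k) (j : Fin 6) :
    h.ρ (k + 1) (A * pderiv j F) = h.ρ k (pderiv j A) := by
  set c : SM 5 := CT true (fun _ => ee j) (fun _ _ => contDiffAt_const) (PO A) with hc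
  have k0 : ∀ (G : MP 5) (x : V), io (df true G x) * ct (vec true (ee j)) Omg =
      eval x (pderiv j G) • Omg := fun G x => by
    have := ct_io_mul (vec true (ee j)) (df true G x) Omg
    rw [show io (df true G x) * Omg = 0 from io_Omg _, map_zero, vec_df, if_pos rfl, sg_true,
      dEval_apply, Finset.sum_eq_single j (fun i _ hi => by simp [ee, hi]) (by simp)] at this
    simpa [ee] using (sub_eq_zero.1 this.symm).symm
  have k1 : c ∈ Fw 5 (n + 6) := Fw_cast (CT_Fw (e := 1) _ (by simpa using Hdg.Hm.const (ee j))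
    (Fm_le_Fw (PO_Fm hA) rfl)) rfl (by push_cast; ring)
  have k2 : ∀ x ≠ 0, (DD c).1 x = (PO (pderiv j A)).1 x := fun x hx => by
    rw [DD_apply _ hx, show c.1 = fun y => eval y A • ct (vec true (ee j)) Omg from
      funext fun y => map_smul _ _ _, dd_smul (sm_diff (sm_eval A x)) (differentiableAt_const _),
      dd_const, smul_zero, add_zero, ContinuousLinearMap.comp_id]
    exact (congrArg (fun w => io w * _) (fderiv_sg_eval true A x)).trans (k0 A x)
  have t1 := h.tw_of k1 fun x hx => by rw [k2 x hx, dF_PO]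
  have t2 : Tw F 5 (n + 6) fun k => h.R k (A * pderiv j F) :=
    (h.R_tw (hA.mul (h.hom_pd j))).cast (by push_cast; ring)
  have t3 : Tw F 5 (n + 6 - 3) fun k => h.R k (pderiv j A) :=
    (h.R_tw (n := n) hA.pderiv).cast (by ring)
  have e1 := h.tw_cls (k := k + 1) t2 t1 (h.NN_of_dF (by simpa using (t2.sub t1).fw 0) fun x hx => by
    change _ * (ct _ ((PO _).1 x) - ct _ (eval x A • Omg)) = 0
    rw [mul_sub, h.div_dF hx (dF_PO _ x), map_smul, mul_smul_comm, k0, PO_apply, map_mul,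
      smul_smul, sub_self]) (by push_cast; omega)
  have e2 := h.tw_cls (k := k) t1.shift t3 (h.NN_of_dF (by simpa using (t1.shift.sub t3).fw 0)
    fun x hx => by
      change _ * (ct _ ((DD c).1 x) - ct _ ((PO _).1 x)) = 0
      rw [k2 x hx, sub_self, mul_zero]) (by omega)
  exact e1.trans e2

/-- The relation of Euler. -/
theorem ρ_euler : h.ρ 2 F = (2 : ℂ) • h.ρ 1 1 := by
  have h1 : (3 : ℂ) • F = ∑ j, X j * pderiv j F := by
    rw [h.hom.sum_X_mul_pderiv]; exact Nat.cast_smul_eq_nsmul ℂ 3 F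
  have h2 := h.ρ_smul (k := 2) 3 h.hom rfl
  rw [h1, h.ρ_sum (n := 3) _ (fun j => (isHomogeneous_X ℂ j).mul (h.hom_pd j)) rfl,
    Finset.sum_congr rfl fun j _ => h.ρ_jac (n := 0) (k := 1) (isHomogeneous_X ℂ j) rfl j] at h2
  simp only [pderiv_X_self, Finset.sum_const, Finset.card_univ, Fintype.card_fin] at h2
  refine smul_right_injective _ (show (3 : ℂ) ≠ 0 by norm_num) ?_
  simp only [← h2, smul_smul, ← Nat.cast_smul_eq_nsmul ℂ]
  norm_num

end Sm

end Vale.Agent.P287T.Per
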